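import Vale.Agent.P200.Basic

/-!
Extension of the ground field and linear changes of variables.
-/

namespace Vale.Agent.P200

open MvPolynomial Module

variable {σ : Type*} {K L : Type*} [Field K] [Field L] [Algebra K L]

/-- Apply a function to all coefficients. -/
noncomputable def coeffFun (φ : L →ₗ[K] K) (u : MvPolynomial σ L) : MvPolynomial σ K :=
  ∑ e ∈ u.support, monomial e (φ (coeff e u))

lemma coeff_coeffFun (φ : L →ₗ[K] K) (u : MvPolynomial σ L) (e : σ →₀ ℕ) :
    coeff e (coeffFun φ u) = φ (coeff e u) := by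
  classical
  simp only [coeffFun, coeff_sum, coeff_monomial, Finset.sum_ite_eq', MvPolynomial.mem_support_iff]
  split_ifs with h
  · rfl
  · rw [not_not.1 h, map_zero]

/-- Apply a functional to all coefficients. -/
noncomputable def coeffwise (φ : L →ₗ[K] K) : MvPolynomial σ L →ₗ[K] MvPolynomial σ K where
  toFun := coeffFun φ
  map_add' u v := by ext e; simp only [coeff_coeffFun, coeff_add, map_add]
  map_smul' c u := by
    ext e
    simp only [coeff_coeffFun, coeff_smul, RingHom.id_apply, map_smul]

lemma coeff_coeffwise (φ : L →ₗ[K] K) (u : MvPolynomial σ L) (e : σ →₀ ℕ) :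
    coeff e (coeffwise φ u) = φ (coeff e u) :=
  coeff_coeffFun φ u e

lemma coeffwise_map_mul (φ : L →ₗ[K] K) (g : MvPolynomial σ K) (u : MvPolynomial σ L) :
    coeffwise φ (map (algebraMap K L) g * u) = g * coeffwise φ u := by
  classical
  ext e
  rw [coeff_coeffwise, coeff_mul, coeff_mul, map_sum]
  refine Finset.sum_congr rfl fun x _ => ?_
  rw [coeff_map, coeff_coeffwise, ← Algebra.smul_def, map_smul, smul_eq_mul]

/-- The extended ideal. -/
noncomputable def extI (J : Ideal (MvPolynomial σ K)) : Ideal (MvPolynomial σ L) :=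
  J.map (map (algebraMap K L))

lemma coeffwise_mem {J : Ideal (MvPolynomial σ K)} {u : MvPolynomial σ L}
    (hu : u ∈ extI (L := L) J) (φ : L →ₗ[K] K) : coeffwise φ u ∈ J := by
  suffices ∀ r : MvPolynomial σ L, coeffwise φ (r * u) ∈ J by simpa using this 1
  induction hu using Submodule.span_induction with
  | mem x hx =>
    intro r
    obtain ⟨j, hj, rfl⟩ := hx
    rw [mul_comm, coeffwise_map_mul]
    exact Ideal.mul_mem_right _ _ hj
  | zero => intro r; simp
  | add a b _ _ ha hb => intro r; rw [mul_add, map_add]; exact add_mem (ha r) (hb r)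
  | smul c x _ hx => intro r; rw [smul_eq_mul, ← mul_assoc]; exact hx _

lemma mem_of_coeffwise {V : Submodule L (MvPolynomial σ L)} {u : MvPolynomial σ L}
    (h : ∀ φ : L →ₗ[K] K, map (algebraMap K L) (coeffwise φ u) ∈ V) : u ∈ V := by
  classical
  let B := Basis.ofVectorSpace K L
  let ι : Finset _ := u.support.biUnion fun e => (B.repr (coeff e u)).support
  have hu : u = ∑ k ∈ ι, B k • map (algebraMap K L) (coeffwise (B.coord k) u) := by
    ext e
    simp only [coeff_sum, coeff_smul, coeff_map, coeff_coeffwise, smul_eq_mul]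
    conv_lhs => rw [← B.linearCombination_repr (coeff e u)]
    rw [Finsupp.linearCombination_apply, Finsupp.sum]
    refine (Finset.sum_subset ?_ ?_).trans (Finset.sum_congr rfl fun k _ => ?_)
    · intro k hk
      refine Finset.mem_biUnion.2 ⟨e, ?_, hk⟩
      rw [MvPolynomial.mem_support_iff]
      intro h0
      simp [h0] at hk
    · intro k _ hk
      simp [Finsupp.notMem_support_iff.1 hk]
    · rw [Algebra.smul_def, mul_comm]
      rfl
  rw [hu]
  exact sum_mem fun k _ => V.smul_mem _ (h _)

lemma mem_extI_iff {J : Ideal (MvPolynomial σ K)} {u : MvPolynomial σ L} :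
    u ∈ extI J ↔ ∀ φ : L →ₗ[K] K, coeffwise φ u ∈ J :=
  ⟨fun h φ => coeffwise_mem h φ, fun h => mem_of_coeffwise (V := (extI J).restrictScalars L)
    fun φ => Ideal.mem_map_of_mem _ (h φ)⟩

lemma nzd_extI {J : Ideal (MvPolynomial σ K)} {g : MvPolynomial σ K} (h : Nzd J g) :
    Nzd (extI (L := L) J) (map (algebraMap K L) g) := fun u hu =>
  mem_extI_iff.2 fun φ => h _ (by rw [← coeffwise_map_mul]; exact coeffwise_mem hu φ)

lemma coeffwise_homogeneousComponent (φ : L →ₗ[K] K) (t : ℕ) (u : MvPolynomial σ L) :
    coeffwise φ (homogeneousComponent t u) = homogeneousComponent t (coeffwise φ u) := by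
  ext e
  rw [coeff_coeffwise, coeff_homogeneousComponent, coeff_homogeneousComponent, coeff_coeffwise]
  split_ifs <;> simp

lemma homogI_extI {J : Ideal (MvPolynomial σ K)} (hJ : HomogI J) : HomogI (extI (L := L) J) :=
  fun u hu t => mem_extI_iff.2 fun φ => by
    rw [coeffwise_homogeneousComponent]
    exact hJ _ (coeffwise_mem hu φ) t

lemma finrank_degPart_extI [Finite σ] (J : Ideal (MvPolynomial σ K)) (t : ℕ) :
    finrank L (degPart t (extI (L := L) J)) = finrank K (degPart t J) := by
  let b := Module.finBasis K (degPart t J)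
  let v : Fin (finrank K (degPart t J)) → MvPolynomial σ L :=
    fun i => map (algebraMap K L) (b i : MvPolynomial σ K)
  have hli : LinearIndependent L v := by
    rw [Fintype.linearIndependent_iff]
    intro c hc i
    by_contra hne
    obtain ⟨φ, hφ⟩ : ∃ φ : L →ₗ[K] K, φ (c i) ≠ 0 := by
      by_contra hcon
      push Not at hcon
      let B := Basis.ofVectorSpace K L
      exact hne (B.repr.map_eq_zero_iff.1 (Finsupp.ext fun k => hcon (B.coord k)))
    have h0 : ∑ k, φ (c k) • (b k : MvPolynomial σ K) = 0 := by
      have := congrArg (coeffwise φ) hc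
      rw [map_sum, map_zero] at this
      rw [← this]
      refine Finset.sum_congr rfl fun k _ => ?_
      ext e
      simp only [v, coeff_coeffwise, coeff_smul, coeff_map, smul_eq_mul]
      rw [mul_comm (c k), ← Algebra.smul_def, map_smul, smul_eq_mul, mul_comm]
    have hb := Fintype.linearIndependent_iff.1 b.linearIndependent (fun k => φ (c k))
      (Subtype.ext (by simpa using h0)) i
    exact hφ hb
  have hspan : degPart t (extI (L := L) J) = Submodule.span L (Set.range v) := by
    refine le_antisymm (fun u hu => ?_) (Submodule.span_le.2 ?_)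
    · refine mem_of_coeffwise (K := K) fun φ => ?_
      have hmem : coeffwise φ u ∈ degPart t J := by
        refine mem_degPart.2 ⟨fun e he => (mem_degPart.1 hu).1 ?_, coeffwise_mem (mem_degPart.1 hu).2 φ⟩
        intro h0
        rw [coeff_coeffwise, h0, map_zero] at he
        exact he rfl
      have := congrArg Subtype.val (b.sum_repr ⟨_, hmem⟩)
      simp only [Submodule.coe_sum, Submodule.coe_smul] at this
      rw [← this, map_sum]
      refine sum_mem fun k _ => ?_
      rw [smul_eq_C_mul, map_mul, map_C, ← smul_eq_C_mul]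
      exact Submodule.smul_mem _ _ (Submodule.subset_span ⟨k, rfl⟩)
    · rintro _ ⟨i, rfl⟩
      exact mem_degPart.2 ⟨(mem_degPart.1 (b i).2).1.map _,
        Ideal.mem_map_of_mem _ (mem_degPart.1 (b i).2).2⟩
  rw [hspan, finrank_span_eq_card hli, Fintype.card_fin]

lemma constantCoeff_ofList {K : Type*} [Field K] {Ls : List (MvPolynomial σ K)}
    (hL : ∀ g ∈ Ls, HomogPos g) : (1 : MvPolynomial σ K) ∉ Ideal.ofList Ls := by
  intro h
  have hle : Ideal.ofList Ls ≤ RingHom.ker (constantCoeff : MvPolynomial σ K →+* K) := by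
    refine Ideal.span_le.2 fun g hg => ?_
    obtain ⟨d, hd, hgd⟩ := hL g hg
    rw [SetLike.mem_coe, RingHom.mem_ker, constantCoeff_eq]
    exact hgd.coeff_eq_zero (by simp; omega)
  simpa [RingHom.mem_ker] using hle h

/-- Extend a regular sequence by linear forms. -/
lemma exists_linear_extension {K : Type*} [Field K] [Fintype σ] [Infinite K]
    {L₀ : List (MvPolynomial σ K)} (hL : ∀ g ∈ L₀, HomogPos g) (h : RegList ⊥ L₀) :
    ∀ k, L₀.length + k ≤ Fintype.card σ → ∃ ls : Fin k → MvPolynomial σ K,
      (∀ i, (ls i).IsHomogeneous 1) ∧ RegList ⊥ (L₀ ++ List.ofFn ls) ∧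
      LinearIndependent K ls := by
  intro k
  induction k with
  | zero => intro _; exact ⟨Fin.elim0, fun i => i.elim0, by simpa using h, linearIndependent_empty_type⟩
  | succ k ih =>
    intro hk
    obtain ⟨ls, hls, hreg, hind⟩ := ih (by omega)
    have hall : ∀ g ∈ L₀ ++ List.ofFn ls, HomogPos g := by
      intro g hg
      rcases List.mem_append.1 hg with hg | hg
      · exact hL g hg
      · obtain ⟨i, rfl⟩ := List.mem_ofFn.1 hg
        exact ⟨1, one_pos, hls i⟩
    obtain ⟨l, hl, hln⟩ := exists_linear_nzd (regList_socFree hall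
      (by simp only [List.length_append, List.length_ofFn]; omega) hreg)
    refine ⟨Fin.snoc ls l, fun i => ?_, ?_, ?_⟩
    · refine Fin.lastCases ?_ (fun j => ?_) i
      · rw [Fin.snoc_last]; exact hl
      · rw [Fin.snoc_castSucc]; exact hls j
    · rw [List.ofFn_succ', List.concat_eq_append]
      simp only [Fin.snoc_castSucc, Fin.snoc_last]
      rw [← List.append_assoc, regList_concat, sup_bot_eq]
      exact ⟨hreg, hln⟩
    · rw [linearIndependent_finSnoc]
      refine ⟨hind, fun hmem => constantCoeff_ofList hall (hln 1 ?_)⟩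
      rw [mul_one]
      refine (Submodule.span_le (p := (Ideal.ofList (L₀ ++ List.ofFn ls)).restrictScalars K)).2 ?_ hmem
      rintro _ ⟨i, rfl⟩
      exact Ideal.subset_span (by simp)

end Vale.Agent.P200
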