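import Vale.Agent.P200.Layer
import Vale.Agent.P200.Extend

/-!
Assembly: any field, any number of variables.
-/

namespace Vale.Agent.P200

open MvPolynomial Module

variable {K : Type*} [Field K]

lemma finrank_monomialIdeal {σ : Type*} (s : Set (σ →₀ ℕ))
    (hs : ∀ e ∈ s, ∀ e', e ≤ e' → e' ∈ s) (d : ℕ) :
    finrank K (degPart d (Ideal.span ((fun e => monomial e (1 : K)) '' s))) =
      Nat.card {e : σ →₀ ℕ // e.degree = d ∧ e ∈ s} := by
  have he : degPart d (Ideal.span ((fun e => monomial e (1 : K)) '' s)) =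
      restrictSupport K {e : σ →₀ ℕ | e.degree = d ∧ e ∈ s} := by
    ext u
    rw [mem_degPart, mem_restrictSupport_iff, mem_ideal_span_monomial_image]
    constructor
    · rintro ⟨h1, h2⟩ e he
      obtain ⟨e0, he0, hle⟩ := h2 e he
      exact ⟨by_contra fun hne =>
        (MvPolynomial.mem_support_iff.1 he) (h1.coeff_eq_zero hne), hs e0 he0 e hle⟩
    · intro h
      refine ⟨fun e he => ?_, fun e he => ⟨e, (h he).2, le_rfl⟩⟩
      have := (h (MvPolynomial.mem_support_iff.2 he)).1
      rw [Finsupp.degree_eq_weight_one] at this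
      exact this
  rw [he, Module.finrank_eq_nat_card_basis (basisRestrictSupport K _)]
  rfl

lemma nzd_equiv {σ τ : Type*} (Φ : MvPolynomial σ K ≃ₐ[K] MvPolynomial τ K)
    {J : Ideal (MvPolynomial τ K)} {g : MvPolynomial σ K} (h : Nzd J (Φ g)) :
    Nzd (J.comap Φ.toRingHom) g := fun u hu => h (Φ u) (by
  have : Φ (g * u) ∈ J := hu
  rwa [map_mul] at this)

lemma comap_ofList {σ τ : Type*} (Φ : MvPolynomial σ K ≃ₐ[K] MvPolynomial τ K)
    (Ls : List (MvPolynomial σ K)) :
    (Ideal.ofList (Ls.map Φ)).comap Φ.toRingHom = Ideal.ofList Ls := by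
  have h : Ideal.ofList (Ls.map Φ) = (Ideal.ofList Ls).map Φ.toRingHom := by
    rw [Ideal.ofList, Ideal.ofList, Ideal.map_span]
    congr 1
    ext x
    simp
  rw [h]
  exact Ideal.comap_map_of_bijective _ Φ.bijective

lemma regList_equiv {σ τ : Type*} (Φ : MvPolynomial σ K ≃ₐ[K] MvPolynomial τ K) :
    ∀ (Ls : List (MvPolynomial σ K)) (J : Ideal (MvPolynomial τ K)),
      RegList J (Ls.map Φ) → RegList (J.comap Φ.toRingHom) Ls
  | [], _, _ => trivial
  | g :: Ls, J, ⟨h1, h2⟩ => by
    refine ⟨nzd_equiv Φ h1, ?_⟩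
    convert regList_equiv Φ Ls _ h2 using 1
    have hsp : Ideal.span {Φ g} = (Ideal.span {g}).map Φ.toRingHom := by
      rw [Ideal.map_span, Set.image_singleton]
      rfl
    have hJ : J = (J.comap Φ.toRingHom).map Φ.toRingHom :=
      (Ideal.map_comap_of_surjective _ Φ.surjective J).symm
    conv_rhs => rw [hsp, hJ, ← Ideal.map_sup]
    exact (Ideal.comap_map_of_bijective _ Φ.bijective).symm

/-- Linear forms completing `ls` define a graded change of variables. -/
lemma exists_change {n m : ℕ} (hnm : n = m + 3) (ls : Fin m → MvPolynomial (Fin n) K)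
    (hls : ∀ k, (ls k).IsHomogeneous 1) (hind : LinearIndependent K ls) :
    ∃ Φ : MvPolynomial (Fin m ⊕ Fin 3) K ≃ₐ[K] MvPolynomial (Fin n) K,
      (∀ k, Φ (X (Sum.inl k)) = ls k) ∧
      ∀ t u, homogeneousComponent t (Φ u) = Φ (homogeneousComponent t u) := by
  classical
  set H1 := homogeneousSubmodule (Fin n) K 1
  let ls' : Fin m → H1 := fun k => ⟨ls k, hls k⟩
  have hind' : LinearIndependent K ls' := LinearIndependent.of_comp H1.subtype hind
  obtain ⟨C, hC⟩ := Submodule.exists_isCompl (Submodule.span K (Set.range ls'))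
  have : FiniteDimensional K H1 := by infer_instance
  have : Module.Free K C := Module.Free.of_divisionRing K C
  have hfin : finrank K H1 = n := by
    have hli : LinearIndependent K (fun i : Fin n => (X i : MvPolynomial (Fin n) K)) := by
      rw [Fintype.linearIndependent_iff]
      intro g hg i
      have := congrArg (coeff (Finsupp.single i 1)) hg
      simpa [coeff_sum, coeff_X, Finsupp.single_left_inj one_ne_zero] using this
    have e := finrank_span_eq_card hli
    rw [Fintype.card_fin, ← homogeneousSubmodule_one_eq_span_X] at e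
    exact e
  have hC3 : finrank K C = 3 := by
    have := Submodule.finrank_add_eq_of_isCompl hC
    rw [finrank_span_eq_card hind', Fintype.card_fin, hfin] at this
    omega
  let bC : Basis (Fin 3) K C := Module.finBasisOfFinrankEq K C hC3
  let v : Fin m ⊕ Fin 3 → MvPolynomial (Fin n) K := Sum.elim ls fun i => ((bC i : H1) : MvPolynomial (Fin n) K)
  have hv : ∀ s, (v s).IsHomogeneous 1 := by
    rintro (k | i)
    · exact hls k
    · exact (bC i : H1).2
  let θ : MvPolynomial (Fin m ⊕ Fin 3) K →ₐ[K] MvPolynomial (Fin n) K := aeval v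
  have hhom : ∀ {t : ℕ} {u : MvPolynomial (Fin m ⊕ Fin 3) K},
      u.IsHomogeneous t → (θ u).IsHomogeneous t := fun {t u} hu => by
    have := hu.aeval v hv
    rw [one_mul] at this
    exact this
  have hcomp : ∀ t u, homogeneousComponent t (θ u) = θ (homogeneousComponent t u) := by
    intro t u
    conv_lhs => rw [← sum_homogeneousComponent u, map_sum, map_sum]
    have hh : ∀ i, homogeneousComponent t (θ (homogeneousComponent i u)) =
        if t = i then θ (homogeneousComponent i u) else 0 := fun i =>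
      homogeneousComponent_of_mem (hhom (homogeneousComponent_isHomogeneous i u))
    simp only [hh, Finset.sum_ite_eq, Finset.mem_range]
    split_ifs with h
    · rfl
    · rw [homogeneousComponent_eq_zero t u (by omega), map_zero]
  have hX : ∀ i, ∃ w, θ w = X i := by
    intro i
    have hmem : (⟨X i, isHomogeneous_X K i⟩ : H1) ∈ Submodule.span K (Set.range ls') ⊔ C :=
      hC.sup_eq_top ▸ Submodule.mem_top
    suffices hsub : ∀ z ∈ Submodule.span K (Set.range ls') ⊔ C,
        (z : MvPolynomial (Fin n) K) ∈ θ.range from hsub _ hmem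
    intro z hz
    obtain ⟨y, hy, c, hc, rfl⟩ := Submodule.mem_sup.1 hz
    rw [Submodule.coe_add]
    refine add_mem ?_ ?_
    · clear hz hc
      induction hy using Submodule.span_induction with
      | mem x hx => obtain ⟨k, rfl⟩ := hx; exact ⟨X (Sum.inl k), aeval_X _ _⟩
      | zero => exact zero_mem _
      | add a b _ _ ha hb => rw [Submodule.coe_add]; exact add_mem ha hb
      | smul r a _ ha => rw [Submodule.coe_smul]; exact Subalgebra.smul_mem _ ha r
    · have := congrArg (fun w : C => ((w : H1) : MvPolynomial (Fin n) K)) (bC.sum_repr ⟨c, hc⟩)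
      simp only [Submodule.coe_sum, Submodule.coe_smul] at this
      rw [← this]
      exact sum_mem fun k _ => Subalgebra.smul_mem _ (show _ ∈ θ.range from ⟨X (Sum.inr k), aeval_X _ _⟩) _
  choose w hw using hX
  have hsurj : Function.Surjective θ := by
    intro p
    refine ⟨aeval w p, ?_⟩
    rw [← AlgHom.comp_apply, show θ.comp (aeval w) = AlgHom.id K _ from
      MvPolynomial.algHom_ext fun i => by simp [hw]]
    rfl
  have hinj : Function.Injective θ := by
    rw [injective_iff_map_eq_zero]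
    intro u hu
    rw [← sum_homogeneousComponent u]
    refine Finset.sum_eq_zero fun t _ => ?_
    let e : Fin m ⊕ Fin 3 ≃ Fin n := Fintype.equivFinOfCardEq (by simp; omega)
    have hmaps : ∀ x ∈ homogeneousSubmodule (Fin m ⊕ Fin 3) K t,
        θ.toLinearMap x ∈ homogeneousSubmodule (Fin n) K t := fun x hx => hhom hx
    let θt := θ.toLinearMap.restrict hmaps
    have hdim : finrank K (homogeneousSubmodule (Fin m ⊕ Fin 3) K t) =
        finrank K (homogeneousSubmodule (Fin n) K t) := by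
      have hmap : (homogeneousSubmodule (Fin m ⊕ Fin 3) K t).map
          (renameEquiv K e).toLinearMap = homogeneousSubmodule (Fin n) K t := by
        refine le_antisymm ?_ fun y hy => ?_
        · rintro _ ⟨x, hx, rfl⟩
          exact hx.rename_isHomogeneous
        · exact ⟨rename e.symm y, (hy : y.IsHomogeneous t).rename_isHomogeneous, by simp [rename_rename]⟩
      rw [← hmap]
      exact (Submodule.equivMapOfInjective _ (renameEquiv K e).injective _).finrank_eq
    have hs : Function.Surjective θt := by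
      rintro ⟨y, hy⟩
      obtain ⟨x, rfl⟩ := hsurj y
      refine ⟨⟨homogeneousComponent t x, homogeneousComponent_mem _ _⟩, Subtype.ext ?_⟩
      show θ (homogeneousComponent t x) = θ x
      rw [← hcomp, homogeneousComponent_eq_self hy]
    have h0 := (LinearMap.injective_iff_surjective_of_finrank_eq_finrank hdim).2 hs
    have hz : θt ⟨homogeneousComponent t u, homogeneousComponent_mem _ _⟩ = 0 := by
      refine Subtype.ext ?_
      show θ (homogeneousComponent t u) = 0
      rw [← hcomp, hu, map_zero]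
    exact congrArg Subtype.val (h0 (hz.trans (map_zero θt).symm))
  exact ⟨AlgEquiv.ofBijective θ ⟨hinj, hsurj⟩, fun k => aeval_X _ _, fun t u => hcomp t u⟩

lemma finrank_degPart_comap {σ τ : Type*} (Φ : MvPolynomial σ K ≃ₐ[K] MvPolynomial τ K)
    (hΦ : ∀ t u, homogeneousComponent t (Φ u) = Φ (homogeneousComponent t u))
    (I : Ideal (MvPolynomial τ K)) (t : ℕ) :
    finrank K (degPart t (I.comap Φ.toRingHom)) = finrank K (degPart t I) := by
  have h : (degPart t (I.comap Φ.toRingHom)).map Φ.toLinearMap = degPart t I := by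
    refine le_antisymm ?_ fun y hy => ?_
    · rintro _ ⟨x, hx, rfl⟩
      refine mem_degPart.2 ⟨?_, (mem_degPart.1 hx).2⟩
      show (Φ x).IsHomogeneous t
      rw [← homogeneousComponent_eq_self (mem_degPart.1 hx).1, ← hΦ]
      exact homogeneousComponent_isHomogeneous _ _
    · refine ⟨Φ.symm y, mem_degPart.2 ⟨?_, ?_⟩, Φ.apply_symm_apply y⟩
      · have : Φ.symm y = homogeneousComponent t (Φ.symm y) := by
          apply Φ.injective
          rw [← hΦ, Φ.apply_symm_apply, homogeneousComponent_eq_self (mem_degPart.1 hy).1]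
        rw [this]
        exact homogeneousComponent_isHomogeneous _ _
      · show Φ (Φ.symm y) ∈ I
        rw [Φ.apply_symm_apply]
        exact (mem_degPart.1 hy).2
  rw [← h]
  exact (Submodule.equivMapOfInjective _ Φ.injective _).finrank_eq

/-- Setting the extra variables to zero. -/
noncomputable def projX (K : Type*) [Field K] (m : ℕ) :
    MvPolynomial (Fin m ⊕ Fin 3) K →ₐ[K] Poly3 K :=
  aeval (Sum.elim (fun _ => 0) X)

lemma projX_eq_coefY {m : ℕ} (u : MvPolynomial (Fin m ⊕ Fin 3) K) : projX K m u = coefY 0 u := by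
  induction u using MvPolynomial.induction_on with
  | C c =>
    rw [C_apply, coefY_monomial]
    have hy : yPart (0 : Fin m ⊕ Fin 3 →₀ ℕ) = 0 := by ext k; simp [yPart]
    have hx : xPart (0 : Fin m ⊕ Fin 3 →₀ ℕ) = 0 := by ext k; simp [xPart]
    rw [if_pos hy, hx, ← C_apply, ← C_apply]
    exact aeval_C _ _
  | add p q hp hq => rw [map_add, map_add, hp, hq]
  | mul_X p s hp =>
    rw [map_mul, hp, mul_comm p]
    rcases s with k | i
    · rw [coefY_X_inl, if_neg (by simp)]
      simp [projX]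
    · rw [coefY_X_inr, mul_comm]
      simp [projX]

lemma ker_projX (m : ℕ) : RingHom.ker (projX K m).toRingHom =
    Ideal.ofList (List.ofFn fun k : Fin m => (X (Sum.inl k) : MvPolynomial (Fin m ⊕ Fin 3) K)) := by
  refine le_antisymm (fun u hu => ?_) (Ideal.span_le.2 ?_)
  · let ι : Poly3 K →ₐ[K] MvPolynomial (Fin m ⊕ Fin 3) K := rename Sum.inr
    suffices hd : ∀ v, v - ι (projX K m v) ∈
        Ideal.ofList (List.ofFn fun k : Fin m => (X (Sum.inl k) : MvPolynomial (Fin m ⊕ Fin 3) K)) by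
      have := hd u
      rw [show projX K m u = 0 from hu, map_zero, sub_zero] at this
      exact this
    intro v
    induction v using MvPolynomial.induction_on with
    | C c => simp [ι, projX]
    | add p q hp hq =>
      rw [map_add, map_add, add_sub_add_comm]
      exact add_mem hp hq
    | mul_X p s hp =>
      rw [map_mul, map_mul, show p * X s - ι (projX K m p) * ι (projX K m (X s)) =
        (p - ι (projX K m p)) * X s + ι (projX K m p) * (X s - ι (projX K m (X s))) by ring]
      refine add_mem (Ideal.mul_mem_right _ _ hp) (Ideal.mul_mem_left _ _ ?_)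
      rcases s with k | i
      · simp only [ι, projX, aeval_X, Sum.elim_inl, map_zero, sub_zero]
        exact Ideal.subset_span (List.mem_ofFn.2 ⟨k, rfl⟩)
      · simp [ι, projX]
  · intro g hg
    obtain ⟨k, rfl⟩ := List.mem_ofFn.1 hg
    simp [projX]

lemma projX_surjective (m : ℕ) : Function.Surjective (projX K m) := fun p =>
  ⟨rename Sum.inr p, by
    rw [projX, aeval_rename]
    exact congrArg (fun g => g p) (show aeval (Sum.elim (fun _ : Fin m => (0 : Poly3 K)) X ∘ Sum.inr)
      = AlgHom.id K (Poly3 K) from MvPolynomial.algHom_ext fun i => by simp)⟩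

/-- The three forms after killing the extra variables. -/
lemma exists_CI3 {m : ℕ} {a : Fin 3 → ℕ} (h2 : ∀ i, 2 ≤ a i) (h01 : a 0 ≤ a 1) (h12 : a 1 ≤ a 2)
    {F : Fin 3 → MvPolynomial (Fin m ⊕ Fin 3) K} (hF : ∀ i, (F i).IsHomogeneous (a i))
    (hreg : RegList ⊥ ([F 0, F 1, F 2] ++
      List.ofFn fun k : Fin m => (X (Sum.inl k) : MvPolynomial (Fin m ⊕ Fin 3) K))) :
    ∃ C3 : CI3 K, C3.a = a 0 ∧ C3.b = a 1 ∧ C3.c = a 2 ∧ ∀ l, C3.form l = coefY 0 (F l) := by
  set Ys := List.ofFn fun k : Fin m => (X (Sum.inl k) : MvPolynomial (Fin m ⊕ Fin 3) K) with hYs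
  have hpos : ∀ g ∈ [F 0, F 1, F 2] ++ Ys, HomogPos g := by
    intro g hg
    simp only [List.mem_append, List.mem_cons, List.not_mem_nil, or_false, hYs, List.mem_ofFn] at hg
    have := h2 0; have := h2 1; have := h2 2
    rcases hg with (rfl | rfl | rfl) | ⟨k, rfl⟩
    · exact ⟨a 0, by omega, hF 0⟩
    · exact ⟨a 1, by omega, hF 1⟩
    · exact ⟨a 2, by omega, hF 2⟩
    · exact ⟨1, one_pos, isHomogeneous_X K _⟩
  have h1 := regList_perm List.perm_append_comm hpos homogI_bot hreg
  rw [show Ys ++ [F 0, F 1, F 2] = ((Ys ++ [F 0]) ++ [F 1]) ++ [F 2] by simp, regList_concat,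
    regList_concat, regList_concat] at h1
  simp only [Ideal.ofList_append, Ideal.ofList_singleton, sup_bot_eq] at h1
  obtain ⟨⟨⟨-, hz0⟩, hz1⟩, hz2⟩ := h1
  set π := (projX K m).toRingHom
  have hcm : ∀ G : Ideal (MvPolynomial (Fin m ⊕ Fin 3) K),
      (G.map π).comap π = G ⊔ Ideal.ofList Ys := fun G => by
    rw [Ideal.comap_map_of_surjective π (projX_surjective m), ← RingHom.ker_eq_comap_bot,
      hYs, ← ker_projX]
  have hmap1 : ∀ x, Ideal.span {π x} = (Ideal.span {x}).map π := fun x => by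
    rw [Ideal.map_span, Set.image_singleton]
  have hπ : ∀ x, π x = coefY 0 x := fun x => projX_eq_coefY x
  have hhom : ∀ {g : MvPolynomial (Fin m ⊕ Fin 3) K} {e : ℕ}, g.IsHomogeneous e →
      (π g).IsHomogeneous e := fun hg => by
    rw [hπ]; simpa using (coefY_homogeneous hg 0).1
  have hne : π (F 0) ≠ 0 := by
    intro h0
    have hmem : F 0 * 1 ∈ Ideal.ofList Ys := by
      rw [mul_one, hYs, ← ker_projX]; exact h0
    exact constantCoeff_ofList (fun g hg => hpos g (List.mem_append_right _ hg)) (hz0 1 hmem)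
  have n1 : Nzd (Ideal.span {π (F 0)}) (π (F 1)) := by
    intro v hv
    obtain ⟨u, rfl⟩ := projX_surjective (K := K) m v
    rw [hmap1] at hv ⊢
    have h' : F 1 * u ∈ ((Ideal.span {F 0}).map π).comap π := by
      rw [Ideal.mem_comap, map_mul]; exact hv
    rw [hcm, sup_comm] at h'
    have := hz1 u h'
    rw [sup_comm, ← hcm] at this
    exact this
  have n2 : Nzd (Ideal.span {π (F 1)} ⊔ Ideal.span {π (F 0)}) (π (F 2)) := by
    intro v hv
    obtain ⟨u, rfl⟩ := projX_surjective (K := K) m v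
    rw [hmap1, hmap1, ← Ideal.map_sup] at hv ⊢
    have h' : F 2 * u ∈ ((Ideal.span {F 1} ⊔ Ideal.span {F 0}).map π).comap π := by
      rw [Ideal.mem_comap, map_mul]; exact hv
    rw [hcm] at h'
    have e : Ideal.span {F 1} ⊔ Ideal.span {F 0} ⊔ Ideal.ofList Ys =
        Ideal.ofList Ys ⊔ Ideal.span {F 0} ⊔ Ideal.span {F 1} := by ac_rfl
    rw [e] at h'
    have := hz2 u h'
    rw [← e, ← hcm] at this
    exact this
  refine ⟨⟨a 0, a 1, a 2, π (F 0), π (F 1), π (F 2), h2 0, h01, h12, hhom (hF 0), hhom (hF 1),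
    hhom (hF 2), hne, n1, n2⟩, rfl, rfl, rfl, fun l => ?_⟩
  fin_cases l <;> exact hπ _

/-- The statement over an algebraically closed field, in split coordinates. -/
lemma exists_stack [IsAlgClosed K] {n m : ℕ} (hnm : n = m + 3) {a : Fin 3 → ℕ}
    (h2 : ∀ i, 2 ≤ a i) (h01 : a 0 ≤ a 1) (h12 : a 1 ≤ a 2) {f : Fin 3 → MvPolynomial (Fin n) K}
    (hf : ∀ i, (f i).IsHomogeneous (a i)) (hreg : RegList ⊥ [f 0, f 1, f 2])
    {I : Ideal (MvPolynomial (Fin n) K)} (hI : HomogI I) (hfI : ∀ i, f i ∈ I) :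
    ∃ s : Set (Fin m ⊕ Fin 3 →₀ ℕ), (∀ e ∈ s, ∀ e', e ≤ e' → e' ∈ s) ∧
      (∀ i, Finsupp.single (Sum.inr i) (a i) ∈ s) ∧
      ∀ D, Nat.card {e : Fin m ⊕ Fin 3 →₀ ℕ // e.degree = D ∧ e ∈ s} = finrank K (degPart D I) := by
  have hpos : ∀ g ∈ [f 0, f 1, f 2], HomogPos g := by
    intro g hg
    simp only [List.mem_cons, List.not_mem_nil, or_false] at hg
    have := h2 0; have := h2 1; have := h2 2
    rcases hg with rfl | rfl | rfl
    · exact ⟨a 0, by omega, hf 0⟩
    · exact ⟨a 1, by omega, hf 1⟩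
    · exact ⟨a 2, by omega, hf 2⟩
  obtain ⟨ls, hls, hregls, hind⟩ := exists_linear_extension hpos hreg m (by simp; omega)
  obtain ⟨Φ, hΦl, hΦ⟩ := exists_change hnm ls hls hind
  let F : Fin 3 → MvPolynomial (Fin m ⊕ Fin 3) K := fun i => Φ.symm (f i)
  have hF : ∀ i, (F i).IsHomogeneous (a i) := fun i => by
    have : F i = homogeneousComponent (a i) (F i) := by
      apply Φ.injective
      rw [← hΦ, show Φ (F i) = f i from Φ.apply_symm_apply _, homogeneousComponent_eq_self (hf i)]
    rw [this]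
    exact homogeneousComponent_isHomogeneous _ _
  have hreg' : RegList ⊥ ([F 0, F 1, F 2] ++
      List.ofFn fun k : Fin m => (X (Sum.inl k) : MvPolynomial (Fin m ⊕ Fin 3) K)) := by
    have h := regList_equiv Φ ([F 0, F 1, F 2] ++
      List.ofFn fun k : Fin m => (X (Sum.inl k) : MvPolynomial (Fin m ⊕ Fin 3) K)) ⊥ ?_
    · have hb : (⊥ : Ideal (MvPolynomial (Fin n) K)).comap Φ.toRingHom = ⊥ :=
        Ideal.comap_bot_of_injective _ Φ.injective
      rwa [hb] at h
    convert hregls using 2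
    simp [F, List.map_ofFn, Function.comp_def, hΦl]
  obtain ⟨C3, ha, hb, hc, hform⟩ := exists_CI3 h2 h01 h12 hF hreg'
  let I' := I.comap Φ.toRingHom
  have hI' : HomogI I' := fun u hu t => by
    show Φ (homogeneousComponent t u) ∈ I
    rw [← hΦ]
    exact hI _ hu t
  have hlift : ∀ l, ∃ G ∈ I', coefY 0 G = C3.form l := fun l =>
    ⟨F l, show Φ (F l) ∈ I by rw [show Φ (F l) = f l from Φ.apply_symm_apply _]; exact hfI l,
      (hform l).symm⟩
  refine ⟨C3.stack I', fun e he e' hle => CI3.stack_upward hI' hlift he hle, fun i => ?_,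
    fun D => ?_⟩
  · have := CI3.stack_powers (C3 := C3) (I := I') i
    rwa [show C3.deg3 i = a i by fin_cases i <;> simp [CI3.deg3, ha, hb, hc]] at this
  · rw [CI3.card_stack hI' hlift D]
    exact finrank_degPart_comap Φ hΦ I D

lemma regList_of_problem {n : ℕ} {f : Fin 3 → MvPolynomial (Fin n) K}
    (hreg : ∀ i, ∀ u, f i * u ∈ Ideal.span (f '' Set.Iio i) → u ∈ Ideal.span (f '' Set.Iio i)) :
    RegList ⊥ [f 0, f 1, f 2] := by
  have e0 : f '' Set.Iio (0 : Fin 3) = ∅ := by
    simp [show Set.Iio (0 : Fin 3) = ∅ by ext x; simp]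
  have e1 : f '' Set.Iio (1 : Fin 3) = {f 0} := by
    rw [show Set.Iio (1 : Fin 3) = {0} by ext x; fin_cases x <;> simp, Set.image_singleton]
  have e2 : f '' Set.Iio (2 : Fin 3) = {f 1, f 0} := by
    rw [show Set.Iio (2 : Fin 3) = {1, 0} by ext x; fin_cases x <;> simp, Set.image_insert_eq,
      Set.image_singleton]
  have h0 := hreg 0
  have h1 := hreg 1
  have h2 := hreg 2
  rw [e0, Ideal.span_empty] at h0
  rw [e1] at h1
  rw [e2, Ideal.span_insert] at h2
  refine ⟨h0, ?_, ?_, trivial⟩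
  · rw [sup_bot_eq]; exact h1
  · rw [sup_bot_eq]; exact h2

/-- Lex-plus-powers sets in three variables over any field. -/
lemma exists_lpp3 {a : Fin 3 → ℕ} (h2 : ∀ i, 2 ≤ a i) (h01 : a 0 ≤ a 1) (h12 : a 1 ≤ a 2)
    {f : Fin 3 → Poly3 K} (hf : ∀ i, (f i).IsHomogeneous (a i)) (hreg : RegList ⊥ [f 0, f 1, f 2])
    {I : Ideal (Poly3 K)} (hfI : ∀ i, f i ∈ I) :
    ∃ T : ℕ → Finset (Fin 3 →₀ ℕ), ∀ d,
      (∀ e ∈ T d, e.degree = d) ∧
      (∀ e : Fin 3 →₀ ℕ, e.degree = d → (∃ i, a i ≤ e i) → e ∈ T d) ∧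
      (∀ e ∈ T d, ∀ e' : Fin 3 →₀ ℕ, e'.degree = d → (∀ i, e i < a i) → (∀ i, e' i < a i) →
        toLex e < toLex e' → e' ∈ T d) ∧
      (T d).card = finrank K (degPart d I) ∧
      ∀ e ∈ T d, ∀ i, e + Finsupp.single i 1 ∈ T (d + 1) := by
  let L := AlgebraicClosure K
  let φ := map (σ := Fin 3) (algebraMap K L)
  obtain ⟨r1, r2, r3, -⟩ := hreg
  have hinjφ : Function.Injective φ := map_injective _ (algebraMap K L).injective
  have hne : f 0 ≠ 0 := fun h => one_ne_zero (Ideal.mem_bot.1 (r1 1 (by simp [h])))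
  have hsp : ∀ x : Poly3 K, extI (L := L) (Ideal.span {x}) = Ideal.span {φ x} := fun x => by
    rw [extI, Ideal.map_span, Set.image_singleton]
  have nb : Nzd (Ideal.span {φ (f 0)}) (φ (f 1)) := by
    rw [← hsp]
    rw [sup_bot_eq] at r2
    exact nzd_extI r2
  have nc : Nzd (Ideal.span {φ (f 1)} ⊔ Ideal.span {φ (f 0)}) (φ (f 2)) := by
    rw [← hsp, ← hsp]
    rw [sup_bot_eq] at r3
    rw [show extI (L := L) (Ideal.span {f 1}) ⊔ extI (Ideal.span {f 0}) =
      extI (Ideal.span {f 1} ⊔ Ideal.span {f 0}) from (Ideal.map_sup _ _ _).symm]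
    exact nzd_extI r3
  let C3 : CI3 L := ⟨a 0, a 1, a 2, φ (f 0), φ (f 1), φ (f 2), h2 0, h01, h12, (hf 0).map _,
    (hf 1).map _, (hf 2).map _, fun h => hne (hinjφ (h.trans (map_zero φ).symm)), nb, nc⟩
  let I' := extI (L := L) I
  have hJ : C3.idJ ≤ I' := by
    simp only [CI3.idJ, CI3.idB, sup_le_iff, Ideal.span_le, Set.singleton_subset_iff,
      SetLike.mem_coe]
    exact ⟨Ideal.mem_map_of_mem _ (hfI 2), Ideal.mem_map_of_mem _ (hfI 1),
      Ideal.mem_map_of_mem _ (hfI 0)⟩
  have hdeg : ∀ e : Fin 3 →₀ ℕ, e.degree = e 0 + e 1 + e 2 := fun e => by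
    rw [Finsupp.degree_eq_sum, Fin.sum_univ_three]
  have hbox : ∀ e : Fin 3 →₀ ℕ, C3.BoxExp e ↔ ∀ i, e i < a i := fun e =>
    ⟨fun h i => by obtain ⟨h1, h2, h3⟩ := h; fin_cases i <;> assumption,
      fun h => ⟨h 0, h 1, h 2⟩⟩
  refine ⟨fun d => C3.lppSet I' d, fun d => ⟨fun e he => ?_, fun e hd hP => ?_,
    fun e he e' hd' hb hb' hlt => ?_, ?_, fun e he i => CI3.lppSet_succ hJ he i⟩⟩
  · rw [hdeg]
    exact mem_exps3.1 (Finset.mem_filter.1 he).1
  · refine Finset.mem_filter.2 ⟨mem_exps3.2 (hdeg e ▸ hd), fun h => ?_⟩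
    obtain ⟨i, hi⟩ := hP
    exact absurd ((hbox e).1 h i) (not_lt.2 hi)
  · refine CI3.lppSet_lex he ((hbox e).2 hb) ((hbox e').2 hb') (hdeg e' ▸ hd') ?_
    have hed := mem_exps3.1 (Finset.mem_filter.1 he).1
    rw [hdeg] at hd'
    obtain ⟨j, hj1, hj2⟩ := Finsupp.Lex.lt_iff.1 hlt
    simp only [ofLex_toLex] at hj1 hj2
    fin_cases j
    · exact Or.inl hj2
    · exact Or.inr ⟨hj1 0 (by decide), hj2⟩
    · have := hj1 0 (by decide)
      have := hj1 1 (by decide)
      simp at hj2
      omega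
  · rw [CI3.card_lppSet hJ d]
    exact finrank_degPart_extI I d

/-- A monomial ideal with the same Hilbert function, any field and number of variables. -/
lemma exists_monomialIdeal {n : ℕ} (hn : 3 ≤ n) {a : Fin 3 → ℕ} (h2 : ∀ i, 2 ≤ a i)
    (h01 : a 0 ≤ a 1) (h12 : a 1 ≤ a 2) {f : Fin 3 → MvPolynomial (Fin n) K}
    (hf : ∀ i, (f i).IsHomogeneous (a i)) (hreg : RegList ⊥ [f 0, f 1, f 2])
    {I : Ideal (MvPolynomial (Fin n) K)} (hI : HomogI I) (hfI : ∀ i, f i ∈ I) :
    ∃ s : Set (Fin n →₀ ℕ), (∀ i, Finsupp.single (Fin.castLE hn i) (a i) ∈ s) ∧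
      ∀ d, finrank K (degPart d (Ideal.span ((fun e => monomial e (1 : K)) '' s))) =
        finrank K (degPart d I) := by
  obtain ⟨m, rfl⟩ : ∃ m, n = 3 + m := ⟨n - 3, by omega⟩
  let L := AlgebraicClosure K
  let φ := map (σ := Fin (3 + m)) (algebraMap K L)
  have hreg' : RegList ⊥ [φ (f 0), φ (f 1), φ (f 2)] := by
    obtain ⟨r1, r2, r3, -⟩ := hreg
    have hsp : ∀ x, extI (L := L) (Ideal.span {x}) = Ideal.span {φ x} := fun x => by
      rw [extI, Ideal.map_span, Set.image_singleton]
    have hbot : extI (L := L) (⊥ : Ideal (MvPolynomial (Fin (3 + m)) K)) = ⊥ := Ideal.map_bot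
    have s1 := nzd_extI (L := L) r1
    have s2 := nzd_extI (L := L) r2
    have s3 := nzd_extI (L := L) r3
    rw [extI, Ideal.map_sup, Ideal.map_bot] at s2
    rw [extI, Ideal.map_sup, Ideal.map_sup, Ideal.map_bot] at s3
    rw [hbot] at s1
    rw [← extI, hsp] at s2
    rw [← extI, ← extI, hsp, hsp] at s3
    exact ⟨s1, s2, s3, trivial⟩
  obtain ⟨s, hup, hpow, hcard⟩ := exists_stack (K := L) (m := m) (n := 3 + m) (by omega) h2 h01 h12
    (f := fun i => φ (f i)) (fun i => (hf i).map _) hreg' (homogI_extI hI)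
    (fun i => Ideal.mem_map_of_mem _ (hfI i))
  let ε : Fin m ⊕ Fin 3 ≃ Fin (3 + m) := (Equiv.sumComm _ _).trans finSumFinEquiv
  let E := Finsupp.domCongr (M := ℕ) ε
  have hE : ∀ e : Fin (3 + m) →₀ ℕ, (E.symm e).degree = e.degree := fun e => by
    simp only [Finsupp.degree_eq_sum]
    exact Fintype.sum_equiv ε _ _ fun x => by simp [E]
  refine ⟨{e | E.symm e ∈ s}, fun i => ?_, fun d => ?_⟩
  · show E.symm (Finsupp.single (Fin.castLE hn i) (a i)) ∈ s
    rw [show E.symm (Finsupp.single (Fin.castLE hn i) (a i)) = Finsupp.single (Sum.inr i) (a i) by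
      apply E.injective
      rw [AddEquiv.apply_symm_apply]
      ext x
      simp [E, ε, Finsupp.single_apply, Fin.ext_iff]]
    exact hpow i
  · rw [finrank_monomialIdeal]
    · rw [← finrank_degPart_extI (L := L) I d, ← hcard d]
      exact Nat.card_congr
        { toFun := fun e => ⟨E.symm e.1, (hE e.1).trans e.2.1, e.2.2⟩
          invFun := fun e => ⟨E e.1, by
            rw [← hE, AddEquiv.symm_apply_apply]; exact e.2.1, by
            show E.symm (E e.1) ∈ s
            rw [AddEquiv.symm_apply_apply]; exact e.2.2⟩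
          left_inv := fun e => Subtype.ext (E.apply_symm_apply _)
          right_inv := fun e => Subtype.ext (E.symm_apply_apply _) }
    · intro e he e' hle
      refine hup _ he _ fun x => ?_
      simpa [E] using hle (ε x)

end Vale.Agent.P200
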