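import Mathlib

/-!
Linear algebra: singular pencils, genericity, dimensions of images.
-/

namespace Vale.Agent.P200

open Module

variable {K : Type*} [Field K]

/-- A pencil of maps all of whose members have a kernel compresses some subspace. -/
lemma pencil_compression [Infinite K] {E G : Type*} [AddCommGroup E] [Module K E]
    [FiniteDimensional K E] [AddCommGroup G] [Module K G] (φ ψ : E →ₗ[K] G)
    (h : ∀ t : K, ∃ y : E, y ≠ 0 ∧ ψ y = t • φ y) :
    ∃ Y : Submodule K E, finrank K ↥(Y.map φ ⊔ Y.map ψ) < finrank K Y := by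
  classical
  choose y hy0 hy using h
  obtain ⟨s, hs⟩ := Infinite.exists_subset_card_eq K (finrank K E + 1)
  let Y : Submodule K E := Submodule.span K (y '' (s : Set K))
  have hψ : ∀ z ∈ Y, ψ z ∈ Y.map φ := by
    intro z hz
    induction hz using Submodule.span_induction with
    | mem x hx =>
      obtain ⟨t, ht, rfl⟩ := hx
      rw [hy t]
      exact Submodule.smul_mem _ _ ⟨_, Submodule.subset_span ⟨t, ht, rfl⟩, rfl⟩
    | zero => simp
    | add a b _ _ ha hb => rw [map_add]; exact add_mem ha hb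
    | smul c a _ ha => rw [map_smul]; exact Submodule.smul_mem _ _ ha
  have hle : Y.map ψ ≤ Y.map φ := by
    rintro _ ⟨z, hz, rfl⟩
    exact hψ z hz
  refine ⟨Y, ?_⟩
  rw [sup_eq_left.2 hle]
  by_contra hcon
  push Not at hcon
  have hinj : Function.Injective (φ.domRestrict Y) := by
    rw [← LinearMap.ker_eq_bot]
    refine Submodule.finrank_eq_zero.1 ?_
    have h1 := LinearMap.finrank_range_add_finrank_ker (φ.domRestrict Y)
    rw [LinearMap.range_domRestrict] at h1
    omega
  let ψ' : Y →ₗ[K] ↥(Y.map φ) := LinearMap.codRestrict _ (ψ.domRestrict Y) fun z => hψ z z.2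
  let φ' : Y →ₗ[K] ↥(Y.map φ) :=
    LinearMap.codRestrict _ (φ.domRestrict Y) fun z => ⟨z, z.2, rfl⟩
  have hφ' : Function.Bijective φ' := by
    refine ⟨fun a b hab => hinj (congrArg Subtype.val hab), ?_⟩
    rintro ⟨_, z, hz, rfl⟩
    exact ⟨⟨z, hz⟩, rfl⟩
  let Tm : End K Y := (LinearEquiv.ofBijective φ' hφ').symm.toLinearMap ∘ₗ ψ'
  have hv : ∀ t : s, Tm.HasEigenvector (t : K)
      (⟨y t, Submodule.subset_span ⟨t, t.2, rfl⟩⟩ : Y) := by
    intro t
    refine ⟨End.mem_eigenspace_iff.2 ?_, fun h0 => hy0 t (congrArg Subtype.val h0)⟩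
    apply hφ'.1
    have he : ∀ z, φ' (Tm z) = ψ' z := fun z =>
      (LinearEquiv.ofBijective φ' hφ').apply_symm_apply _
    rw [he, map_smul]
    exact Subtype.ext (hy t)
  have hli := Tm.eigenvectors_linearIndependent' (fun t : s => (t : K))
    Subtype.val_injective _ hv
  have hc := hli.fintype_card_le_finrank
  rw [Fintype.card_coe, hs] at hc
  have := Submodule.finrank_le Y
  omega

/-- Functions of three parameters given by polynomials. -/
def PolyF (f : (Fin 3 → K) → K) : Prop :=
  ∃ P : MvPolynomial (Fin 3) K, ∀ p, MvPolynomial.eval p P = f p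

/-- Some nonzero polynomial detects injectivity in a polynomial family of maps. -/
lemma generic_injective {E G : Type*} [AddCommGroup E] [Module K E] [FiniteDimensional K E]
    [AddCommGroup G] [Module K G] (L : (Fin 3 → K) → E →ₗ[K] G)
    (hL : ∀ (e : E) (f : G →ₗ[K] K), PolyF fun p => f (L p e)) (p0 : Fin 3 → K)
    (h0 : Function.Injective (L p0)) :
    ∃ Δ : MvPolynomial (Fin 3) K, Δ ≠ 0 ∧
      ∀ p, MvPolynomial.eval p Δ ≠ 0 → Function.Injective (L p) := by
  classical
  obtain ⟨g, hg⟩ := (L p0).exists_leftInverse_of_injective (LinearMap.ker_eq_bot.2 h0)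
  let b := Module.finBasis K E
  choose P hP using fun a c => hL (b c) ((b.coord a).comp g)
  let M : Matrix _ _ (MvPolynomial (Fin 3) K) := Matrix.of P
  have hev : ∀ p, MvPolynomial.eval p M.det = LinearMap.det (g.comp (L p)) := by
    intro p
    rw [RingHom.map_det, ← LinearMap.det_toMatrix b]
    congr 1
    ext a c
    simpa [M, LinearMap.toMatrix_apply] using hP a c p
  refine ⟨M.det, fun h => ?_, fun p hp => ?_⟩
  · have := hev p0
    rw [hg, h, map_zero, LinearMap.det_id] at this
    exact zero_ne_one this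
  · rw [hev] at hp
    have hu : IsUnit (g.comp (L p)) :=
      (LinearMap.isUnit_iff_isUnit_det _).2 (isUnit_iff_ne_zero.2 hp)
    have := ((Module.End.isUnit_iff _).1 hu).1
    exact Function.Injective.of_comp this

/-- Some nonzero polynomial detects surjectivity in a polynomial family of maps. -/
lemma generic_surjective {E G : Type*} [AddCommGroup E] [Module K E]
    [AddCommGroup G] [Module K G] [FiniteDimensional K G] (L : (Fin 3 → K) → E →ₗ[K] G)
    (hL : ∀ (e : E) (f : G →ₗ[K] K), PolyF fun p => f (L p e)) (p0 : Fin 3 → K)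
    (h0 : Function.Surjective (L p0)) :
    ∃ Δ : MvPolynomial (Fin 3) K, Δ ≠ 0 ∧
      ∀ p, MvPolynomial.eval p Δ ≠ 0 → Function.Surjective (L p) := by
  classical
  obtain ⟨g, hg⟩ := (L p0).exists_rightInverse_of_surjective (LinearMap.range_eq_top.2 h0)
  let b := Module.finBasis K G
  choose P hP using fun a c => hL (g (b c)) (b.coord a)
  let M : Matrix _ _ (MvPolynomial (Fin 3) K) := Matrix.of P
  have hev : ∀ p, MvPolynomial.eval p M.det = LinearMap.det ((L p).comp g) := by
    intro p
    rw [RingHom.map_det, ← LinearMap.det_toMatrix b]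
    congr 1
    ext a c
    simpa [M, LinearMap.toMatrix_apply] using hP a c p
  refine ⟨M.det, fun h => ?_, fun p hp => ?_⟩
  · have := hev p0
    rw [hg, h, map_zero, LinearMap.det_id] at this
    exact zero_ne_one this
  · rw [hev] at hp
    have hu : IsUnit ((L p).comp g) :=
      (LinearMap.isUnit_iff_isUnit_det _).2 (isUnit_iff_ne_zero.2 hp)
    have := ((Module.End.isUnit_iff _).1 hu).2
    exact Function.Surjective.of_comp this

variable {V V' : Type*} [AddCommGroup V] [Module K V] [AddCommGroup V'] [Module K V']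

lemma finrank_map_add_ker (φ : V →ₗ[K] V') (N : Submodule K V) [FiniteDimensional K N] :
    finrank K (N.map φ) + finrank K ↥(N ⊓ LinearMap.ker φ) = finrank K N := by
  have h := LinearMap.finrank_range_add_finrank_ker (φ.domRestrict N)
  rw [LinearMap.range_domRestrict, LinearMap.ker_domRestrict] at h
  have e : finrank K ↥((LinearMap.ker φ).comap N.subtype) = finrank K ↥(N ⊓ LinearMap.ker φ) := by
    rw [inf_comm]
    exact (Submodule.comapSubtypeEquivOfLe inf_le_right).finrank_eq.symm.trans
      (by rw [Submodule.comap_inf, Submodule.comap_subtype_self, inf_top_eq]) |>.symm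
  omega

lemma finrank_inf_comap (φ : V →ₗ[K] V') (N : Submodule K V) (M : Submodule K V')
    [FiniteDimensional K N] :
    finrank K ↥(N ⊓ M.comap φ) + finrank K (N.map φ) =
      finrank K N + finrank K ↥(N.map φ ⊓ M) := by
  have h1 := finrank_map_add_ker φ N
  have : FiniteDimensional K ↥(N ⊓ M.comap φ) :=
    Submodule.finiteDimensional_of_le inf_le_left
  have h2 := finrank_map_add_ker φ (N ⊓ M.comap φ)
  have hm : (N ⊓ M.comap φ).map φ = N.map φ ⊓ M := by
    ext z
    constructor
    · rintro ⟨u, ⟨hu1, hu2⟩, rfl⟩; exact ⟨⟨u, hu1, rfl⟩, hu2⟩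
    · rintro ⟨⟨u, hu, rfl⟩, hz⟩; exact ⟨u, ⟨hu, hz⟩, rfl⟩
  rw [hm] at h2
  rw [show N ⊓ M.comap φ ⊓ LinearMap.ker φ = N ⊓ LinearMap.ker φ from
    le_antisymm (inf_le_inf_right _ inf_le_left) (le_inf (le_inf inf_le_left fun u hu => by
      simp [LinearMap.mem_ker.1 hu.2]) inf_le_right)] at h2
  omega

/-- Coordinates on `N / W`. -/
structure Coords (N W : Submodule K V) where
  /-- the coordinates -/
  proj : V →ₗ[K] (Fin (finrank K N - finrank K W) → K)
  /-- a section -/
  sec : (Fin (finrank K N - finrank K W) → K) →ₗ[K] V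
  sec_mem : ∀ e, sec e ∈ N
  proj_sec : ∀ e, proj (sec e) = e
  proj_zero : ∀ u ∈ W, proj u = 0
  mem_of_proj : ∀ u ∈ N, proj u = 0 → u ∈ W

lemma exists_coords (N W : Submodule K V) [FiniteDimensional K N] (h : W ≤ N) :
    Nonempty (Coords N W) := by
  let W' : Submodule K N := W.comap N.subtype
  have hW' : finrank K W' = finrank K W := (Submodule.comapSubtypeEquivOfLe h).finrank_eq
  have hq := Submodule.finrank_quotient_add_finrank W'
  have hd : finrank K (N ⧸ W') = finrank K N - finrank K W := by omega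
  let e : (N ⧸ W') ≃ₗ[K] (Fin (finrank K N - finrank K W) → K) :=
    LinearEquiv.ofFinrankEq _ _ (by rw [hd, finrank_fin_fun])
  let f := e.toLinearMap ∘ₗ W'.mkQ
  have hf : Function.Surjective f := e.surjective.comp W'.mkQ_surjective
  obtain ⟨π, hπ⟩ := LinearMap.exists_extend f
  obtain ⟨g, hg⟩ := f.exists_rightInverse_of_surjective (LinearMap.range_eq_top.2 hf)
  have hπ' : ∀ u : N, π u = f u := fun u => LinearMap.congr_fun hπ u
  refine ⟨⟨π, N.subtype ∘ₗ g, fun e => (g e).2, fun v => ?_, fun u hu => ?_, fun u hu h0 => ?_⟩⟩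
  · exact (hπ' (g v)).trans (LinearMap.congr_fun hg v)
  · rw [show u = ((⟨u, h hu⟩ : N) : V) from rfl, hπ']
    have : W'.mkQ ⟨u, h hu⟩ = 0 := (Submodule.Quotient.mk_eq_zero _).2 hu
    simp [f, this]
  · rw [show u = ((⟨u, hu⟩ : N) : V) from rfl, hπ'] at h0
    show (⟨u, hu⟩ : N) ∈ W'
    exact (Submodule.Quotient.mk_eq_zero W').1 (e.map_eq_zero_iff.1 h0)

namespace Coords

variable {N W : Submodule K V}

lemma sub_mem (c : Coords N W) {u : V} (hu : u ∈ N) : u - c.sec (c.proj u) ∈ W :=
  c.mem_of_proj _ (N.sub_mem hu (c.sec_mem _)) (by rw [map_sub, c.proj_sec, sub_self])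

lemma proj_eq_zero_iff (c : Coords N W) {u : V} (hu : u ∈ N) : c.proj u = 0 ↔ u ∈ W :=
  ⟨c.mem_of_proj u hu, c.proj_zero u⟩

lemma sec_injective (c : Coords N W) : Function.Injective c.sec :=
  Function.LeftInverse.injective c.proj_sec

lemma finrank_sup_sec (c : Coords N W) [FiniteDimensional K W]
    (Y : Submodule K (Fin (finrank K N - finrank K W) → K)) :
    finrank K ↥(W ⊔ Y.map c.sec) = finrank K W + finrank K Y := by
  have h := Submodule.finrank_sup_add_finrank_inf_eq W (Y.map c.sec)
  have h0 : W ⊓ Y.map c.sec = ⊥ := by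
    rw [Submodule.eq_bot_iff]
    rintro _ ⟨hw, y, -, rfl⟩
    have := c.proj_zero _ hw
    rw [c.proj_sec] at this
    simp [this]
  rw [h0, finrank_bot, add_zero,
    ← (Submodule.equivMapOfInjective c.sec c.sec_injective Y).finrank_eq] at h
  exact h

end Coords

end Vale.Agent.P200
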