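import Mathlib

/-!
Regular sequences of homogeneous polynomials: permutation, socles, Hilbert functions.
-/

namespace Vale.Agent.P200

open MvPolynomial

variable {σ : Type*} {K : Type*} [Field K]

/-- The degree `t` part of an ideal. -/
noncomputable def degPart (t : ℕ) (J : Ideal (MvPolynomial σ K)) :
    Submodule K (MvPolynomial σ K) :=
  homogeneousSubmodule σ K t ⊓ J.restrictScalars K

/-- An ideal closed under taking homogeneous components. -/
def HomogI (J : Ideal (MvPolynomial σ K)) : Prop :=
  ∀ u ∈ J, ∀ t, homogeneousComponent t u ∈ J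

/-- `g` is a nonzerodivisor modulo `J`. -/
def Nzd (J : Ideal (MvPolynomial σ K)) (g : MvPolynomial σ K) : Prop :=
  ∀ u, g * u ∈ J → u ∈ J

/-- A regular sequence modulo `J`. -/
def RegList : Ideal (MvPolynomial σ K) → List (MvPolynomial σ K) → Prop
  | _, [] => True
  | J, g :: L => Nzd J g ∧ RegList (Ideal.span {g} ⊔ J) L

/-- The socle modulo `J` vanishes. -/
def SocFree (J : Ideal (MvPolynomial σ K)) : Prop :=
  ∀ u : MvPolynomial σ K, (∀ i, X i * u ∈ J) → u ∈ J

/-- The socle modulo `J` lives in degree `e`. -/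
def SocIn (J : Ideal (MvPolynomial σ K)) (e : ℕ) : Prop :=
  ∀ γ, γ ≠ e → ∀ u : MvPolynomial σ K, u.IsHomogeneous γ → (∀ i, X i * u ∈ J) → u ∈ J

lemma mem_degPart {t : ℕ} {J : Ideal (MvPolynomial σ K)} {u : MvPolynomial σ K} :
    u ∈ degPart t J ↔ u.IsHomogeneous t ∧ u ∈ J := Iff.rfl

instance finite_homogeneousSubmodule [Finite σ] (t : ℕ) :
    Module.Finite K (homogeneousSubmodule σ K t) :=
  Module.Finite.iff_fg.2 (homogeneousSubmodule_fg σ K t)

instance finite_degPart [Finite σ] (t : ℕ) (J : Ideal (MvPolynomial σ K)) :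
    Module.Finite K (degPart t J) :=
  inferInstanceAs (Module.Finite K ↥(homogeneousSubmodule σ K t ⊓ J.restrictScalars K))

lemma homogeneousComponent_mul_left {g : MvPolynomial σ K} {m : ℕ} (hg : g.IsHomogeneous m)
    (u : MvPolynomial σ K) (t : ℕ) :
    homogeneousComponent t (g * u) =
      if m ≤ t then g * homogeneousComponent (t - m) u else 0 := by
  conv_lhs => rw [← sum_homogeneousComponent u, Finset.mul_sum, map_sum]
  have h : ∀ i, homogeneousComponent t (g * homogeneousComponent i u) =
      if t = m + i then g * homogeneousComponent i u else 0 := fun i =>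
    homogeneousComponent_of_mem (hg.mul (homogeneousComponent_isHomogeneous i u))
  simp only [h]
  split_ifs with hm
  · rw [Finset.sum_eq_single (t - m)]
    · rw [if_pos (by omega)]
    · intro i _ hi; rw [if_neg (by omega)]
    · intro hi
      rw [Finset.mem_range, not_lt] at hi
      simp [homogeneousComponent_eq_zero (t - m) u (by omega)]
  · exact Finset.sum_eq_zero fun i _ => if_neg (by omega)

lemma homogI_bot : HomogI (⊥ : Ideal (MvPolynomial σ K)) := by
  intro u hu t
  simp [Ideal.mem_bot.1 hu]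

lemma homogI_sup_span {J : Ideal (MvPolynomial σ K)} (hJ : HomogI J) {g : MvPolynomial σ K}
    {m : ℕ} (hg : g.IsHomogeneous m) : HomogI (Ideal.span {g} ⊔ J) := by
  intro u hu t
  obtain ⟨r, hr⟩ := Ideal.mem_span_singleton_sup.1 hu
  obtain ⟨j, hj, rfl⟩ := hr
  rw [map_add, mul_comm r g, homogeneousComponent_mul_left hg]
  refine add_mem ?_ (Ideal.mem_sup_right (hJ j hj t))
  split_ifs
  · exact Ideal.mem_sup_left (Ideal.mul_mem_right _ _ (Ideal.mem_span_singleton_self g))
  · exact zero_mem _

/-- Homogeneous of some positive degree. -/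
def HomogPos (g : MvPolynomial σ K) : Prop := ∃ m, 0 < m ∧ g.IsHomogeneous m

lemma homogI_ofList {L : List (MvPolynomial σ K)} (hL : ∀ g ∈ L, HomogPos g)
    {J : Ideal (MvPolynomial σ K)} (hJ : HomogI J) : HomogI (Ideal.ofList L ⊔ J) := by
  induction L generalizing J with
  | nil => simpa using hJ
  | cons g L ih =>
    obtain ⟨m, -, hm⟩ := hL g (by simp)
    have := ih (fun q hq => hL q (by simp [hq])) (homogI_sup_span hJ hm)
    rwa [Ideal.ofList_cons, sup_comm (Ideal.span {g}), sup_assoc]

lemma homogI_ofList' {L : List (MvPolynomial σ K)} (hL : ∀ g ∈ L, HomogPos g) :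
    HomogI (Ideal.ofList L) := by
  simpa using homogI_ofList hL homogI_bot

lemma nzd_of_homogeneous {J : Ideal (MvPolynomial σ K)} (hJ : HomogI J) {g : MvPolynomial σ K}
    {m : ℕ} (hg : g.IsHomogeneous m)
    (h : ∀ t u, u.IsHomogeneous t → g * u ∈ J → u ∈ J) : Nzd J g := by
  intro u hu
  rw [← sum_homogeneousComponent u]
  refine sum_mem fun i _ => h i _ (homogeneousComponent_isHomogeneous i u) ?_
  have := hJ _ hu (m + i)
  rwa [homogeneousComponent_mul_left hg, if_pos (by omega), Nat.add_sub_cancel_left] at this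

/-- Homogeneous witness for membership in `span {g} ⊔ J`. -/
lemma exists_homog_of_mem_sup {J : Ideal (MvPolynomial σ K)} (hJ : HomogI J)
    {g u : MvPolynomial σ K} {m t : ℕ} (hg : g.IsHomogeneous m) (hu : u.IsHomogeneous t)
    (h : u ∈ Ideal.span {g} ⊔ J) :
    (t < m ∧ u ∈ J) ∨ (m ≤ t ∧ ∃ r, r.IsHomogeneous (t - m) ∧ u - g * r ∈ J) := by
  obtain ⟨r, j, hj, hr⟩ := Ideal.mem_span_singleton_sup.1 h
  have h1 : u = homogeneousComponent t (g * r) + homogeneousComponent t j := by
    rw [← map_add, mul_comm g r, hr, homogeneousComponent_eq_self hu]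
  rw [homogeneousComponent_mul_left hg] at h1
  by_cases hm : m ≤ t
  · rw [if_pos hm] at h1
    refine Or.inr ⟨hm, _, homogeneousComponent_isHomogeneous _ r, ?_⟩
    rw [h1, add_sub_cancel_left]
    exact hJ j hj t
  · rw [if_neg hm, zero_add] at h1
    exact Or.inl ⟨by omega, h1 ▸ hJ j hj t⟩

lemma nzd_swap {J : Ideal (MvPolynomial σ K)} (hJ : HomogI J) {g h : MvPolynomial σ K}
    (hg : HomogPos g) (hh : HomogPos h) (h1 : Nzd J g) (h2 : Nzd (Ideal.span {g} ⊔ J) h) :
    Nzd J h ∧ Nzd (Ideal.span {h} ⊔ J) g := by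
  obtain ⟨m, hm0, hm⟩ := hg
  obtain ⟨n, -, hn⟩ := hh
  have hH : Nzd J h := by
    refine nzd_of_homogeneous hJ hn fun t => ?_
    induction t using Nat.strong_induction_on with
    | _ t ih =>
      intro u hu hhu
      rcases exists_homog_of_mem_sup hJ hm hu (h2 u (Ideal.mem_sup_right hhu)) with
        ⟨-, hmem⟩ | ⟨hle, r, hr, hur⟩
      · exact hmem
      · have h3 : g * (h * r) ∈ J := by
          have := sub_mem hhu (Ideal.mul_mem_left J h hur)
          rwa [show h * u - h * (u - g * r) = g * (h * r) by ring] at this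
        have h4 := ih (t - m) (by omega) r hr (h1 _ h3)
        have := add_mem hur (Ideal.mul_mem_left J g h4)
        rwa [sub_add_cancel] at this
  refine ⟨hH, fun u hu => ?_⟩
  obtain ⟨v, j, hj, hv⟩ := Ideal.mem_span_singleton_sup.1 hu
  have h3 : h * v ∈ Ideal.span {g} ⊔ J :=
    Ideal.mem_span_singleton_sup.2 ⟨u, -j, neg_mem hj, by linear_combination -hv⟩
  obtain ⟨w, j', hj', hw⟩ := Ideal.mem_span_singleton_sup.1 (h2 v h3)
  have h4 : g * (u - h * w) ∈ J := by
    have : g * (u - h * w) = j + h * j' := by linear_combination -hv + (-h) * hw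
    rw [this]
    exact add_mem hj (Ideal.mul_mem_left J h hj')
  exact Ideal.mem_span_singleton_sup.2 ⟨w, _, h1 _ h4, by ring⟩

lemma regList_perm {L L' : List (MvPolynomial σ K)} (hp : L.Perm L')
    (hL : ∀ g ∈ L, HomogPos g) {J : Ideal (MvPolynomial σ K)} (hJ : HomogI J)
    (h : RegList J L) : RegList J L' := by
  induction hp generalizing J with
  | nil => trivial
  | cons g _ ih =>
    obtain ⟨m, -, hm⟩ := hL g (by simp)
    exact ⟨h.1, ih (fun q hq => hL q (by simp [hq])) (homogI_sup_span hJ hm) h.2⟩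
  | swap g g' l =>
    obtain ⟨h1, h2, h3⟩ := h
    obtain ⟨s1, s2⟩ := nzd_swap hJ (hL g' (by simp)) (hL g (by simp)) h1 h2
    refine ⟨s1, s2, ?_⟩
    rwa [sup_left_comm] at h3
  | trans p₁ _ ih₁ ih₂ =>
    exact ih₂ (fun q hq => hL q (p₁.mem_iff.2 hq)) hJ (ih₁ hL hJ h)

lemma regList_concat {L : List (MvPolynomial σ K)} {J : Ideal (MvPolynomial σ K)}
    {g : MvPolynomial σ K} :
    RegList J (L ++ [g]) ↔ RegList J L ∧ Nzd (Ideal.ofList L ⊔ J) g := by
  induction L generalizing J with
  | nil => simp [RegList]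
  | cons q L ih =>
    simp only [List.cons_append, RegList, ih, Ideal.ofList_cons]
    rw [sup_comm (Ideal.span {q}) (Ideal.ofList L), sup_assoc, and_assoc]

/-- Transfer of a vanishing socle. -/
lemma socFree_transfer {J : Ideal (MvPolynomial σ K)} {g g' : MvPolynomial σ K}
    (hgn : Nzd J g) (hgn' : Nzd J g') (hirr : g' ∈ Ideal.span (Set.range (X : σ → _)))
    (h : SocFree (Ideal.span {g'} ⊔ J)) : SocFree (Ideal.span {g} ⊔ J) := by
  intro u hu
  have h1 : g' * u ∈ Ideal.span {g} ⊔ J := by
    clear hgn' h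
    induction hirr using Submodule.span_induction with
    | mem x hx => obtain ⟨i, rfl⟩ := hx; exact hu i
    | zero => simp
    | add a b _ _ ha hb => rw [add_mul]; exact add_mem ha hb
    | smul r a _ ha => rw [smul_eq_mul, mul_assoc]; exact Ideal.mul_mem_left _ r ha
  obtain ⟨v, j, hj, hv⟩ := Ideal.mem_span_singleton_sup.1 h1
  have h2 : v ∈ Ideal.span {g'} ⊔ J := by
    refine h v fun i => ?_
    obtain ⟨w, j', hj', hw⟩ := Ideal.mem_span_singleton_sup.1 (hu i)
    have h3 : g * (X i * v - g' * w) ∈ J := by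
      have : g * (X i * v - g' * w) = g' * j' - X i * j := by
        linear_combination (X i) * hv - g' * hw
      rw [this]
      exact sub_mem (Ideal.mul_mem_left J _ hj') (Ideal.mul_mem_left J _ hj)
    exact Ideal.mem_span_singleton_sup.2 ⟨w, _, hgn _ h3, by ring⟩
  obtain ⟨r, j', hj', hr⟩ := Ideal.mem_span_singleton_sup.1 h2
  have h4 : g' * (u - g * r) ∈ J := by
    have : g' * (u - g * r) = g * j' + j := by linear_combination -hv - g * hr
    rw [this]
    exact add_mem (Ideal.mul_mem_left J _ hj') hj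
  exact Ideal.mem_span_singleton_sup.2 ⟨r, _, hgn' _ h4, by ring⟩

lemma mem_span_X_of_isHomogeneous {g : MvPolynomial σ K} {m : ℕ} (hm : 0 < m)
    (hg : g.IsHomogeneous m) : g ∈ Ideal.span (Set.range (X : σ → MvPolynomial σ K)) := by
  rw [← Set.image_univ, mem_ideal_span_X_image]
  intro s hs
  have hd := hg (mem_support_iff.1 hs)
  by_contra hne
  push Not at hne
  have : s = 0 := Finsupp.ext fun i => by simpa using hne i (Set.mem_univ i)
  subst this
  simp at hd
  omega

/-- Transfer of the socle degree. -/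
lemma socIn_transfer {J : Ideal (MvPolynomial σ K)} (hJ : HomogI J) {g g' : MvPolynomial σ K}
    {m m' e e' : ℕ} (hg : g.IsHomogeneous m) (hg' : g'.IsHomogeneous m') (hm' : 0 < m')
    (hgn : Nzd J g) (hgn' : Nzd J g') (he : e + m' = e' + m)
    (h : SocIn (Ideal.span {g'} ⊔ J) e') : SocIn (Ideal.span {g} ⊔ J) e := by
  intro γ hγ u huh hu
  have h1 : g' * u ∈ Ideal.span {g} ⊔ J := by
    have hirr := mem_span_X_of_isHomogeneous hm' hg'
    clear hgn' h hg' hm'
    induction hirr using Submodule.span_induction with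
    | mem x hx => obtain ⟨i, rfl⟩ := hx; exact hu i
    | zero => simp
    | add a b _ _ ha hb => rw [add_mul]; exact add_mem ha hb
    | smul r a _ ha => rw [smul_eq_mul, mul_assoc]; exact Ideal.mul_mem_left _ r ha
  rcases exists_homog_of_mem_sup hJ hg (hg'.mul huh) h1 with ⟨-, hmem⟩ | ⟨hle, v, hv, huv⟩
  · exact Ideal.mem_sup_right (hgn' u hmem)
  have h2 : v ∈ Ideal.span {g'} ⊔ J := by
    refine h _ (by omega) v hv fun i => ?_
    obtain ⟨w, j', hj', hw⟩ := Ideal.mem_span_singleton_sup.1 (hu i)
    have h3 : g * (X i * v - g' * w) ∈ J := by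
      have : g * (X i * v - g' * w) = g' * j' - X i * (g' * u - g * v) := by
        linear_combination (-g') * hw
      rw [this]
      exact sub_mem (Ideal.mul_mem_left J _ hj') (Ideal.mul_mem_left J _ huv)
    exact Ideal.mem_span_singleton_sup.2 ⟨w, _, hgn _ h3, by ring⟩
  obtain ⟨r, j', hj', hr⟩ := Ideal.mem_span_singleton_sup.1 h2
  have h4 : g' * (u - g * r) ∈ J := by
    have : g' * (u - g * r) = g * j' + (g' * u - g * v) := by linear_combination -g * hr
    rw [this]
    exact add_mem (Ideal.mul_mem_left J _ hj') huv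
  exact Ideal.mem_span_singleton_sup.2 ⟨r, _, hgn' _ h4, by ring⟩

/-- Over an infinite field a homogeneous ideal with vanishing socle has a linear nonzerodivisor. -/
lemma exists_linear_nzd [Finite σ] [Infinite K] {J : Ideal (MvPolynomial σ K)}
    (h : SocFree J) : ∃ l : MvPolynomial σ K, l.IsHomogeneous 1 ∧ Nzd J l := by
  by_contra hcon
  push Not at hcon
  set S := MvPolynomial σ K
  have hfin := associatedPrimes.finite S (S ⧸ J)
  set V := homogeneousSubmodule σ K 1
  let s : Finset (Subspace K V) :=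
    hfin.toFinset.image fun P => (P.restrictScalars K).comap V.subtype
  have hcover : (⋃ p ∈ s, (p : Set V)) = Set.univ := by
    rw [Set.eq_univ_iff_forall]
    intro l
    have hl := hcon (l : S) l.2
    unfold Nzd at hl
    push Not at hl
    obtain ⟨u, hu1, hu2⟩ := hl
    have : (l : S) ∈ {r : S | ∃ x : S ⧸ J, x ≠ 0 ∧ r • x = 0} :=
      ⟨Submodule.Quotient.mk u, fun h0 => hu2 ((Submodule.Quotient.mk_eq_zero J).1 h0),
        (Submodule.Quotient.mk_eq_zero J).2 hu1⟩
    rw [← biUnion_associatedPrimes_eq_zero_divisors S (S ⧸ J), Set.mem_iUnion₂] at this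
    obtain ⟨P, hP, hlP⟩ := this
    rw [Set.mem_iUnion₂]
    exact ⟨_, Finset.mem_image.2 ⟨P, hfin.mem_toFinset.2 hP, rfl⟩, hlP⟩
  obtain ⟨P, hP, hPtop⟩ := Finset.mem_image.1 (Subspace.top_mem_of_biUnion_eq_univ hcover)
  rw [hfin.mem_toFinset, AssociatedPrimes.mem_iff, isAssociatedPrime_iff] at hP
  obtain ⟨hprime, x, hx⟩ := hP
  obtain ⟨u, rfl⟩ := Submodule.Quotient.mk_surjective J x
  have hXu : ∀ i, X i * u ∈ J := by
    intro i
    have : (⟨X i, isHomogeneous_X K i⟩ : V) ∈ (P.restrictScalars K).comap V.subtype :=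
      hPtop ▸ Submodule.mem_top
    have h1 : (X i : S) ∈ P := this
    rw [hx, Submodule.mem_colon_singleton, Submodule.mem_bot, ← Submodule.Quotient.mk_smul,
      Submodule.Quotient.mk_eq_zero] at h1
    exact h1
  have hu := h u hXu
  rw [(Submodule.Quotient.mk_eq_zero J).2 hu] at hx
  exact hprime.ne_top (by rw [hx]; ext r; simp [Submodule.mem_colon_singleton])

/-- Fewer linear forms than variables generate an ideal with vanishing socle. -/
lemma socFree_linear [Fintype σ] {L : List (MvPolynomial σ K)}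
    (hL : ∀ l ∈ L, l.IsHomogeneous 1) (hlen : L.length < Fintype.card σ) :
    SocFree (Ideal.ofList L) := by
  classical
  let V' : Submodule K (MvPolynomial σ K) := Submodule.span K {l | l ∈ L}
  have hVle : V' ≤ homogeneousSubmodule σ K 1 := Submodule.span_le.2 hL
  obtain ⟨C, hC⟩ := Submodule.exists_isCompl V'
  let q : MvPolynomial σ K →ₗ[K] MvPolynomial σ K := Submodule.projection C V' hC.symm
  let π : MvPolynomial σ K →ₐ[K] MvPolynomial σ K := aeval fun i => q (X i)
  have hVI : ∀ v ∈ V', v ∈ Ideal.ofList L := fun v hv =>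
    (Submodule.span_le (p := (Ideal.ofList L).restrictScalars K)).2
      (fun l hl => Ideal.subset_span hl) hv
  have hsub : ∀ v, v - q v ∈ V' := by
    intro v
    obtain ⟨y, hy, z, hz, rfl⟩ :=
      Submodule.mem_sup.1 (hC.sup_eq_top ▸ Submodule.mem_top : v ∈ V' ⊔ C)
    have : q (y + z) = z := by
      simp only [q, map_add, Submodule.projection_apply_of_mem_left hC.symm hz,
        (Submodule.projection_apply_eq_zero_iff hC.symm).2 hy, zero_add]
    rw [this, add_sub_cancel_right]
    exact hy
  have hqV : ∀ v ∈ V', q v = 0 := fun v hv => (Submodule.projection_apply_eq_zero_iff hC.symm).2 hv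
  have hdiff : ∀ u : MvPolynomial σ K, u - π u ∈ Ideal.ofList L := by
    intro u
    induction u using MvPolynomial.induction_on with
    | C c => simp only [π, aeval_C, algebraMap_eq, sub_self, zero_mem]
    | add a b ha hb =>
      rw [map_add, show a + b - (π a + π b) = (a - π a) + (b - π b) by ring]
      exact add_mem ha hb
    | mul_X a i ha =>
      rw [map_mul, show π (X i) = q (X i) from aeval_X _ i,
        show a * X i - π a * q (X i) = (a - π a) * X i + π a * (X i - q (X i)) by ring]
      exact add_mem (Ideal.mul_mem_right _ _ ha) (Ideal.mul_mem_left _ _ (hVI _ (hsub _)))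
  have hlin : ∀ l : MvPolynomial σ K, l.IsHomogeneous 1 → π l = q l := by
    intro l hl
    have hl' : l ∈ Submodule.span K (Set.range (X : σ → MvPolynomial σ K)) := by
      rw [← homogeneousSubmodule_one_eq_span_X]; exact hl
    exact LinearMap.eqOn_span (f := π.toLinearMap) (g := q)
      (by rintro _ ⟨i, rfl⟩; exact aeval_X _ i) hl'
  have hker : RingHom.ker π.toRingHom = Ideal.ofList L := by
    refine le_antisymm (fun u hu => ?_) (Ideal.span_le.2 fun l hl => ?_)
    · have := hdiff u
      rw [RingHom.mem_ker] at hu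
      simpa [show π u = 0 from hu] using this
    · simp only [SetLike.mem_coe, RingHom.mem_ker]
      change π l = 0
      rw [hlin l (hL l hl), hqV l (Submodule.subset_span hl)]
  intro u hu
  have hex : ∃ i, q (X i) ≠ 0 := by
    by_contra hcon
    push Not at hcon
    have h1 : homogeneousSubmodule σ K 1 ≤ V' := by
      rw [homogeneousSubmodule_one_eq_span_X, Submodule.span_le]
      rintro _ ⟨i, rfl⟩
      simpa [hcon i] using hsub (X i)
    have hli : LinearIndependent K (fun i : σ => (X i : MvPolynomial σ K)) := by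
      rw [Fintype.linearIndependent_iff]
      intro g hg i
      have := congrArg (coeff (Finsupp.single i 1)) hg
      simpa [coeff_sum, coeff_X, Finsupp.single_left_inj one_ne_zero] using this
    have : FiniteDimensional K V' := FiniteDimensional.span_of_finite K L.finite_toSet
    have h2 : Fintype.card σ ≤ Module.finrank K V' := by
      rw [← finrank_span_eq_card hli, ← homogeneousSubmodule_one_eq_span_X]
      exact Submodule.finrank_mono h1
    have h3 : Module.finrank K V' ≤ L.toFinset.card := by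
      have := finrank_span_finset_le_card (R := K) L.toFinset
      have hset : {l | l ∈ L} = (L.toFinset : Set (MvPolynomial σ K)) := by ext; simp
      rw [show V' = Submodule.span K (L.toFinset : Set (MvPolynomial σ K)) from congrArg (Submodule.span K) hset]
      exact this
    have := L.toFinset_card_le
    omega
  obtain ⟨i, hi⟩ := hex
  have h1 : π (X i * u) = 0 := by
    have := hu i
    rw [← hker, RingHom.mem_ker] at this
    exact this
  rw [← hker, RingHom.mem_ker]
  change π u = 0
  rw [map_mul, show π (X i) = q (X i) from aeval_X _ i] at h1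
  exact (mul_eq_zero.1 h1).resolve_left hi

/-- A regular sequence shorter than the number of variables has vanishing socle. -/
lemma socFree_regList [Fintype σ] [Infinite K] : ∀ (L₂ L₁ : List (MvPolynomial σ K)),
    (∀ l ∈ L₁, l.IsHomogeneous 1) → (∀ g ∈ L₂, HomogPos g) →
    (L₂ ++ L₁).length < Fintype.card σ → RegList ⊥ (L₂ ++ L₁) →
    SocFree (Ideal.ofList (L₂ ++ L₁)) := by
  intro L₂
  induction L₂ with
  | nil => intro L₁ h1 _ hlen _; exact socFree_linear h1 (by simpa using hlen)
  | cons g L₂ ih =>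
    intro L₁ h1 h2 hlen hreg
    simp only [List.length_cons, List.length_append, List.cons_append] at hlen
    have hpos : ∀ q ∈ g :: (L₂ ++ L₁), HomogPos q := by
      intro q hq
      rcases List.mem_cons.1 hq with rfl | hq
      · exact h2 _ (by simp)
      rcases List.mem_append.1 hq with hq | hq
      · exact h2 q (by simp [hq])
      · exact ⟨1, one_pos, h1 q hq⟩
    have hreg' : RegList ⊥ ((L₂ ++ L₁) ++ [g]) :=
      regList_perm (List.perm_append_singleton g (L₂ ++ L₁)).symm hpos homogI_bot hreg
    rw [regList_concat, sup_bot_eq] at hreg'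
    obtain ⟨hA, hgn⟩ := hreg'
    have hJ := ih L₁ h1 (fun q hq => h2 q (by simp [hq]))
      (by simp only [List.length_append]; omega) hA
    obtain ⟨l, hl1, hln⟩ := exists_linear_nzd hJ
    have hreg2 : RegList ⊥ (L₂ ++ (L₁ ++ [l])) := by
      rw [← List.append_assoc, regList_concat, sup_bot_eq]
      exact ⟨hA, hln⟩
    have h3 := ih (L₁ ++ [l])
      (by intro q hq; rcases List.mem_append.1 hq with hq | hq
          · exact h1 q hq
          · rw [List.mem_singleton.1 hq]; exact hl1)
      (fun q hq => h2 q (by simp [hq]))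
      (by simp only [List.length_append, List.length_singleton]; omega) hreg2
    rw [← List.append_assoc, Ideal.ofList_append, Ideal.ofList_singleton, sup_comm] at h3
    obtain ⟨m, hm, hgm⟩ := h2 g (by simp)
    rw [List.cons_append, Ideal.ofList_cons]
    exact socFree_transfer hgn hln (mem_span_X_of_isHomogeneous one_pos hl1) h3

lemma regList_socFree [Fintype σ] [Infinite K] {L : List (MvPolynomial σ K)}
    (hL : ∀ g ∈ L, HomogPos g) (hlen : L.length < Fintype.card σ) (h : RegList ⊥ L) :
    SocFree (Ideal.ofList L) := by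
  simpa using socFree_regList L [] (by simp) hL (by simpa using hlen) (by simpa using h)

lemma finrank_degPart_sup [Finite σ] {J : Ideal (MvPolynomial σ K)} (hJ : HomogI J)
    {g : MvPolynomial σ K} {m : ℕ} (hg : g.IsHomogeneous m) (hg0 : g ≠ 0) (hgn : Nzd J g)
    (t : ℕ) :
    Module.finrank K (degPart (t + m) (Ideal.span {g} ⊔ J)) + Module.finrank K (degPart t J) =
      Module.finrank K (degPart (t + m) J) + Module.finrank K (homogeneousSubmodule σ K t) := by
  set φ := LinearMap.mulLeft K g
  have hinj : Function.Injective φ := fun a b hab => mul_left_cancel₀ hg0 hab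
  have heq : ∀ N : Submodule K (MvPolynomial σ K),
      Module.finrank K (N.map φ) = Module.finrank K N := fun N =>
    ((Submodule.equivMapOfInjective φ hinj N).finrank_eq).symm
  have h1 : degPart (t + m) (Ideal.span {g} ⊔ J) =
      degPart (t + m) J ⊔ (homogeneousSubmodule σ K t).map φ := by
    refine le_antisymm (fun u hu => ?_) (sup_le ?_ ?_)
    · obtain ⟨hu1, hu2⟩ := mem_degPart.1 hu
      rcases exists_homog_of_mem_sup hJ hg hu1 hu2 with ⟨hlt, -⟩ | ⟨-, r, hr, hur⟩
      · omega
      · rw [Nat.add_sub_cancel] at hr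
        rw [← sub_add_cancel u (g * r)]
        refine Submodule.add_mem_sup (mem_degPart.2 ⟨hu1.sub ?_, hur⟩) ⟨r, hr, rfl⟩
        rw [add_comm]; exact hg.mul hr
    · exact fun u hu => mem_degPart.2 ⟨hu.1, Ideal.mem_sup_right hu.2⟩
    · rintro _ ⟨r, hr, rfl⟩
      refine mem_degPart.2 ⟨?_, Ideal.mem_sup_left
        (Ideal.mul_mem_right _ _ (Ideal.mem_span_singleton_self g))⟩
      rw [add_comm]; exact hg.mul hr
  have h2 : degPart (t + m) J ⊓ (homogeneousSubmodule σ K t).map φ = (degPart t J).map φ := by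
    ext u
    constructor
    · rintro ⟨hu, r, hr, rfl⟩
      exact ⟨r, ⟨hr, hgn r (mem_degPart.1 hu).2⟩, rfl⟩
    · rintro ⟨r, hr, rfl⟩
      obtain ⟨hr1, hr2⟩ := mem_degPart.1 hr
      refine ⟨mem_degPart.2 ⟨?_, Ideal.mul_mem_left J g hr2⟩, r, hr1, rfl⟩
      rw [add_comm]; exact hg.mul hr1
  have h3 := Submodule.finrank_sup_add_finrank_inf_eq (degPart (t + m) J)
    ((homogeneousSubmodule σ K t).map φ)
  rw [h2, heq, heq, ← h1] at h3
  exact h3

lemma degPart_sup_of_lt {J : Ideal (MvPolynomial σ K)} (hJ : HomogI J)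
    {g : MvPolynomial σ K} {m : ℕ} (hg : g.IsHomogeneous m) {t : ℕ} (ht : t < m) :
    degPart t (Ideal.span {g} ⊔ J) = degPart t J := by
  refine le_antisymm (fun u hu => ?_)
    fun u hu => mem_degPart.2 ⟨hu.1, Ideal.mem_sup_right hu.2⟩
  obtain ⟨hu1, hu2⟩ := mem_degPart.1 hu
  rcases exists_homog_of_mem_sup hJ hg hu1 hu2 with ⟨-, h⟩ | ⟨hle, -⟩
  · exact mem_degPart.2 ⟨hu1, h⟩
  · omega

end Vale.Agent.P200
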