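import Vale.Agent.P200.CI

/-!
A subspace of one degree of a complete intersection and its image in the next degree;
what happens when every pencil degenerates.
-/

namespace Vale.Agent.P200

open MvPolynomial Module

variable {K : Type*} [Field K]

lemma exists_cross {p : Fin 3 → K} (hp : p ≠ 0) {w : Fin 3 → Poly3 K} (hw : dotP p w = 0) :
    ∃ ω : Fin 3 → Poly3 K, crossP p ω = w ∧
      ∀ Z : Submodule K (Poly3 K), (∀ i, w i ∈ Z) → ∀ i, ω i ∈ Z := by
  obtain ⟨j, hj⟩ := Function.ne_iff.1 hp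
  replace hj : p j ≠ 0 := hj
  let e : Fin 3 → K := Pi.single j (p j)⁻¹
  refine ⟨fun i => e (i + 1) • w (i + 2) - e (i + 2) • w (i + 1), ?_,
    fun Z hZ i => Z.sub_mem (Z.smul_mem _ (hZ _)) (Z.smul_mem _ (hZ _))⟩
  have hc : (∑ i, C (p i) * C (e i) : Poly3 K) = 1 := by
    simp only [← C_mul, ← map_sum, e]
    rw [Finset.sum_eq_single j (fun b _ hb => by simp [hb]) (by simp)]
    simp [hj]
  funext i
  simp only [crossP, smul_eq_C_mul]
  simp only [dotP] at hw
  rw [Fin.sum_univ_three] at hw hc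
  fin_cases i <;>
    simp only [Fin.zero_eta, Fin.mk_one, Fin.reduceFinMk, zero_add, Fin.reduceAdd]
  · linear_combination (-C (e 0)) * hw + w 0 * hc
  · linear_combination (-C (e 1)) * hw + w 1 * hc
  · linear_combination (-C (e 2)) * hw + w 2 * hc

lemma cf_eq_sum (p : Fin 3 → K) (i : Fin 3) :
    cf p i = ∑ j, p j • cf (Pi.single j 1) i := by
  rw [Fin.sum_univ_three]
  fin_cases i <;> simp [cf, smul_eq_C_mul] <;> ring

lemma polyF_affine (g : Fin 3 → K) (c : K) : PolyF fun p : Fin 3 → K => ∑ j, p j * g j + c :=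
  ⟨∑ j, C (g j) * X j + C c, fun p => by simp [mul_comm]⟩

lemma linear_eq_sum {l : Poly3 K} (hl : l.IsHomogeneous 1) :
    l = ∑ i, C (eval (Pi.single i 1) l) * X i := by
  have hl' : l ∈ Submodule.span K (Set.range (X : Fin 3 → Poly3 K)) := by
    rw [← homogeneousSubmodule_one_eq_span_X]; exact hl
  clear hl
  induction hl' using Submodule.span_induction with
  | mem x hx =>
    obtain ⟨i, rfl⟩ := hx
    rw [Finset.sum_eq_single i (fun b _ hb => by simp [hb.symm]) (by simp)]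
    simp
  | zero => simp
  | add a b _ _ ha hb =>
    conv_lhs => rw [ha, hb]
    simp [add_mul, Finset.sum_add_distrib]
  | smul r a _ ha =>
    conv_lhs => rw [ha]
    simp [smul_eq_C_mul, Finset.mul_sum, mul_assoc]

/-- Two forms completing `l` to a frame, and the pencils containing `l`. -/
lemma exists_frame {l : Poly3 K} (hl : l.IsHomogeneous 1) (hl0 : l ≠ 0) :
    ∃ m0 m1 : Poly3 K, m0.IsHomogeneous 1 ∧ m1.IsHomogeneous 1 ∧
      (∀ (Z : Submodule K (Poly3 K)) (y : Poly3 K), l * y ∈ Z → m0 * y ∈ Z → m1 * y ∈ Z →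
        ∀ i, X i * y ∈ Z) ∧
      ∀ t : K, ∃ p : Fin 3 → K, p ≠ 0 ∧ eval p l = 0 ∧ eval p (m1 - C t * m0) = 0 := by
  have hsum := linear_eq_sum hl
  obtain ⟨s, hs⟩ : ∃ s, eval (Pi.single s 1) l ≠ 0 := by
    by_contra hcon
    push Not at hcon
    exact hl0 (hsum.trans (by simp [hcon]))
  refine ⟨X (s + 1), X (s + 2), isHomogeneous_X K _, isHomogeneous_X K _, ?_, ?_⟩
  · intro Z y h0 h1 h2 i
    set g := fun k => eval (Pi.single k (1 : K)) l
    have h3 : l = C (g s) * X s + C (g (s + 1)) * X (s + 1) + C (g (s + 2)) * X (s + 2) := by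
      conv_lhs => rw [hsum]
      rw [Fin.sum_univ_three]
      fin_cases s <;> simp [g] <;> ring
    have hz : i = s ∨ i = s + 1 ∨ i = s + 2 := by fin_cases s <;> fin_cases i <;> decide
    rcases hz with h | h | h <;> subst h
    · have : g i • (X i * y) ∈ Z := by
        have e : g i • (X i * y) =
            l * y - g (i + 1) • (X (i + 1) * y) - g (i + 2) • (X (i + 2) * y) := by
          rw [h3]; simp only [smul_eq_C_mul]; ring
        rw [e]
        exact Z.sub_mem (Z.sub_mem h0 (Z.smul_mem _ h1)) (Z.smul_mem _ h2)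
      exact (Submodule.smul_mem_iff Z hs).1 this
    · exact h1
    · exact h2
  · intro t
    refine ⟨Pi.single (s + 1) 1 + t • Pi.single (s + 2) 1 +
      (-(eval (Pi.single (s + 1) 1) l + t * eval (Pi.single (s + 2) 1) l) /
        eval (Pi.single s 1) l) • Pi.single s 1, ?_, ?_, ?_⟩
    · intro h0
      have := congrFun h0 (s + 1)
      have h1 : s + 1 ≠ s + 2 := by fin_cases s <;> decide
      have h2 : s + 1 ≠ s := by fin_cases s <;> decide
      simp [h1, h2] at this
    · rw [eval_add_smul hl, eval_add_smul hl]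
      field_simp
      ring
    · have h1 : s + 1 ≠ s + 2 := by fin_cases s <;> decide
      have h2 : s + 1 ≠ s := by fin_cases s <;> decide
      have h3 : s + 2 ≠ s := by fin_cases s <;> decide
      simp [h1, h1.symm, h2, h3]

namespace CI3

variable (C3 : CI3 K)

/-- `W` is a space of forms of degree `d` containing the complete intersection. -/
def Sub (d : ℕ) (W : Submodule K (Poly3 K)) : Prop := degPart d C3.idJ ≤ W ∧ W ≤ homS K d

/-- The space generated by `W` in degree `d + 1`, modulo the complete intersection. -/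
noncomputable def up (d : ℕ) (W : Submodule K (Poly3 K)) : Submodule K (Poly3 K) :=
  (⨆ i : Fin 3, W.map (LinearMap.mulLeft K (X i))) ⊔ degPart (d + 1) C3.idJ

/-- The space generated by `W` through the pencil at `p`. -/
noncomputable def pUp (p : Fin 3 → K) (d : ℕ) (W : Submodule K (Poly3 K)) :
    Submodule K (Poly3 K) :=
  (⨆ i : Fin 3, W.map (LinearMap.mulLeft K (cf p i))) ⊔ degPart (d + 1) C3.idJ

/-- Codimension in degree `d`. -/
noncomputable def cod (d : ℕ) (W : Submodule K (Poly3 K)) : ℤ :=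
  (finrank K (homS K d) : ℤ) - finrank K W

/-- No class is killed by the pencil at `p`. -/
def ZGood (p : Fin 3 → K) (d : ℕ) (W : Submodule K (Poly3 K)) : Prop :=
  ∀ y : Poly3 K, y.IsHomogeneous d → (∀ i, cf p i * y ∈ C3.up d W) → y ∈ W

/-- The pencil at `p` generates as much as all linear forms. -/
def SGood (p : Fin 3 → K) (d : ℕ) (W : Submodule K (Poly3 K)) : Prop :=
  C3.up d W ≤ C3.pUp p d W

variable {C3} {d : ℕ} {W : Submodule K (Poly3 K)}

lemma mul_homS {t : ℕ} {g u : Poly3 K} (hg : g.IsHomogeneous 1) (hu : u ∈ homS K t) :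
    g * u ∈ homS K (t + 1) := by
  have := hg.mul hu
  rwa [add_comm] at this

lemma Sub.finite (h : C3.Sub d W) : FiniteDimensional K W :=
  Submodule.finiteDimensional_of_le h.2

lemma up_le (h : C3.Sub d W) : C3.up d W ≤ homS K (d + 1) := by
  refine sup_le (iSup_le fun i => ?_) inf_le_left
  rintro _ ⟨u, hu, rfl⟩
  exact mul_homS (isHomogeneous_X K i) (h.2 hu)

lemma sub_up (h : C3.Sub d W) : C3.Sub (d + 1) (C3.up d W) := ⟨le_sup_right, up_le h⟩

lemma X_mul_mem_up {u : Poly3 K} (hu : u ∈ W) (i : Fin 3) : X i * u ∈ C3.up d W :=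
  Submodule.mem_sup_left (Submodule.mem_iSup_of_mem i ⟨u, hu, rfl⟩)

lemma linear_mul_mem_up {g u : Poly3 K} (hg : g.IsHomogeneous 1) (hu : u ∈ W) :
    g * u ∈ C3.up d W := by
  rw [linear_eq_sum hg, Finset.sum_mul]
  refine sum_mem fun i _ => ?_
  rw [mul_assoc, ← smul_eq_C_mul]
  exact Submodule.smul_mem _ _ (X_mul_mem_up hu i)

lemma cf_mul_mem_pUp (p : Fin 3 → K) {u : Poly3 K} (hu : u ∈ W) (i : Fin 3) :
    cf p i * u ∈ C3.pUp p d W :=
  Submodule.mem_sup_left (Submodule.mem_iSup_of_mem i ⟨u, hu, rfl⟩)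

lemma pUp_le_up (p : Fin 3 → K) : C3.pUp p d W ≤ C3.up d W := by
  refine sup_le (iSup_le fun i => ?_) le_sup_right
  rintro _ ⟨u, hu, rfl⟩
  exact linear_mul_mem_up (cf_homogeneous p i) hu

lemma mem_sup_iSup_map {f : Fin 3 → Poly3 K} {M : Submodule K (Poly3 K)} {g : Poly3 K}
    (hg : g ∈ (⨆ i, W.map (LinearMap.mulLeft K (f i))) ⊔ M) :
    ∃ ws : Fin 3 → Poly3 K, (∀ i, ws i ∈ W) ∧ g - ∑ i, f i * ws i ∈ M := by
  obtain ⟨u, hu, z, hz, rfl⟩ := Submodule.mem_sup.1 hg
  clear hg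
  suffices ∃ ws : Fin 3 → Poly3 K, (∀ i, ws i ∈ W) ∧ u = ∑ i, f i * ws i by
    obtain ⟨ws, h1, rfl⟩ := this
    exact ⟨ws, h1, by simpa using hz⟩
  induction hu using Submodule.iSup_induction' with
  | mem i x hx =>
    obtain ⟨w, hw, rfl⟩ := hx
    refine ⟨Pi.single i w, fun k => ?_, ?_⟩
    · rcases eq_or_ne k i with rfl | hk
      · simpa using hw
      · simp [hk]
    · rw [Finset.sum_eq_single i (fun b _ hb => by simp [hb]) (by simp)]
      simp
  | zero => exact ⟨0, fun _ => zero_mem _, by simp⟩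
  | add x y _ _ hx hy =>
    obtain ⟨a, ha, rfl⟩ := hx
    obtain ⟨b, hb, rfl⟩ := hy
    exact ⟨a + b, fun i => add_mem (ha i) (hb i), by simp [mul_add, Finset.sum_add_distrib]⟩

lemma SGood.exists_triple {p : Fin 3 → K} (hs : C3.SGood p d W) {g : Poly3 K}
    (hg : g ∈ C3.up d W) : ∃ w : Fin 3 → Poly3 K, (∀ i, w i ∈ W) ∧ dotP p w = 0 ∧
      g - dotX w ∈ degPart (d + 1) C3.idJ := by
  obtain ⟨ws, hws, h⟩ := mem_sup_iSup_map (hs hg)
  refine ⟨crossP p ws, fun i => ?_, dotP_cross p ws, by rwa [dotX_cross]⟩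
  simp only [crossP, mul_comm _ (C _), ← smul_eq_C_mul]
  exact W.sub_mem (W.smul_mem _ (hws _)) (W.smul_mem _ (hws _))

lemma dotX_mem_pUp {p : Fin 3 → K} (hp : p ≠ 0) {w : Fin 3 → Poly3 K} (hw : ∀ i, w i ∈ W)
    (h0 : dotP p w = 0) : dotX w ∈ C3.pUp p d W := by
  obtain ⟨ω, hω, hZ⟩ := exists_cross hp h0
  rw [← hω, dotX_cross]
  exact sum_mem fun i _ => cf_mul_mem_pUp p (hZ W hw i) i

lemma vanish_mul_mem {p : Fin 3 → K} (hp : p ≠ 0) {g : Poly3 K} (hg : g.IsHomogeneous 1)
    (h0 : eval p g = 0) {Z : Submodule K (Poly3 K)} {y : Poly3 K}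
    (hy : ∀ i, cf p i * y ∈ Z) : g * y ∈ Z := by
  obtain ⟨w, hw, hw1, hw2⟩ := exists_dotX_eq hp (T := 0) hg h0
  obtain ⟨ω, hω, hZ⟩ := exists_cross hp hw1
  rw [← hw2, ← hω, dotX_cross, Finset.sum_mul]
  refine sum_mem fun i _ => ?_
  have hc : ω i ∈ (1 : Submodule K (Poly3 K)) := hZ 1 (fun k => by
    have := hw k
    rw [← homogeneousSubmodule_zero]
    exact this) i
  obtain ⟨c, hc⟩ := Submodule.mem_one.1 hc
  rw [← hc, algebraMap_eq, mul_comm (cf p i), mul_assoc, ← smul_eq_C_mul]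
  exact Z.smul_mem _ (hy i)

lemma zGood_generic (h : C3.Sub d W) {p0 : Fin 3 → K} (h0 : C3.ZGood p0 d W) :
    ∃ Δ : Poly3 K, Δ ≠ 0 ∧ ∀ p, eval p Δ ≠ 0 → C3.ZGood p d W := by
  have := h.finite
  obtain ⟨c⟩ := exists_coords (homS K d) W h.2
  obtain ⟨c'⟩ := exists_coords (homS K (d + 1)) (C3.up d W) (up_le h)
  let L : (Fin 3 → K) → _ →ₗ[K] (Fin 3 → _ → K) := fun p =>
    LinearMap.pi fun i => c'.proj ∘ₗ LinearMap.mulLeft K (cf p i) ∘ₗ c.sec
  have hiff : ∀ p, Function.Injective (L p) ↔ C3.ZGood p d W := by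
    intro p
    constructor
    · intro hinj y hy hX
      rw [← c.proj_eq_zero_iff (u := y) hy]
      refine hinj ?_
      funext i
      rw [map_zero]
      simp only [L, LinearMap.pi_apply, LinearMap.comp_apply, LinearMap.mulLeft_apply,
        Pi.zero_apply]
      have h1 : cf p i * c.sec (c.proj y) =
          cf p i * y - cf p i * (y - c.sec (c.proj y)) := by ring
      rw [h1]
      exact c'.proj_zero _ (sub_mem (hX i) (linear_mul_mem_up (cf_homogeneous p i) (c.sub_mem hy)))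
    · intro hz
      rw [← LinearMap.ker_eq_bot, Submodule.eq_bot_iff]
      intro e he
      rw [LinearMap.mem_ker] at he
      rw [← c.proj_sec e]
      refine c.proj_zero _ (hz _ (c.sec_mem e) fun i => ?_)
      exact c'.mem_of_proj _ (mul_homS (cf_homogeneous p i) (c.sec_mem e)) (congrFun he i)
  obtain ⟨Δ, hΔ, hΔ'⟩ := generic_injective L (fun e f => by
    obtain ⟨P, hP⟩ := polyF_affine (fun j => f (fun i =>
      c'.proj (cf (Pi.single j (1 : K)) i * c.sec e))) 0
    refine ⟨P, fun p => (hP p).trans ?_⟩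
    have : L p e = ∑ j, p j • (fun i => c'.proj (cf (Pi.single j (1 : K)) i * c.sec e)) := by
      funext i
      simp only [L, LinearMap.pi_apply, LinearMap.comp_apply, LinearMap.mulLeft_apply]
      rw [cf_eq_sum p i, Finset.sum_mul, map_sum, Finset.sum_apply]
      exact Finset.sum_congr rfl fun j _ => by rw [smul_mul_assoc, map_smul]; rfl
    beta_reduce
    rw [this, map_sum, add_zero]
    exact Finset.sum_congr rfl fun j _ => by rw [map_smul, smul_eq_mul]) p0 ((hiff p0).2 h0)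
  exact ⟨Δ, hΔ, fun p hp => (hiff p).1 (hΔ' p hp)⟩

lemma sGood_generic (h : C3.Sub d W) {p0 : Fin 3 → K} (h0 : C3.SGood p0 d W) :
    ∃ Δ : Poly3 K, Δ ≠ 0 ∧ ∀ p, eval p Δ ≠ 0 → C3.SGood p d W := by
  have := h.finite
  have hX : FiniteDimensional K (C3.up d W) := Submodule.finiteDimensional_of_le (up_le h)
  let L : (Fin 3 → K) → ((Fin 3 → W) × degPart (d + 1) C3.idJ) →ₗ[K] C3.up d W := fun p =>
    LinearMap.codRestrict _
      ((∑ i, (LinearMap.mulLeft K (cf p i) ∘ₗ W.subtype ∘ₗ LinearMap.proj i)).coprod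
        (degPart (d + 1) C3.idJ).subtype)
      (fun z => by
        simp only [LinearMap.coprod_apply, LinearMap.coe_sum, Finset.sum_apply,
          LinearMap.comp_apply, LinearMap.mulLeft_apply, Submodule.subtype_apply]
        exact add_mem (sum_mem fun i _ => linear_mul_mem_up (cf_homogeneous p i) (z.1 i).2)
          (Submodule.mem_sup_right z.2.2))
  have hL : ∀ p z, (L p z : Poly3 K) = ∑ i, cf p i * (z.1 i : Poly3 K) + z.2 := by
    intro p z
    simp [L]
  have hiff : ∀ p, Function.Surjective (L p) ↔ C3.SGood p d W := by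
    intro p
    constructor
    · intro hs g hg
      obtain ⟨z, hz⟩ := hs ⟨g, hg⟩
      rw [← show (L p z : Poly3 K) = g from congrArg Subtype.val hz, hL]
      exact add_mem (sum_mem fun i _ => cf_mul_mem_pUp p (z.1 i).2 i)
        (Submodule.mem_sup_right z.2.2)
    · intro hs g
      obtain ⟨ws, hws, hj⟩ := mem_sup_iSup_map (hs g.2)
      refine ⟨(fun i => ⟨ws i, hws i⟩, ⟨_, hj⟩), Subtype.ext ?_⟩
      rw [hL]
      simp
  obtain ⟨Δ, hΔ, hΔ'⟩ := generic_surjective L (fun e f => by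
    have hmem : ∀ j, ∑ i, cf (Pi.single j (1 : K)) i * (e.1 i : Poly3 K) ∈ C3.up d W :=
      fun j => sum_mem fun i _ => linear_mul_mem_up (cf_homogeneous _ i) (e.1 i).2
    obtain ⟨P, hP⟩ := polyF_affine (fun j => f ⟨_, hmem j⟩)
      (f ⟨e.2, Submodule.mem_sup_right e.2.2⟩)
    refine ⟨P, fun p => (hP p).trans ?_⟩
    have : L p e = ∑ j, p j • (⟨_, hmem j⟩ : C3.up d W) +
        ⟨e.2, Submodule.mem_sup_right e.2.2⟩ := by
      apply Subtype.ext
      rw [hL, Submodule.coe_add]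
      congr 1
      simp only [Submodule.coe_sum, Submodule.coe_smul, Finset.smul_sum]
      rw [Finset.sum_comm]
      exact Finset.sum_congr rfl fun i _ => by
        rw [cf_eq_sum p i, Finset.sum_mul]
        exact Finset.sum_congr rfl fun j _ => smul_mul_assoc _ _ _
    beta_reduce
    rw [this, map_add, map_sum]
    congr 1
    exact Finset.sum_congr rfl fun j _ => by rw [map_smul, smul_eq_mul]) p0 ((hiff p0).2 h0)
  exact ⟨Δ, hΔ, fun p hp => (hiff p).1 (hΔ' p hp)⟩

lemma finrank_line_le [Infinite K] {l : Poly3 K} (hl : l.IsHomogeneous 1) (hl0 : l ≠ 0)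
    (hln : Nzd C3.idB l) (d : ℕ) :
    (finrank K (homS K (d + 1)) : ℤ) - sz C3.a C3.b (d + 1) ≤
      finrank K ↥((homS K d).map (LinearMap.mulLeft K l) ⊔ degPart (d + 1) C3.idJ) := by
  have h := C3.quotDim_line hl hl0 hln ((d + 1 : ℕ) : ℤ)
  rw [quotDim_natCast] at h
  have hle : degPart (d + 1) (Ideal.span {l} ⊔ C3.idB) ≤
      (homS K d).map (LinearMap.mulLeft K l) ⊔ degPart (d + 1) C3.idJ := by
    intro u hu
    obtain ⟨hu1, hu2⟩ := mem_degPart.1 hu
    rcases exists_homog_of_mem_sup C3.homogI_idB hl hu1 hu2 with ⟨hlt, -⟩ | ⟨-, r, hr, hur⟩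
    · omega
    · rw [Nat.add_sub_cancel] at hr
      rw [← add_sub_cancel (l * r) u]
      exact Submodule.add_mem_sup ⟨r, hr, rfl⟩
        (mem_degPart.2 ⟨hu1.sub (mul_homS hl hr), C3.idB_le hur⟩)
  have : FiniteDimensional K ↥((homS K d).map (LinearMap.mulLeft K l) ⊔
      degPart (d + 1) C3.idJ) := inferInstance
  have := Submodule.finrank_mono hle
  push_cast at h
  zify at this
  linarith

/-- If every pencil kills a class, some subspace absorbs classes cheaply. -/
lemma z_block [Infinite K] (h : C3.Sub d W) (hbad : ∀ p, p ≠ 0 → ¬ C3.ZGood p d W) :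
    ∃ (W' : Submodule K (Poly3 K)) (k : ℤ), C3.Sub d W' ∧ 1 ≤ k ∧ cod d W' = cod d W - k ∧
      cod (d + 1) (C3.up d W) - k + 1 ≤ cod (d + 1) (C3.up d W') ∧
      k ≤ cod d W - cod (d + 1) (C3.up d W) + sz C3.a C3.b (d + 1) := by
  have := h.finite
  obtain ⟨l, hl, hl0, hln, -⟩ := C3.exists_good_line
  obtain ⟨m0, m1, hm0, hm1, hframe, hpts⟩ := exists_frame hl hl0
  obtain ⟨c⟩ := exists_coords (homS K d) W h.2
  obtain ⟨c'⟩ := exists_coords (homS K (d + 1)) (C3.up d W) (up_le h)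
  have : FiniteDimensional K (C3.up d W) := Submodule.finiteDimensional_of_le (up_le h)
  let E := LinearMap.ker (c'.proj ∘ₗ LinearMap.mulLeft K l ∘ₗ c.sec)
  let φ := c'.proj ∘ₗ LinearMap.mulLeft K m0 ∘ₗ c.sec ∘ₗ E.subtype
  let ψ := c'.proj ∘ₗ LinearMap.mulLeft K m1 ∘ₗ c.sec ∘ₗ E.subtype
  have hkill : ∀ t : K, ∃ e : E, e ≠ 0 ∧ ψ e = t • φ e := by
    intro t
    obtain ⟨p, hp, hpl, hpm⟩ := hpts t
    have hb := hbad p hp
    unfold ZGood at hb
    push Not at hb
    obtain ⟨y, hy, hyX, hyW⟩ := hb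
    have hsec : ∀ g : Poly3 K, g.IsHomogeneous 1 → eval p g = 0 →
        c'.proj (g * c.sec (c.proj y)) = 0 := by
      intro g hg h0
      refine c'.proj_zero _ ?_
      rw [show g * c.sec (c.proj y) = g * y - g * (y - c.sec (c.proj y)) by ring]
      exact sub_mem (vanish_mul_mem hp hg h0 hyX) (linear_mul_mem_up hg (c.sub_mem hy))
    refine ⟨⟨c.proj y, hsec l hl hpl⟩,
      fun h0 => hyW ((c.proj_eq_zero_iff hy).1 (congrArg Subtype.val h0)), ?_⟩
    have := hsec _ (hm1.sub (hm0.C_mul t)) hpm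
    rw [sub_mul, map_sub, mul_assoc, ← smul_eq_C_mul, map_smul, sub_eq_zero] at this
    exact this
  obtain ⟨Y, hY⟩ := pencil_compression φ ψ hkill
  let Y' := Y.map E.subtype
  have hY' : finrank K Y' = finrank K Y :=
    ((Submodule.equivMapOfInjective _ E.subtype_injective Y).finrank_eq).symm
  let Z := (Y.map φ ⊔ Y.map ψ)
  have hS : C3.Sub d (W ⊔ Y'.map c.sec) := by
    refine ⟨h.1.trans le_sup_left, sup_le h.2 ?_⟩
    rintro _ ⟨e, -, rfl⟩
    exact c.sec_mem e
  have hup : C3.up d (W ⊔ Y'.map c.sec) ≤ C3.up d W ⊔ Z.map c'.sec := by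
    refine sup_le (iSup_le fun i => ?_) (le_sup_right.trans le_sup_left)
    rw [Submodule.map_sup]
    refine sup_le (le_trans ?_ le_sup_left) ?_
    · rintro _ ⟨u, hu, rfl⟩; exact X_mul_mem_up hu i
    rintro _ ⟨_, ⟨_, ⟨e, he, rfl⟩, rfl⟩, rfl⟩
    refine hframe _ (c.sec (E.subtype e)) ?_ ?_ ?_ i
    · exact Submodule.mem_sup_left (c'.mem_of_proj _ (mul_homS hl (c.sec_mem _)) e.2)
    · rw [← sub_add_cancel (m0 * _) (c'.sec (φ e))]
      exact Submodule.add_mem_sup (c'.sub_mem (mul_homS hm0 (c.sec_mem _)))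
        ⟨φ e, Submodule.mem_sup_left ⟨e, he, rfl⟩, rfl⟩
    · rw [← sub_add_cancel (m1 * _) (c'.sec (ψ e))]
      exact Submodule.add_mem_sup (c'.sub_mem (mul_homS hm1 (c.sec_mem _)))
        ⟨ψ e, Submodule.mem_sup_right ⟨e, he, rfl⟩, rfl⟩
  have e1 := c.finrank_sup_sec Y'
  have e2 := c'.finrank_sup_sec Z
  have e3 := (Submodule.finrank_mono hup)
  have e4 : finrank K Y ≤ finrank K E := Submodule.finrank_le Y
  have e5 := LinearMap.finrank_range_add_finrank_ker (c'.proj ∘ₗ LinearMap.mulLeft K l ∘ₗ c.sec)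
  rw [finrank_fin_fun] at e5
  set Rg := LinearMap.range (c'.proj ∘ₗ LinearMap.mulLeft K l ∘ₗ c.sec)
  have hline : (homS K d).map (LinearMap.mulLeft K l) ⊔ degPart (d + 1) C3.idJ ≤
      C3.up d W ⊔ Rg.map c'.sec := by
    refine sup_le ?_ (le_sup_right.trans le_sup_left)
    rintro _ ⟨u, hu, rfl⟩
    rw [LinearMap.mulLeft_apply, show l * u = l * (u - c.sec (c.proj u)) + ((l * c.sec (c.proj u) -
      c'.sec (c'.proj (l * c.sec (c.proj u)))) + c'.sec (c'.proj (l * c.sec (c.proj u)))) by ring]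
    exact add_mem (Submodule.mem_sup_left (linear_mul_mem_up hl (c.sub_mem hu)))
      (Submodule.add_mem_sup (c'.sub_mem (mul_homS hl (c.sec_mem _))) ⟨_, ⟨c.proj u, rfl⟩, rfl⟩)
  have e6 := Submodule.finrank_mono hline
  rw [c'.finrank_sup_sec Rg] at e6
  have e7 := finrank_line_le hl hl0 hln d
  have e8 : finrank K W ≤ finrank K (homS K d) := Submodule.finrank_mono h.2
  refine ⟨W ⊔ Y'.map c.sec, finrank K Y, hS, ?_, ?_, ?_, ?_⟩
  · change finrank K Z < finrank K Y at hY
    omega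
  · unfold cod
    rw [e1, hY']
    push_cast
    ring
  · unfold cod
    rw [e2] at e3
    change finrank K Z < finrank K Y at hY
    zify at e3 hY
    linarith
  · unfold cod
    change _ + finrank K E = _ at e5
    zify [e8] at e4 e5 e6
    linarith

/-- If every pencil generates too little, some subspace is cheaper. -/
lemma s_block [Infinite K] (h : C3.Sub d W) (hbad : ∀ p, p ≠ 0 → ¬ C3.SGood p d W) :
    ∃ (W' : Submodule K (Poly3 K)) (k : ℤ), C3.Sub d W' ∧ W' ≤ W ∧ 1 ≤ k ∧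
      cod d W' ≤ cod d W + (k - 1) ∧
      cod (d + 1) (C3.up d W) + k ≤ cod (d + 1) (C3.up d W') ∧
      k ≤ cod d W - cod (d + 1) (C3.up d W) + sz C3.a C3.b (d + 1) := by
  have := h.finite
  set Xs := C3.up d W with hXs
  have : FiniteDimensional K Xs := Submodule.finiteDimensional_of_le (up_le h)
  obtain ⟨l, hl, hl0, hln, -⟩ := C3.exists_good_line
  obtain ⟨m0, m1, hm0, hm1, hframe, hpts⟩ := exists_frame hl hl0
  let mulX : ∀ g : Poly3 K, g.IsHomogeneous 1 → W →ₗ[K] Xs := fun g hg =>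
    LinearMap.codRestrict Xs (LinearMap.mulLeft K g ∘ₗ W.subtype)
      fun u => linear_mul_mem_up hg u.2
  let Zl := W.map (LinearMap.mulLeft K l) ⊔ degPart (d + 1) C3.idJ
  have hZl : Zl ≤ Xs := sup_le (by rintro _ ⟨u, hu, rfl⟩; exact linear_mul_mem_up hl hu) le_sup_right
  let E := (Zl.comap Xs.subtype).dualAnnihilator
  let φ := (mulX m0 hm0).dualMap ∘ₗ E.subtype
  let ψ := (mulX m1 hm1).dualMap ∘ₗ E.subtype
  have hkill : ∀ t : K, ∃ e : E, e ≠ 0 ∧ ψ e = t • φ e := by
    intro t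
    obtain ⟨p, hp, hpl, hpm⟩ := hpts t
    have hlt : (C3.pUp p d W).comap Xs.subtype < ⊤ := by
      refine lt_of_le_of_ne le_top fun he => hbad p hp fun g hg => ?_
      have : (⟨g, hg⟩ : Xs) ∈ (C3.pUp p d W).comap Xs.subtype := he ▸ Submodule.mem_top
      exact this
    obtain ⟨ξ, hξ0, hξ⟩ := Submodule.exists_dual_map_eq_bot_of_lt_top hlt inferInstance
    have hkills : ∀ v : Xs, (v : Poly3 K) ∈ C3.pUp p d W → ξ v = 0 := by
      intro v hv
      have : ξ v ∈ ((C3.pUp p d W).comap Xs.subtype).map ξ := ⟨v, hv, rfl⟩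
      rw [hξ] at this
      exact this
    have hmul : ∀ g : Poly3 K, g.IsHomogeneous 1 → eval p g = 0 → ∀ u ∈ W,
        g * u ∈ C3.pUp p d W := fun g hg h0 u hu =>
      vanish_mul_mem hp hg h0 fun i => cf_mul_mem_pUp p hu i
    refine ⟨⟨ξ, ?_⟩, fun h0 => hξ0 (congrArg Subtype.val h0), ?_⟩
    · rw [Submodule.mem_dualAnnihilator]
      intro v hv
      refine hkills v ((sup_le ?_ le_sup_right : Zl ≤ C3.pUp p d W) hv)
      rintro _ ⟨u, hu, rfl⟩
      exact hmul l hl hpl u hu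
    · refine LinearMap.ext fun u => ?_
      simp only [ψ, φ, LinearMap.comp_apply, Submodule.subtype_apply, LinearMap.dualMap_apply,
        LinearMap.smul_apply]
      rw [← map_smul, ← sub_eq_zero, ← map_sub]
      refine hkills _ ?_
      change m1 * (u : Poly3 K) - t • (m0 * (u : Poly3 K)) ∈ C3.pUp p d W
      rw [smul_eq_C_mul, ← mul_assoc, ← sub_mul]
      exact hmul _ (hm1.sub (hm0.C_mul t)) hpm _ u.2
  obtain ⟨Y, hY⟩ := pencil_compression (K := K) (E := E) (G := Module.Dual K W) φ ψ hkill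
  let Y' := Y.map E.subtype
  have hY' : finrank K Y' = finrank K Y :=
    ((Submodule.equivMapOfInjective _ E.subtype_injective Y).finrank_eq).symm
  set Zd := Y.map φ ⊔ Y.map ψ with hZd
  let W1 := Zd.dualCoannihilator
  let X1 := Y'.dualCoannihilator
  have eW := Subspace.finrank_add_finrank_dualCoannihilator_eq Zd
  have eX := Subspace.finrank_add_finrank_dualCoannihilator_eq Y'
  have eW' : finrank K (W1.map W.subtype) = finrank K W1 :=
    ((Submodule.equivMapOfInjective _ W.subtype_injective W1).finrank_eq).symm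
  have eX' : finrank K (X1.map Xs.subtype) = finrank K X1 :=
    ((Submodule.equivMapOfInjective _ Xs.subtype_injective X1).finrank_eq).symm
  have hE : ∀ e : E, ∀ v : Xs, (v : Poly3 K) ∈ Zl → (e : Module.Dual K Xs) v = 0 :=
    fun e v hv => (Submodule.mem_dualAnnihilator _).1 e.2 v hv
  have hJW : degPart d C3.idJ ≤ W1.map W.subtype := by
    intro u hu
    refine ⟨⟨u, h.1 hu⟩, ?_, rfl⟩
    rw [SetLike.mem_coe, Submodule.mem_dualCoannihilator]
    have key : ∀ (g : Poly3 K) (hg : g.IsHomogeneous 1) (e : E),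
        ((mulX g hg).dualMap ∘ₗ E.subtype) e ⟨u, h.1 hu⟩ = 0 := fun g hg e =>
      hE e _ (Submodule.mem_sup_right (mem_degPart.2
        ⟨mul_homS hg hu.1, Ideal.mul_mem_left _ g hu.2⟩))
    intro ξ hξ
    obtain ⟨_, ⟨e, -, rfl⟩, _, ⟨e', -, rfl⟩, rfl⟩ := Submodule.mem_sup.1 hξ
    rw [LinearMap.add_apply, key m0 hm0, key m1 hm1, add_zero]
  have hS : C3.Sub d (W1.map W.subtype) := ⟨hJW, (Submodule.map_subtype_le W W1).trans h.2⟩
  have hup : C3.up d (W1.map W.subtype) ≤ X1.map Xs.subtype := by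
    refine sup_le (iSup_le fun i => ?_) ?_
    · rintro _ ⟨_, ⟨u, hu, rfl⟩, rfl⟩
      rw [SetLike.mem_coe, Submodule.mem_dualCoannihilator] at hu
      refine hframe _ (u : Poly3 K) ?_ ?_ ?_ i
      · refine ⟨mulX l hl u, ?_, rfl⟩
        rw [SetLike.mem_coe, Submodule.mem_dualCoannihilator]
        rintro _ ⟨e, -, rfl⟩
        exact hE e _ (Submodule.mem_sup_left ⟨u, u.2, rfl⟩)
      · refine ⟨mulX m0 hm0 u, ?_, rfl⟩
        rw [SetLike.mem_coe, Submodule.mem_dualCoannihilator]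
        rintro _ ⟨e, he, rfl⟩
        exact hu _ (Submodule.mem_sup_left ⟨e, he, rfl⟩)
      · refine ⟨mulX m1 hm1 u, ?_, rfl⟩
        rw [SetLike.mem_coe, Submodule.mem_dualCoannihilator]
        rintro _ ⟨e, he, rfl⟩
        exact hu _ (Submodule.mem_sup_right ⟨e, he, rfl⟩)
    · intro u hu
      refine ⟨⟨u, Submodule.mem_sup_right hu⟩, ?_, rfl⟩
      rw [SetLike.mem_coe, Submodule.mem_dualCoannihilator]
      rintro _ ⟨e, -, rfl⟩
      exact hE e _ (Submodule.mem_sup_right hu)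
  have e4 : finrank K Y ≤ finrank K E := Submodule.finrank_le Y
  have e5 := Subspace.finrank_add_finrank_dualAnnihilator_eq (Zl.comap Xs.subtype)
  rw [(Submodule.comapSubtypeEquivOfLe hZl).finrank_eq] at e5
  obtain ⟨c⟩ := exists_coords (homS K d) W h.2
  have hline : (homS K d).map (LinearMap.mulLeft K l) ⊔ degPart (d + 1) C3.idJ ≤
      Zl ⊔ LinearMap.range (LinearMap.mulLeft K l ∘ₗ c.sec) := by
    refine sup_le ?_ (le_sup_right.trans le_sup_left)
    rintro _ ⟨u, hu, rfl⟩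
    rw [LinearMap.mulLeft_apply,
      show l * u = l * (u - c.sec (c.proj u)) + l * c.sec (c.proj u) by ring]
    exact Submodule.add_mem_sup (Submodule.mem_sup_left ⟨_, c.sub_mem hu, rfl⟩) ⟨c.proj u, rfl⟩
  have e6 := Submodule.finrank_mono hline
  have e6' := Submodule.finrank_add_le_finrank_add_finrank Zl
    (LinearMap.range (LinearMap.mulLeft K l ∘ₗ c.sec))
  have e6'' := LinearMap.finrank_range_le (LinearMap.mulLeft K l ∘ₗ c.sec)
  rw [finrank_fin_fun] at e6''
  have e7 := finrank_line_le hl hl0 hln d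
  have e8 : finrank K W ≤ finrank K (homS K d) := Submodule.finrank_mono h.2
  refine ⟨W1.map W.subtype, finrank K Y, hS, Submodule.map_subtype_le W W1, ?_, ?_, ?_, ?_⟩
  · omega
  · unfold cod
    rw [eW']
    change _ + finrank K W1 = _ at eW
    change finrank K Zd < finrank K Y at hY
    omega
  · unfold cod
    have e3 := Submodule.finrank_mono hup
    rw [eX'] at e3
    change _ + finrank K X1 = _ at eX
    omega
  · unfold cod
    change _ + finrank K E = _ at e5
    zify [e8] at e4 e5 e6 e6' e6''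
    linarith

end CI3

end Vale.Agent.P200
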