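import Vale.Agent.P200.Basic

/-!
Pencils of linear forms in three variables, through a point `p`.
-/

namespace Vale.Agent.P200

open MvPolynomial

/-- Polynomials in three variables. -/
abbrev Poly3 (K : Type*) [Field K] := MvPolynomial (Fin 3) K

variable {K : Type*} [Field K]

/-- The entries of `p × x`, spanning the linear forms vanishing at `p`. -/
noncomputable def cf (p : Fin 3 → K) (i : Fin 3) : Poly3 K :=
  C (p (i + 1)) * X (i + 2) - C (p (i + 2)) * X (i + 1)

/-- `p · w`. -/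
noncomputable def dotP (p : Fin 3 → K) (w : Fin 3 → Poly3 K) : Poly3 K := ∑ i, C (p i) * w i

/-- `x · w`. -/
noncomputable def dotX (w : Fin 3 → Poly3 K) : Poly3 K := ∑ i, X i * w i

/-- `ω × p`. -/
noncomputable def crossP (p : Fin 3 → K) (w : Fin 3 → Poly3 K) (i : Fin 3) : Poly3 K :=
  w (i + 1) * C (p (i + 2)) - w (i + 2) * C (p (i + 1))

lemma dotP_cf (p : Fin 3 → K) (v : Poly3 K) : dotP p (fun i => cf p i * v) = 0 := by
  simp only [dotP, cf, Fin.sum_univ_three, show (0 : Fin 3) + 1 = 1 from rfl,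
    show (0 : Fin 3) + 2 = 2 from rfl, show (1 : Fin 3) + 1 = 2 from rfl,
    show (1 : Fin 3) + 2 = 0 from rfl, show (2 : Fin 3) + 1 = 0 from rfl,
    show (2 : Fin 3) + 2 = 1 from rfl]
  ring

lemma dotX_cf (p : Fin 3 → K) (v : Poly3 K) : dotX (fun i => cf p i * v) = 0 := by
  simp only [dotX, cf, Fin.sum_univ_three, show (0 : Fin 3) + 1 = 1 from rfl,
    show (0 : Fin 3) + 2 = 2 from rfl, show (1 : Fin 3) + 1 = 2 from rfl,
    show (1 : Fin 3) + 2 = 0 from rfl, show (2 : Fin 3) + 1 = 0 from rfl,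
    show (2 : Fin 3) + 2 = 1 from rfl]
  ring

lemma dotP_cross (p : Fin 3 → K) (w : Fin 3 → Poly3 K) : dotP p (crossP p w) = 0 := by
  simp only [dotP, crossP, Fin.sum_univ_three, show (0 : Fin 3) + 1 = 1 from rfl,
    show (0 : Fin 3) + 2 = 2 from rfl, show (1 : Fin 3) + 1 = 2 from rfl,
    show (1 : Fin 3) + 2 = 0 from rfl, show (2 : Fin 3) + 1 = 0 from rfl,
    show (2 : Fin 3) + 2 = 1 from rfl]
  ring

lemma dotX_cross (p : Fin 3 → K) (w : Fin 3 → Poly3 K) :
    dotX (crossP p w) = ∑ i, cf p i * w i := by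
  simp only [dotX, crossP, cf, Fin.sum_univ_three, show (0 : Fin 3) + 1 = 1 from rfl,
    show (0 : Fin 3) + 2 = 2 from rfl, show (1 : Fin 3) + 1 = 2 from rfl,
    show (1 : Fin 3) + 2 = 0 from rfl, show (2 : Fin 3) + 1 = 0 from rfl,
    show (2 : Fin 3) + 2 = 1 from rfl]
  ring

lemma eval_dotX (p : Fin 3 → K) (w : Fin 3 → Poly3 K) :
    eval p (dotX w) = eval p (dotP p w) := by
  simp [dotX, dotP]

lemma cf_eval (p : Fin 3 → K) (i : Fin 3) : eval p (cf p i) = 0 := by
  simp [cf]
  ring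

lemma cf_homogeneous (p : Fin 3 → K) (i : Fin 3) : (cf p i).IsHomogeneous 1 :=
  (isHomogeneous_C_mul_X _ _).sub (isHomogeneous_C_mul_X _ _)

lemma dotP_add (p : Fin 3 → K) (v w : Fin 3 → Poly3 K) :
    dotP p (v + w) = dotP p v + dotP p w := by
  simp [dotP, mul_add, Finset.sum_add_distrib]

lemma dotX_add (v w : Fin 3 → Poly3 K) : dotX (v + w) = dotX v + dotX w := by
  simp [dotX, mul_add, Finset.sum_add_distrib]

lemma dotP_smul (p : Fin 3 → K) (c : K) (w : Fin 3 → Poly3 K) :
    dotP p (c • w) = c • dotP p w := by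
  simp [dotP, Finset.smul_sum, Pi.smul_apply]

lemma dotX_smul (c : K) (w : Fin 3 → Poly3 K) : dotX (c • w) = c • dotX w := by
  simp [dotX, Finset.smul_sum, Pi.smul_apply]

lemma dotP_sub (p : Fin 3 → K) (v w : Fin 3 → Poly3 K) :
    dotP p (v - w) = dotP p v - dotP p w := by
  simp [dotP, mul_sub, Finset.sum_sub_distrib]

lemma dotX_sub (v w : Fin 3 → Poly3 K) : dotX (v - w) = dotX v - dotX w := by
  simp [dotX, mul_sub, Finset.sum_sub_distrib]

lemma dotX_homogeneous {t : ℕ} {w : Fin 3 → Poly3 K} (hw : ∀ i, (w i).IsHomogeneous t) :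
    (dotX w).IsHomogeneous (t + 1) :=
  IsHomogeneous.sum _ _ _ fun i _ => by
    rw [add_comm]
    exact (isHomogeneous_X K i).mul (hw i)

/-- A function of `p` given by a homogeneous polynomial of degree `n`. -/
def PolyH (n : ℕ) (f : (Fin 3 → K) → K) : Prop :=
  ∃ P : Poly3 K, P.IsHomogeneous n ∧ ∀ p, eval p P = f p

lemma polyH_coord (i : Fin 3) : PolyH 1 fun p : Fin 3 → K => p i :=
  ⟨X i, isHomogeneous_X K i, fun p => eval_X i⟩

lemma polyH_eval {n : ℕ} {g : Poly3 K} (hg : g.IsHomogeneous n) :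
    PolyH n fun p => eval p g :=
  ⟨g, hg, fun _ => rfl⟩

lemma polyH_zero (n : ℕ) : PolyH n fun _ : Fin 3 → K => 0 :=
  ⟨0, isHomogeneous_zero _ _ _, fun p => map_zero _⟩

lemma PolyH.add {n : ℕ} {f g : (Fin 3 → K) → K} (hf : PolyH n f) (hg : PolyH n g) :
    PolyH n fun p => f p + g p := by
  obtain ⟨P, hP, hP'⟩ := hf
  obtain ⟨Q, hQ, hQ'⟩ := hg
  exact ⟨P + Q, hP.add hQ, fun p => by simp [hP', hQ']⟩

lemma PolyH.sub {n : ℕ} {f g : (Fin 3 → K) → K} (hf : PolyH n f) (hg : PolyH n g) :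
    PolyH n fun p => f p - g p := by
  obtain ⟨P, hP, hP'⟩ := hf
  obtain ⟨Q, hQ, hQ'⟩ := hg
  exact ⟨P - Q, hP.sub hQ, fun p => by simp [hP', hQ']⟩

lemma PolyH.mul {m n : ℕ} {f g : (Fin 3 → K) → K} (hf : PolyH m f) (hg : PolyH n g) :
    PolyH (m + n) fun p => f p * g p := by
  obtain ⟨P, hP, hP'⟩ := hf
  obtain ⟨Q, hQ, hQ'⟩ := hg
  exact ⟨P * Q, hP.mul hQ, fun p => by simp [hP', hQ']⟩

lemma PolyH.const_mul {n : ℕ} {f : (Fin 3 → K) → K} (c : K) (hf : PolyH n f) :
    PolyH n fun p => c * f p := by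
  obtain ⟨P, hP, hP'⟩ := hf
  exact ⟨C c * P, hP.C_mul c, fun p => by simp [hP']⟩

lemma PolyH.pow {m : ℕ} {f : (Fin 3 → K) → K} (hf : PolyH m f) (k : ℕ) :
    PolyH (m * k) fun p => f p ^ k := by
  obtain ⟨P, hP, hP'⟩ := hf
  exact ⟨P ^ k, hP.pow k, fun p => by simp [hP']⟩

lemma PolyH.congr {n : ℕ} {f g : (Fin 3 → K) → K} (hf : PolyH n f) (h : ∀ p, f p = g p) :
    PolyH n g := by
  obtain ⟨P, hP, hP'⟩ := hf
  exact ⟨P, hP, fun p => (hP' p).trans (h p)⟩

lemma PolyH.sum {n : ℕ} {ι : Type*} (s : Finset ι) {f : ι → (Fin 3 → K) → K}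
    (hf : ∀ i ∈ s, PolyH n (f i)) : PolyH n fun p => ∑ i ∈ s, f i p := by
  classical
  induction s using Finset.induction with
  | empty => simpa using polyH_zero n
  | insert a s ha ih =>
    have := (hf a (by simp)).add (ih fun i hi => hf i (by simp [hi]))
    exact this.congr fun p => by rw [Finset.sum_insert ha]

/-- A family of triples of forms, depending polynomially on `p`. -/
def PolyVec (n : ℕ) (F : (Fin 3 → K) → Fin 3 → Poly3 K) : Prop :=
  ∀ (i : Fin 3) (φ : Poly3 K →ₗ[K] K), PolyH n fun p => φ (F p i)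

/-- `p_j ^ T • g - g(p) • X_j ^ T = x · w` with `p · w = 0`, polynomially in `p`. -/
def Decomposable (j : Fin 3) (T : ℕ) (g : Poly3 K) : Prop :=
  ∃ F : (Fin 3 → K) → Fin 3 → Poly3 K, PolyVec (T + 1) F ∧ ∀ p,
    (∀ i, (F p i).IsHomogeneous T) ∧ dotP p (F p) = 0 ∧
      dotX (F p) = C (p j ^ (T + 1)) * g - C (eval p g) * X j ^ (T + 1)

lemma Decomposable.add {j : Fin 3} {T : ℕ} {g g' : Poly3 K} (h : Decomposable j T g)
    (h' : Decomposable j T g') : Decomposable j T (g + g') := by
  obtain ⟨F, hF, hF'⟩ := h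
  obtain ⟨G, hG, hG'⟩ := h'
  refine ⟨fun p => F p + G p, fun i φ => ((hF i φ).add (hG i φ)).congr fun p => ?_,
    fun p => ⟨fun i => ((hF' p).1 i).add ((hG' p).1 i), ?_, ?_⟩⟩
  · simp
  · rw [dotP_add, (hF' p).2.1, (hG' p).2.1, add_zero]
  · rw [dotX_add, (hF' p).2.2, (hG' p).2.2, map_add, C_add]
    ring

lemma Decomposable.smul {j : Fin 3} {T : ℕ} {g : Poly3 K} (c : K) (h : Decomposable j T g) :
    Decomposable j T (c • g) := by
  obtain ⟨F, hF, hF'⟩ := h
  refine ⟨fun p => c • F p, fun i φ => ((hF i φ).const_mul c).congr fun p => ?_,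
    fun p => ⟨fun i => ?_, ?_, ?_⟩⟩
  · simp
  · show (c • F p i).IsHomogeneous T
    rw [smul_eq_C_mul]
    exact ((hF' p).1 i).C_mul c
  · rw [dotP_smul, (hF' p).2.1, smul_zero]
  · rw [dotX_smul, (hF' p).2.2]
    simp [smul_eq_C_mul]
    ring

lemma decomposable_zero (j : Fin 3) (T : ℕ) : Decomposable j T (0 : Poly3 K) :=
  ⟨fun _ => 0, fun _ φ => (polyH_zero _).congr fun _ => (map_zero φ).symm,
    fun p => ⟨fun _ => isHomogeneous_zero _ _ _, by simp [dotP], by simp [dotX]⟩⟩

lemma decomposable_X (i j : Fin 3) : Decomposable j 0 (X i : Poly3 K) := by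
  refine ⟨fun p k => C (if k = i then p j else 0) - C (if k = j then p i else 0),
    fun k φ => ?_, fun p => ⟨fun k => (isHomogeneous_C _ _).sub (isHomogeneous_C _ _), ?_, ?_⟩⟩
  · have h : ∀ c : K, φ (C c) = c * φ 1 := fun c => by
      rw [← mul_one (C c), ← smul_eq_C_mul, map_smul, smul_eq_mul]
    have h1 : PolyH 1 fun p : Fin 3 → K => (if k = i then p j else 0) * φ 1 := by
      split_ifs
      · exact ((polyH_coord j).const_mul (φ 1)).congr fun p => mul_comm _ _
      · exact (polyH_zero 1).congr fun p => (zero_mul _).symm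
    have h2 : PolyH 1 fun p : Fin 3 → K => (if k = j then p i else 0) * φ 1 := by
      split_ifs
      · exact ((polyH_coord i).const_mul (φ 1)).congr fun p => mul_comm _ _
      · exact (polyH_zero 1).congr fun p => (zero_mul _).symm
    exact (h1.sub h2).congr fun p => by rw [map_sub, h, h]
  · simp [dotP, mul_sub, Finset.sum_sub_distrib, apply_ite C]
    ring
  · simp [dotX, mul_sub, Finset.sum_sub_distrib, apply_ite C]
    ring

lemma decomposable (j : Fin 3) : ∀ (T : ℕ) (g : Poly3 K), g.IsHomogeneous (T + 1) →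
    Decomposable j T g := by
  intro T
  induction T with
  | zero =>
    intro g hg
    have hg' : g ∈ Submodule.span K (Set.range (X : Fin 3 → Poly3 K)) := by
      rw [← homogeneousSubmodule_one_eq_span_X]; exact hg
    induction hg' using Submodule.span_induction with
    | mem x hx => obtain ⟨i, rfl⟩ := hx; exact decomposable_X i j
    | zero => exact decomposable_zero j 0
    | add a b _ _ ha hb =>
      have hh : ∀ z ∈ Submodule.span K (Set.range (X : Fin 3 → Poly3 K)),
          z.IsHomogeneous 1 := fun z hz => by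
        rw [← homogeneousSubmodule_one_eq_span_X] at hz; exact hz
      exact (ha (hh _ (by assumption))).add (hb (hh _ (by assumption)))
    | smul c a hmem ha =>
      have : a.IsHomogeneous 1 := by
        rw [← homogeneousSubmodule_one_eq_span_X] at hmem; exact hmem
      exact (ha this).smul c
  | succ T ih =>
    intro g hg
    have hg' : g ∈ homogeneousSubmodule (Fin 3) K (T + 1) *
        homogeneousSubmodule (Fin 3) K 1 := by
      have h := (homogeneousSubmodule_one_pow (σ := Fin 3) (R := K))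
      rw [← h (T + 1), ← pow_succ, h]; exact hg
    clear hg
    refine Submodule.mul_induction_on hg' (fun g' hg1 l hl => ?_) (fun _ _ ha hb => ha.add hb)
    rw [homogeneousSubmodule_one_eq_span_X] at hl
    induction hl using Submodule.span_induction with
      | zero => rw [mul_zero]; exact decomposable_zero j (T + 1)
      | add a b _ _ ha hb => rw [mul_add]; exact ha.add hb
      | smul c a _ ha => rw [mul_smul_comm]; exact ha.smul c
      | mem x hx =>
        obtain ⟨i, rfl⟩ := hx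
        obtain ⟨F, hF, hF'⟩ := ih g' hg1
        obtain ⟨G, hG, hG'⟩ := decomposable_X (K := K) i j
        refine ⟨fun p k => C (p j) * (X i * F p k) + C (eval p g') * (X j ^ (T + 1) * G p k),
          fun k φ => ?_, fun p => ⟨fun k => ?_, ?_, ?_⟩⟩
        · have h1 := (polyH_coord j).mul (hF k (φ ∘ₗ LinearMap.mulLeft K (X i)))
          have h2 := (polyH_eval hg1).mul (hG k (φ ∘ₗ LinearMap.mulLeft K (X j ^ (T + 1))))
          rw [show 1 + (T + 1) = T + 1 + 1 from by omega] at h1
          exact (h1.add h2).congr fun p => by simp [← smul_eq_C_mul]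
        · refine IsHomogeneous.add ?_ ?_
          · rw [show T + 1 = 1 + T by omega]
            exact ((isHomogeneous_X K i).mul ((hF' p).1 k)).C_mul _
          · exact ((isHomogeneous_X_pow j (T + 1)).mul ((hG' p).1 k)).C_mul _
        · have e1 := (hF' p).2.1
          have e2 := (hG' p).2.1
          simp only [dotP, Fin.sum_univ_three] at e1 e2 ⊢
          linear_combination (C (p j) * X i) * e1 + (C (eval p g') * X j ^ (T + 1)) * e2
        · have e1 := (hF' p).2.2
          have e2 := (hG' p).2.2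
          simp only [dotX, Fin.sum_univ_three, eval_X, map_mul, map_pow] at e1 e2 ⊢
          linear_combination (C (p j) * X i) * e1 + (C (eval p g') * X j ^ (T + 1)) * e2

lemma exists_dotX_eq {p : Fin 3 → K} (hp : p ≠ 0) {T : ℕ} {g : Poly3 K}
    (hg : g.IsHomogeneous (T + 1)) (h0 : eval p g = 0) :
    ∃ w : Fin 3 → Poly3 K, (∀ i, (w i).IsHomogeneous T) ∧ dotP p w = 0 ∧ dotX w = g := by
  obtain ⟨j, hj⟩ := Function.ne_iff.1 hp
  obtain ⟨F, -, hF⟩ := decomposable j T g hg
  obtain ⟨h1, h2, h3⟩ := hF p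
  refine ⟨((p j ^ (T + 1))⁻¹) • F p, fun i => ?_, ?_, ?_⟩
  · rw [Pi.smul_apply, smul_eq_C_mul]
    exact (h1 i).C_mul _
  · rw [dotP_smul, h2, smul_zero]
  · rw [dotX_smul, h3, h0, C_0, zero_mul, sub_zero, smul_eq_C_mul, ← mul_assoc, ← C_mul,
      inv_mul_cancel₀ (pow_ne_zero _ hj), C_1, one_mul]

lemma prime_of_linear {σ : Type*} {l : MvPolynomial σ K} (hl : l.IsHomogeneous 1) (h0 : l ≠ 0) :
    Prime l := by
  refine Irreducible.prime (irreducible_of_totalDegree_eq_one (hl.totalDegree h0) fun x hx => ?_)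
  obtain ⟨s, hs⟩ := MvPolynomial.exists_coeff_ne_zero h0
  exact isUnit_iff_ne_zero.2 fun hx0 => hs (by simpa [hx0] using hx s)

/-- The Koszul complex of a pencil is exact. -/
lemma koszul {p : Fin 3 → K} (hp : p ≠ 0) {t : ℕ} {w : Fin 3 → Poly3 K}
    (hw : ∀ i, (w i).IsHomogeneous t) (h1 : dotP p w = 0) (h2 : dotX w = 0) :
    w = 0 ∨ ∃ γ : Poly3 K, 1 ≤ t ∧ γ.IsHomogeneous (t - 1) ∧ w = fun i => cf p i * γ := by
  obtain ⟨j, hj⟩ := Function.ne_iff.1 hp
  set j1 := j + 1 with hj1
  set j2 := j + 2 with hj2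
  have hsum : ∀ f : Fin 3 → Poly3 K, ∑ i, f i = f j + f j1 + f j2 := by
    intro f
    rw [Fin.sum_univ_three, hj1, hj2]
    fin_cases j <;> simp <;> ring
  have e1 : cf p j1 = C (p j2) * X j - C (p j) * X j2 := by
    rw [hj1, hj2]; fin_cases j <;> rfl
  have e2 : cf p j2 = C (p j) * X j1 - C (p j1) * X j := by
    rw [hj1, hj2]; fin_cases j <;> rfl
  have e0 : cf p j = C (p j1) * X j2 - C (p j2) * X j1 := rfl
  have hne : j ≠ j1 ∧ j ≠ j2 ∧ j1 ≠ j2 := by
    rw [hj1, hj2]; fin_cases j <;> decide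
  rw [dotP, hsum] at h1
  rw [dotX, hsum] at h2
  have hkey : cf p j2 * w j1 = cf p j1 * w j2 := by
    rw [e1, e2]
    linear_combination C (p j) * h2 - X j * h1
  let q : Fin 3 → K := Pi.single j1 1
  have hq1 : eval q (cf p j1) = 0 := by
    simp [q, e1, hne.1, hne.2.2.symm]
  have hq2 : eval q (cf p j2) = p j := by
    simp [q, e2, hne.1]
  have hne0 : cf p j1 ≠ 0 := fun h0 => by
    have := congrArg (eval (Pi.single j2 (1 : K))) h0
    simp [e1, hne.2.1] at this
    exact hj this
  have hdvd : cf p j1 ∣ w j1 := by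
    rcases (prime_of_linear (cf_homogeneous p j1) hne0).dvd_mul.1 ⟨w j2, hkey⟩ with h | ⟨r, hr⟩
    · obtain ⟨r, hr⟩ := h
      have := congrArg (eval q) hr
      simp [hq1, hq2] at this
      exact absurd this hj
    · exact ⟨r, hr⟩
  obtain ⟨γ, hγ⟩ := hdvd
  have hγ2 : w j2 = cf p j2 * γ := by
    refine mul_left_cancel₀ hne0 ?_
    rw [← hkey, hγ]; ring
  have hCj : (C (p j) : Poly3 K) ≠ 0 := by simpa using hj
  have hγ0 : w j = cf p j * γ := by
    refine mul_left_cancel₀ hCj ?_
    have : C (p j) * w j = -(C (p j1) * w j1) - C (p j2) * w j2 := by linear_combination h1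
    rw [this, hγ, hγ2, e0, e1, e2]; ring
  by_cases ht : 1 ≤ t
  · refine Or.inr ⟨homogeneousComponent (t - 1) γ, ht, homogeneousComponent_isHomogeneous _ _, ?_⟩
    have key : ∀ i, w i = cf p i * γ → w i = cf p i * homogeneousComponent (t - 1) γ := by
      intro i hi
      have := congrArg (homogeneousComponent t) hi
      rwa [homogeneousComponent_eq_self (hw i),
        homogeneousComponent_mul_left (cf_homogeneous p i), if_pos ht] at this
    funext i
    apply key
    have : i = j ∨ i = j1 ∨ i = j2 := by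
      rw [hj1, hj2]; fin_cases j <;> fin_cases i <;> decide
    rcases this with rfl | rfl | rfl <;> assumption
  · refine Or.inl (funext fun i => ?_)
    have h' : ∀ i, w i = cf p i * γ → w i = 0 := by
      intro i hi
      have := congrArg (homogeneousComponent t) hi
      rwa [homogeneousComponent_eq_self (hw i),
        homogeneousComponent_mul_left (cf_homogeneous p i), if_neg ht] at this
    have : i = j ∨ i = j1 ∨ i = j2 := by
      rw [hj1, hj2]; fin_cases j <;> fin_cases i <;> decide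
    rcases this with rfl | rfl | rfl
    · exact h' _ hγ0
    · exact h' _ hγ
    · exact h' _ hγ2

/-- A cycle whose coefficients vanish at `p` is a Koszul cycle modulo the forms. -/
lemma cycle_koszul {p : Fin 3 → K} (hp : p ≠ 0) {t : ℕ} {ι : Type*} [Fintype ι]
    (f : ι → Poly3 K) (deg : ι → ℕ) (hf : ∀ k, (f k).IsHomogeneous (deg k))
    (hdeg : ∀ k, deg k ≤ t + 1) {w : Fin 3 → Poly3 K} (hw : ∀ i, (w i).IsHomogeneous t)
    (h1 : dotP p w = 0) (u : ι → Poly3 K) (hu : ∀ k, (u k).IsHomogeneous (t + 1 - deg k))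
    (hu0 : ∀ k, eval p (u k) = 0) (h2 : dotX w = ∑ k, u k * f k) :
    ∃ γ : Poly3 K, γ.IsHomogeneous (t - 1) ∧ (1 ≤ t ∨ γ = 0) ∧
      ∀ i, w i - cf p i * γ ∈ Ideal.span (Set.range f) := by
  have hv : ∀ k, ∃ v : Fin 3 → Poly3 K, (∀ i, (v i * f k).IsHomogeneous t) ∧ dotP p v = 0 ∧
      dotX v = u k := by
    intro k
    rcases Nat.lt_or_ge (deg k) (t + 1) with hlt | hge
    · have huk : (u k).IsHomogeneous ((t - deg k) + 1) := by
        rw [show t - deg k + 1 = t + 1 - deg k by omega]; exact hu k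
      obtain ⟨v, hv1, hv2, hv3⟩ := exists_dotX_eq hp huk (hu0 k)
      refine ⟨v, fun i => ?_, hv2, hv3⟩
      have := (hv1 i).mul (hf k)
      rwa [show t - deg k + deg k = t by omega] at this
    · refine ⟨0, fun i => by simpa using isHomogeneous_zero (Fin 3) K t, by simp [dotP], ?_⟩
      have h := hu k
      rw [show t + 1 - deg k = 0 by have := hdeg k; omega] at h
      have hc := totalDegree_eq_zero_iff_eq_C.1 ((totalDegree_zero_iff_isHomogeneous _).2 h)
      have := hu0 k
      rw [hc, eval_C] at this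
      rw [hc, this]
      simp [dotX]
  choose v hv1 hv2 hv3 using hv
  let w' : Fin 3 → Poly3 K := fun i => w i - ∑ k, v k i * f k
  have hmem : ∀ i, w i - w' i ∈ Ideal.span (Set.range f) := fun i => by
    simp only [w', sub_sub_cancel]
    exact sum_mem fun k _ => Ideal.mul_mem_left _ _ (Ideal.subset_span ⟨k, rfl⟩)
  have a1 : dotP p w' = 0 := by
    simp only [dotP, w', mul_sub, Finset.sum_sub_distrib, Finset.mul_sum]
    rw [Finset.sum_comm (f := fun i k => C (p i) * (v k i * f k))]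
    simp only [← mul_assoc, ← Finset.sum_mul]
    have := fun k => hv2 k
    simp only [dotP] at this h1
    simp [this, h1]
  have a2 : dotX w' = 0 := by
    simp only [dotX, w', mul_sub, Finset.sum_sub_distrib, Finset.mul_sum]
    rw [Finset.sum_comm (f := fun i k => X i * (v k i * f k))]
    simp only [← mul_assoc, ← Finset.sum_mul]
    have := fun k => hv3 k
    simp only [dotX] at this h2
    simp [this, h2]
  rcases koszul hp (fun i => (hw i).sub (IsHomogeneous.sum _ _ _ fun k _ => hv1 k i)) a1 a2 with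
    h | ⟨γ, hγ1, hγ2, hγ3⟩
  · refine ⟨0, isHomogeneous_zero _ _ _, Or.inr rfl, fun i => ?_⟩
    have := hmem i
    rw [show w' i = 0 from congrFun h i] at this
    simpa using this
  · exact ⟨γ, hγ2, Or.inl hγ1, fun i => congrFun hγ3 i ▸ hmem i⟩

/-- The determinant trick: a nonzero finite space cannot be stable under `n` modulo the pencil. -/
lemma det_trick {p : Fin 3 → K} {Q : Ideal (Poly3 K)} (hQ : Q.IsPrime)
    (hQp : ∀ g ∈ Q, eval p g = 0) {Z : Submodule K (Poly3 K)} [FiniteDimensional K Z]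
    (hZ : ∃ z ∈ Z, z ∉ Q) {n : Poly3 K} (hn : eval p n ≠ 0)
    (h : ∀ z ∈ Z, ∃ zs : Fin 3 → Poly3 K, (∀ i, zs i ∈ Z) ∧ n * z - ∑ i, cf p i * zs i ∈ Q) :
    False := by
  classical
  let b := Module.finBasis K Z
  choose zs hzs hq using fun a => h (b a : Poly3 K) (b a).2
  let L : Matrix _ _ (Poly3 K) := Matrix.of fun a c => ∑ i, cf p i * C (b.repr ⟨zs a i, hzs a i⟩ c)
  let Mx : Matrix _ _ (Poly3 K) := n • (1 : Matrix _ _ (Poly3 K)) - L
  let u : Fin (Module.finrank K Z) → Poly3 K := fun a => (b a : Poly3 K)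
  have hMu : ∀ a, (Mx.mulVec u) a ∈ Q := by
    intro a
    have hrepr : ∀ i, ∑ c, C (b.repr ⟨zs a i, hzs a i⟩ c) * u c = zs a i := by
      intro i
      have := congrArg Z.subtype (b.sum_repr ⟨zs a i, hzs a i⟩)
      simp only [map_sum, map_smul, Submodule.subtype_apply, smul_eq_C_mul] at this
      exact this
    have : (Mx.mulVec u) a = n * u a - ∑ i, cf p i * zs a i := by
      simp only [Mx, Matrix.sub_mulVec, Pi.sub_apply, Matrix.smul_mulVec, Matrix.one_mulVec,
        Pi.smul_apply, smul_eq_mul]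
      congr 1
      simp only [Matrix.mulVec, dotProduct, L, Matrix.of_apply, Finset.sum_mul]
      rw [Finset.sum_comm]
      simp only [mul_assoc, ← Finset.mul_sum, hrepr]
    rw [this]
    exact hq a
  have hdet : ∀ a, Mx.det * u a ∈ Q := by
    intro a
    have : (Mx.adjugate * Mx).mulVec u = Mx.det • u := by
      rw [Matrix.adjugate_mul, Matrix.smul_mulVec, Matrix.one_mulVec]
    have h2 := congrFun this a
    rw [← Matrix.mulVec_mulVec, Pi.smul_apply, smul_eq_mul] at h2
    rw [← h2, show Mx.adjugate.mulVec (Mx.mulVec u) a = ∑ c, Mx.adjugate a c * Mx.mulVec u c from rfl]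
    exact sum_mem fun c _ => Ideal.mul_mem_left Q _ (hMu c)
  have hdQ : Mx.det ∈ Q := by
    by_contra hcon
    obtain ⟨z, hz, hzQ⟩ := hZ
    refine hzQ ?_
    have hspan : (⟨z, hz⟩ : Z) ∈ Submodule.span K (Set.range b) := b.mem_span _
    clear hzQ
    suffices ∀ y ∈ Submodule.span K (Set.range b), (y : Poly3 K) ∈ Q from this _ hspan
    intro y hy
    induction hy using Submodule.span_induction with
    | mem x hx => obtain ⟨a, rfl⟩ := hx; exact (hQ.mem_or_mem (hdet a)).resolve_left hcon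
    | zero => simp
    | add x y _ _ hx hy => exact add_mem hx hy
    | smul c x _ hx =>
      rw [Submodule.coe_smul, smul_eq_C_mul]
      exact Ideal.mul_mem_left Q _ hx
  have h0 := hQp _ hdQ
  rw [RingHom.map_det] at h0
  have : (eval p).mapMatrix Mx = eval p n • (1 : Matrix _ _ K) := by
    ext a c
    rcases eq_or_ne a c with rfl | hac
    · simp [Mx, L, cf_eval]
    · simp [Mx, L, cf_eval, hac]
  rw [this, Matrix.det_smul, Matrix.det_one, mul_one] at h0
  exact pow_ne_zero _ hn h0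

end Vale.Agent.P200
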