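import Vale.Agent.P200.Comb
import Vale.Agent.P200.Points
import Vale.Agent.P200.Linalg

/-!
Complete intersections of three forms in three variables.
-/

namespace Vale.Agent.P200

open MvPolynomial Module

/-- A regular sequence of three forms in three variables, of increasing degrees. -/
structure CI3 (K : Type*) [Field K] where
  /-- first degree -/
  a : ℕ
  /-- second degree -/
  b : ℕ
  /-- third degree -/
  c : ℕ
  /-- first form -/
  fa : Poly3 K
  /-- second form -/
  fb : Poly3 K
  /-- third form -/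
  fc : Poly3 K
  two_le : 2 ≤ a
  hab : a ≤ b
  hbc : b ≤ c
  homA : fa.IsHomogeneous a
  homB : fb.IsHomogeneous b
  homC : fc.IsHomogeneous c
  neA : fa ≠ 0
  nzdB : Nzd (Ideal.span {fa}) fb
  nzdC : Nzd (Ideal.span {fb} ⊔ Ideal.span {fa}) fc

variable {K : Type*} [Field K]

/-- The degree `t` forms. -/
noncomputable abbrev homS (K : Type*) [Field K] (t : ℕ) : Submodule K (Poly3 K) :=
  homogeneousSubmodule (Fin 3) K t

lemma finrank_homS (t : ℕ) : (finrank K (homS K t) : ℤ) = triNum ((t : ℤ) + 1) := by
  have hs : ({d : Fin 3 →₀ ℕ | d.degree = t} : Set (Fin 3 →₀ ℕ)) =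
      ↑(Finset.univ.finsuppAntidiag t : Finset (Fin 3 →₀ ℕ)) := by
    ext d
    simp [Finsupp.degree_eq_sum]
  have he : homS K t = restrictSupport K
      (↑(Finset.univ.finsuppAntidiag t : Finset (Fin 3 →₀ ℕ)) : Set (Fin 3 →₀ ℕ)) := by
    rw [homS, homogeneousSubmodule_eq_finsupp_supported, hs]
    rfl
  rw [he, finrank_eq_card_basis (basisRestrictSupport K _)]
  have hc : (Finset.univ.finsuppAntidiag t : Finset (Fin 3 →₀ ℕ)).card = (t + 2).choose t := by
    rw [Finset.card_finsuppAntidiag_nat_eq_choose, Finset.card_univ, Fintype.card_fin]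
    congr 1
    omega
  have h2 : ∀ n : ℕ, (((n + 2).choose n : ℕ) : ℤ) = triNum ((n : ℤ) + 1) := by
    intro n
    induction n with
    | zero => simp [triNum]
    | succ n ih =>
      have h1 := Nat.choose_succ_succ' (n + 2) n
      have h3 := Nat.choose_succ_self_right (n + 1)
      rw [show n + 1 + 1 = n + 2 by omega] at h3
      push_cast
      rw [triNum_succ (by omega), ← ih, show n + 1 + 2 = n + 2 + 1 by omega, h1, h3]
      push_cast
      ring
  rw [← h2]
  simp [hc]

/-- Dimension of the degree `t` part of the quotient by `J`. -/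
noncomputable def quotDim (J : Ideal (Poly3 K)) (t : ℤ) : ℤ :=
  if t < 0 then 0 else (finrank K (homS K t.toNat) : ℤ) - finrank K (degPart t.toNat J)

lemma quotDim_natCast (J : Ideal (Poly3 K)) (t : ℕ) :
    quotDim J t = (finrank K (homS K t) : ℤ) - finrank K (degPart t J) := by
  rw [quotDim, if_neg (by omega), Int.toNat_natCast]

lemma quotDim_bot (t : ℤ) : quotDim (⊥ : Ideal (Poly3 K)) t = triNum (t + 1) := by
  unfold quotDim
  split_ifs with h
  · rw [triNum_zero (by omega)]
  · have : degPart t.toNat (⊥ : Ideal (Poly3 K)) = ⊥ := by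
      simp [degPart]
    rw [this, finrank_bot, finrank_homS, Int.toNat_of_nonneg (by omega)]
    simp

lemma quotDim_sup {J : Ideal (Poly3 K)} (hJ : HomogI J) {g : Poly3 K} {m : ℕ}
    (hg : g.IsHomogeneous m) (hg0 : g ≠ 0) (hgn : Nzd J g) (t : ℤ) :
    quotDim (Ideal.span {g} ⊔ J) t = quotDim J t - quotDim J (t - m) := by
  rcases lt_or_ge t 0 with h | h
  · simp [quotDim, h, show t - (m : ℤ) < 0 by omega]
  lift t to ℕ using h
  rcases lt_or_ge t m with hm | hm
  · rw [quotDim_natCast, quotDim_natCast, degPart_sup_of_lt hJ hg hm]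
    simp [quotDim, show (t : ℤ) - (m : ℤ) < 0 by omega]
  · obtain ⟨s, rfl⟩ := Nat.exists_eq_add_of_le' hm
    rw [show ((s + m : ℕ) : ℤ) - (m : ℤ) = (s : ℤ) by omega, quotDim_natCast, quotDim_natCast,
      quotDim_natCast]
    have := finrank_degPart_sup hJ hg hg0 hgn s
    zify at this
    linarith

lemma triNum_diff (t : ℤ) (a : ℕ) :
    triNum (t + 1) - triNum (t - a + 1) = ∑ i ∈ Finset.range a, max (t - i + 1) 0 := by
  induction a with
  | zero => simp
  | succ a ih =>
    rw [Finset.sum_range_succ, ← ih]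
    push_cast
    rcases lt_or_ge (t - a) 0 with h | h
    · rw [triNum_zero (show t - a + 1 ≤ 0 by omega),
        triNum_zero (show t - (a + 1) + 1 ≤ 0 by omega)]
      omega
    · have := triNum_succ h
      rw [show t - (a + 1 : ℤ) + 1 = t - a by ring]
      omega

lemma eval_zero_homogeneous {σ : Type*} {g : MvPolynomial σ K} {m : ℕ} (hg : g.IsHomogeneous m)
    (hm : 0 < m) : eval 0 g = 0 := by
  rw [eval_zero, constantCoeff_eq]
  exact hg.coeff_eq_zero (by simp; omega)

lemma eval_add_smul {l : Poly3 K} (hl : l.IsHomogeneous 1) (y v : Fin 3 → K) (s : K) :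
    eval (y + s • v) l = eval y l + s * eval v l := by
  have hl' : l ∈ Submodule.span K (Set.range (X : Fin 3 → Poly3 K)) := by
    rw [← homogeneousSubmodule_one_eq_span_X]; exact hl
  clear hl
  induction hl' using Submodule.span_induction with
  | mem x hx => obtain ⟨i, rfl⟩ := hx; simp
  | zero => simp
  | add a b _ _ ha hb => simp only [map_add, ha, hb]; ring
  | smul r a _ ha => simp only [smul_eq_C_mul, map_mul, eval_C, ha]; ring

/-- A form vanishing on the zero set of a linear form is divisible by it. -/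
lemma dvd_of_vanishing [Infinite K] {l g : Poly3 K} (hl : l.IsHomogeneous 1) (hl0 : l ≠ 0)
    {m : ℕ} (_hm : 0 < m) (_hg : g.IsHomogeneous m)
    (h : ∀ y, eval y l = 0 → eval y g = 0) : l ∣ g := by
  obtain ⟨v0, hv0⟩ : ∃ v, eval v l ≠ 0 := by
    by_contra hcon
    push Not at hcon
    exact hl0 (MvPolynomial.funext fun x => by simp [hcon x])
  set v : Fin 3 → K := (eval v0 l)⁻¹ • v0
  have hv : eval v l = 1 := by
    have := eval_add_smul hl 0 v0 (eval v0 l)⁻¹
    rw [zero_add, eval_zero_homogeneous hl one_pos, zero_add, inv_mul_cancel₀ hv0] at this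
    exact this
  let π : Poly3 K →ₐ[K] Poly3 K := aeval fun i => X i - C (v i) * l
  have hev : ∀ y, eval y (π g) = eval (y + (-(eval y l)) • v) g := by
    intro y
    clear h _hg
    induction g using MvPolynomial.induction_on with
    | C c => simp [π]
    | add a b ha hb => simp only [map_add, ha, hb]
    | mul_X a i ha =>
      rw [map_mul, map_mul, map_mul, ha]
      simp [π]
      left
      ring
  have hπ : π g = 0 := MvPolynomial.funext fun y => by
    rw [hev, map_zero]
    apply h
    rw [eval_add_smul hl, hv]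
    ring
  have hd : ∀ u, l ∣ u - π u := by
    intro u
    induction u using MvPolynomial.induction_on with
    | C c => simp [π]
    | add a b ha hb =>
      rw [map_add, show a + b - (π a + π b) = (a - π a) + (b - π b) by ring]
      exact dvd_add ha hb
    | mul_X a i ha =>
      rw [map_mul, show a * X i - π a * π (X i) = (a - π a) * X i + π a * (X i - π (X i)) by ring]
      refine dvd_add (dvd_mul_of_dvd_left ha _) (dvd_mul_of_dvd_right ?_ _)
      simp [π]
  simpa [hπ] using hd g

namespace CI3

variable (C3 : CI3 K)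

/-- The ideal of the first two forms. -/
noncomputable def idB : Ideal (Poly3 K) := Ideal.span {C3.fb} ⊔ Ideal.span {C3.fa}

/-- The ideal of the complete intersection. -/
noncomputable def idJ : Ideal (Poly3 K) := Ideal.span {C3.fc} ⊔ C3.idB

/-- Degree of the socle. -/
def socDeg : ℕ := C3.a + C3.b + C3.c - 3

lemma homogI_fa : HomogI (Ideal.span {C3.fa}) := by
  simpa using homogI_sup_span homogI_bot C3.homA

lemma homogI_idB : HomogI C3.idB := homogI_sup_span C3.homogI_fa C3.homB

lemma homogI_idJ : HomogI C3.idJ := homogI_sup_span C3.homogI_idB C3.homC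

lemma fa_mem : C3.fa ∈ C3.idJ :=
  Ideal.mem_sup_right (Ideal.mem_sup_right (Ideal.mem_span_singleton_self _))

lemma fb_mem : C3.fb ∈ C3.idJ :=
  Ideal.mem_sup_right (Ideal.mem_sup_left (Ideal.mem_span_singleton_self _))

lemma fc_mem : C3.fc ∈ C3.idJ := Ideal.mem_sup_left (Ideal.mem_span_singleton_self _)

lemma idB_le : C3.idB ≤ C3.idJ := le_sup_right

lemma fb_not_mem : C3.fb ∉ Ideal.span {C3.fa} := by
  intro h
  have h1 := C3.nzdB 1 (by simpa using h)
  obtain ⟨r, hr⟩ := Ideal.mem_span_singleton'.1 h1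
  have := congrArg (homogeneousComponent 0) hr
  rw [mul_comm, homogeneousComponent_mul_left C3.homA,
    if_neg (by have := C3.two_le; omega)] at this
  simp at this

lemma neB : C3.fb ≠ 0 := fun h => C3.fb_not_mem (by rw [h]; exact zero_mem _)

lemma neC : C3.fc ≠ 0 := by
  intro h
  have h1 := C3.nzdC 1 (by rw [h]; simp)
  have := C3.homogI_idB 1 h1 0
  have h0 : (1 : Poly3 K) ∈ degPart 0 (Ideal.span {C3.fb} ⊔ Ideal.span {C3.fa}) := by
    refine mem_degPart.2 ⟨isHomogeneous_one _ _, h1⟩
  rw [degPart_sup_of_lt C3.homogI_fa C3.homB (by have := C3.two_le; have := C3.hab; omega)] at h0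
  obtain ⟨r, hr⟩ := Ideal.mem_span_singleton'.1 (mem_degPart.1 h0).2
  have := congrArg (homogeneousComponent 0) hr
  rw [mul_comm, homogeneousComponent_mul_left C3.homA,
    if_neg (by have := C3.two_le; omega)] at this
  simp at this

lemma quotDim_fa (t : ℤ) :
    quotDim (Ideal.span {C3.fa}) t = triNum (t + 1) - triNum (t - C3.a + 1) := by
  have h := quotDim_sup homogI_bot C3.homA C3.neA (fun u hu => by
    simpa [C3.neA] using hu) t
  rw [sup_bot_eq, quotDim_bot, quotDim_bot] at h
  exact h

lemma quotDim_idB (t : ℤ) : quotDim C3.idB t =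
    ∑ i ∈ Finset.range C3.a, (max (t - i + 1) 0 - max (t - C3.b - i + 1) 0) := by
  rw [idB, quotDim_sup C3.homogI_fa C3.homB C3.neB C3.nzdB, quotDim_fa, quotDim_fa, triNum_diff,
    triNum_diff, Finset.sum_sub_distrib]

lemma quotDim_idJ (t : ℤ) : quotDim C3.idJ t = boxCount C3.b C3.c t C3.a := by
  rw [idJ, quotDim_sup C3.homogI_idB C3.homC C3.neC C3.nzdC, quotDim_idB, quotDim_idB,
    ← Finset.sum_sub_distrib, boxCount]
  refine Finset.sum_congr rfl fun i _ => ?_
  have := C3.two_le
  have := C3.hab
  have := C3.hbc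
  unfold sz
  omega

/-- Dimension of the degree `t` part of the complete intersection. -/
def dimA (t : ℤ) : ℤ := boxCount C3.b C3.c t C3.a

lemma dimA_eq (t : ℕ) :
    C3.dimA t = (finrank K (homS K t) : ℤ) - finrank K (degPart t C3.idJ) := by
  rw [dimA, ← C3.quotDim_idJ, quotDim_natCast]

lemma dimA_eq_zero {t : ℕ} (ht : C3.socDeg < t) : C3.dimA t = 0 := by
  unfold dimA boxCount
  refine Finset.sum_eq_zero fun i hi => ?_
  rw [Finset.mem_range] at hi
  have := C3.two_le
  have := C3.hab
  have := C3.hbc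
  unfold socDeg at ht
  unfold sz
  omega

lemma mem_idJ_of_gt {t : ℕ} (ht : C3.socDeg < t) {u : Poly3 K} (hu : u.IsHomogeneous t) :
    u ∈ C3.idJ := by
  have h := C3.dimA_eq t
  rw [C3.dimA_eq_zero ht] at h
  have hfin : finrank K (degPart t C3.idJ) = finrank K (homS K t) := by omega
  have : degPart t C3.idJ = homS K t := Submodule.eq_of_le_of_finrank_eq inf_le_left hfin
  exact (mem_degPart.1 (this.symm ▸ hu : u ∈ degPart t C3.idJ)).2

lemma degPart_idJ_of_lt {t : ℕ} (ht : t < C3.a) : degPart t C3.idJ = ⊥ := by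
  have := C3.hab
  have := C3.hbc
  rw [idJ, degPart_sup_of_lt C3.homogI_idB C3.homC (by omega), idB,
    degPart_sup_of_lt C3.homogI_fa C3.homB (by omega), ← sup_bot_eq (Ideal.span {C3.fa}),
    degPart_sup_of_lt homogI_bot C3.homA ht]
  simp [degPart]

lemma degPart_idJ_of_lt_c {t : ℕ} (ht : t < C3.c) : degPart t C3.idJ = degPart t C3.idB :=
  degPart_sup_of_lt C3.homogI_idB C3.homC ht

lemma eval_eq_zero_of_mem {q : Fin 3 → K} (h1 : eval q C3.fa = 0) (h2 : eval q C3.fb = 0)
    {u : Poly3 K} (hu : u ∈ C3.idB) : eval q u = 0 := by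
  have : C3.idB ≤ RingHom.ker (eval q) := by
    simp only [idB, sup_le_iff, Ideal.span_le, Set.singleton_subset_iff, SetLike.mem_coe,
      RingHom.mem_ker]
    exact ⟨h2, h1⟩
  exact this hu

lemma exists_eval_ne {q : Fin 3 → K} (hq : q ≠ 0) :
    eval q C3.fa ≠ 0 ∨ eval q C3.fb ≠ 0 ∨ eval q C3.fc ≠ 0 := by
  by_contra hcon
  push Not at hcon
  obtain ⟨j, hj⟩ := Function.ne_iff.1 hq
  have hmem := C3.mem_idJ_of_gt (lt_add_one C3.socDeg)
    (isHomogeneous_X_pow (R := K) j (C3.socDeg + 1))
  have : C3.idJ ≤ RingHom.ker (eval q) := by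
    simp only [idJ, idB, sup_le_iff, Ideal.span_le, Set.singleton_subset_iff, SetLike.mem_coe,
      RingHom.mem_ker]
    exact ⟨hcon.2.2, hcon.2.1, hcon.1⟩
  have h0 := this hmem
  simp [RingHom.mem_ker] at h0
  exact hj h0

/-- In large degree the pencil through `q` fills the quotient. -/
lemma pencil_fills {q : Fin 3 → K} (hq : q ≠ 0) {t m : ℕ} {f : Poly3 K} (hfJ : f ∈ C3.idJ)
    (hf : f.IsHomogeneous m) (hm : m ≤ t + 1) (hfq : eval q f ≠ 0) {g : Poly3 K}
    (hg : g.IsHomogeneous (t + 1)) :
    ∃ w : Fin 3 → Poly3 K, (∀ i, (w i).IsHomogeneous t) ∧ dotP q w = 0 ∧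
      g - dotX w ∈ C3.idJ := by
  obtain ⟨j, hj⟩ := Function.ne_iff.1 hq
  let r : Poly3 K := C (eval q g / (eval q f * q j ^ (t + 1 - m))) * X j ^ (t + 1 - m)
  have hr : r.IsHomogeneous (t + 1 - m) := (isHomogeneous_X_pow j _).C_mul _
  have hh : (g - r * f).IsHomogeneous (t + 1) := by
    refine hg.sub ?_
    have := hr.mul hf
    rwa [show t + 1 - m + m = t + 1 by omega] at this
  have h0 : eval q (g - r * f) = 0 := by
    have hp : q j ^ (t + 1 - m) ≠ 0 := pow_ne_zero _ hj
    simp only [r, map_sub, map_mul, map_pow, eval_C, eval_X]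
    field_simp
    ring
  obtain ⟨w, hw1, hw2, hw3⟩ := exists_dotX_eq hq hh h0
  refine ⟨w, hw1, hw2, ?_⟩
  rw [hw3, sub_sub_cancel]
  exact Ideal.mul_mem_left _ _ hfJ

lemma socFree_idB [Infinite K] : SocFree C3.idB := by
  have h := regList_socFree (L := [C3.fa, C3.fb]) (fun g hg => by
      simp only [List.mem_cons, List.not_mem_nil, or_false] at hg
      have := C3.two_le
      have := C3.hab
      rcases hg with rfl | rfl
      · exact ⟨C3.a, by omega, C3.homA⟩
      · exact ⟨C3.b, by omega, C3.homB⟩)
    (by simp) ⟨fun u hu => by simpa [C3.neA] using hu, by simpa using C3.nzdB, trivial⟩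
  simpa [idB, Ideal.ofList_cons, sup_comm] using h

lemma quotDim_line {l : Poly3 K} (hl : l.IsHomogeneous 1) (hl0 : l ≠ 0) (hln : Nzd C3.idB l)
    (t : ℤ) : quotDim (Ideal.span {l} ⊔ C3.idB) t = sz C3.a C3.b t := by
  rw [quotDim_sup C3.homogI_idB hl hl0 hln, quotDim_idB, quotDim_idB, ← Finset.sum_sub_distrib]
  have hb : 1 ≤ C3.b := by have := C3.two_le; have := C3.hab; omega
  have key : ∀ a : ℕ, a ≤ C3.b → ∑ i ∈ Finset.range a,
      (max (t - i + 1) 0 - max (t - C3.b - i + 1) 0 -
        (max (t - (1 : ℕ) - i + 1) 0 - max (t - (1 : ℕ) - C3.b - i + 1) 0)) = sz a C3.b t := by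
    intro a ha
    induction a with
    | zero => simp [sz]
    | succ a ih =>
      rw [Finset.sum_range_succ, ih (by omega)]
      unfold sz
      push_cast
      omega
  exact key C3.a C3.hab

lemma exists_good_line [Infinite K] : ∃ l : Poly3 K, l.IsHomogeneous 1 ∧ l ≠ 0 ∧ Nzd C3.idB l ∧
    (∀ q : Fin 3 → K, q ≠ 0 → eval q l = 0 → eval q C3.fa ≠ 0 ∨ eval q C3.fb ≠ 0) ∧
    ∃ p : Fin 3 → K, p ≠ 0 ∧ eval p l = 0 ∧ eval p C3.fa ≠ 0 := by
  obtain ⟨l, hl, hln⟩ := exists_linear_nzd C3.socFree_idB
  have h1B : (1 : Poly3 K) ∉ C3.idB := by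
    intro h
    have h0 : quotDim C3.idB 0 = 0 := by
      have : degPart 0 C3.idB = homS K 0 := le_antisymm inf_le_left fun u hu => by
        refine mem_degPart.2 ⟨hu, ?_⟩
        rw [← mul_one u]; exact Ideal.mul_mem_left _ _ h
      rw [show (0 : ℤ) = ((0 : ℕ) : ℤ) from rfl, quotDim_natCast, this]
      simp
    rw [C3.quotDim_idB] at h0
    have hh : ∀ i ∈ Finset.range C3.a,
        (max ((0 : ℤ) - i + 1) 0 - max (0 - (C3.b : ℤ) - i + 1) 0) = if i = 0 then 1 else 0 := by
      intro i _
      have := C3.two_le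
      have := C3.hab
      split_ifs <;> omega
    rw [Finset.sum_congr rfl hh] at h0
    simp at h0
    have := C3.two_le
    omega
  have hl0 : l ≠ 0 := fun h => h1B (hln 1 (by simp [h]))
  refine ⟨l, hl, hl0, hln, fun q hq hql => ?_, ?_⟩
  · by_contra hcon
    push Not at hcon
    obtain ⟨j, hj⟩ := Function.ne_iff.1 hq
    set T := C3.a + C3.b with hT
    have h := C3.quotDim_line hl hl0 hln (T : ℕ)
    rw [quotDim_natCast, show sz C3.a C3.b ((T : ℕ) : ℤ) = 0 by unfold sz; omega] at h
    have hfin : finrank K (degPart T (Ideal.span {l} ⊔ C3.idB)) = finrank K (homS K T) := by omega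
    have he : degPart T (Ideal.span {l} ⊔ C3.idB) = homS K T :=
      Submodule.eq_of_le_of_finrank_eq inf_le_left hfin
    have hmem : (X j ^ T : Poly3 K) ∈ Ideal.span {l} ⊔ C3.idB :=
      (mem_degPart.1 (he.symm ▸ isHomogeneous_X_pow j T :
        (X j ^ T : Poly3 K) ∈ degPart T (Ideal.span {l} ⊔ C3.idB))).2
    obtain ⟨r, u, hu, hr⟩ := Ideal.mem_span_singleton_sup.1 hmem
    have := congrArg (eval q) hr
    simp [hql, C3.eval_eq_zero_of_mem hcon.1 hcon.2 hu] at this
    exact hj (pow_eq_zero_iff'.1 this.symm).1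
  · by_contra hcon
    push Not at hcon
    obtain ⟨r, hr⟩ := dvd_of_vanishing hl hl0 (show 0 < C3.a by have := C3.two_le; omega)
      C3.homA fun y hy => by
        rcases eq_or_ne y 0 with rfl | hy0
        · exact eval_zero_homogeneous C3.homA (by have := C3.two_le; omega)
        · exact hcon y hy0 hy
    have hr' : C3.fa = l * homogeneousComponent (C3.a - 1) r := by
      have := congrArg (homogeneousComponent C3.a) hr
      rwa [homogeneousComponent_eq_self C3.homA, homogeneousComponent_mul_left hl,
        if_pos (by have := C3.two_le; omega)] at this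
    have h0 : homogeneousComponent (C3.a - 1) r ∈ C3.idB := hln _ (by
      rw [← hr']
      exact Ideal.mem_sup_right (Ideal.mem_span_singleton_self _))
    have h1 : homogeneousComponent (C3.a - 1) r ∈ degPart (C3.a - 1) C3.idJ :=
      mem_degPart.2 ⟨homogeneousComponent_isHomogeneous _ _, C3.idB_le h0⟩
    rw [C3.degPart_idJ_of_lt (by have := C3.two_le; omega), Submodule.mem_bot] at h1
    exact C3.neA (by rw [hr', h1, mul_zero])

lemma socIn_idJ [Infinite K] : SocIn C3.idJ C3.socDeg := by
  obtain ⟨l, hl, hl0, hln, -, p, hp, hpl, hpa⟩ := C3.exists_good_line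
  have h2 := C3.two_le
  have hab := C3.hab
  have hbc := C3.hbc
  obtain ⟨w, hw, hwp, hwl⟩ := exists_dotX_eq hp (T := 0) hl hpl
  obtain ⟨j, hj⟩ := Function.ne_iff.1 hp
  replace hj : p j ≠ 0 := hj
  have hfa' : HomogPos C3.fa := ⟨C3.a, by omega, C3.homA⟩
  have hfb' : HomogPos C3.fb := ⟨C3.b, by omega, C3.homB⟩
  have hl' : HomogPos l := ⟨1, one_pos, hl⟩
  obtain ⟨hnl, hnb⟩ := nzd_swap C3.homogI_fa hfb' hl' C3.nzdB hln
  have hpr := prime_of_linear hl hl0
  -- a second linear form through `p`
  obtain ⟨m, hm, hmp, hml, hgen⟩ : ∃ m : Poly3 K, m.IsHomogeneous 1 ∧ eval p m = 0 ∧ ¬ l ∣ m ∧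
      ∀ i, cf p i ∈ Ideal.span {m} ⊔ Ideal.span {l} := by
    have hex : ∃ i, ¬ l ∣ cf p i := by
      by_contra hcon
      push Not at hcon
      have hfill : ∀ g : Poly3 K, g.IsHomogeneous 1 → eval p g = 0 → l ∣ g := by
        intro g hg h0
        obtain ⟨v, hv, hv1, hv2⟩ := exists_dotX_eq hp (T := 0) hg h0
        have key : C (p j) * g = C (p j) * dotX v - X j * dotP p v := by rw [hv1, hv2]; ring
        have hd : l ∣ C (p j) * g := by
          rw [key]
          have : C (p j) * dotX v - X j * dotP p v = ∑ i, v i * (C (p j) * X i - C (p i) * X j) := by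
            simp only [dotX, dotP, Finset.mul_sum, ← Finset.sum_sub_distrib]
            exact Finset.sum_congr rfl fun i _ => by ring
          rw [this]
          refine Finset.dvd_sum fun i _ => dvd_mul_of_dvd_right ?_ _
          have hz : i = j ∨ i = j + 1 ∨ i = j + 2 := by fin_cases j <;> fin_cases i <;> decide
          rcases hz with h | h | h
          · subst h; simp
          · subst h
            have e : cf p (j + 2) = C (p j) * X (j + 1) - C (p (j + 1)) * X j := by
              fin_cases j <;> rfl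
            rw [← e]; exact hcon _
          · subst h
            have e : cf p (j + 1) = C (p (j + 2)) * X j - C (p j) * X (j + 2) := by
              fin_cases j <;> rfl
            rw [show C (p j) * X (j + 2) - C (p (j + 2)) * X j = -cf p (j + 1) by rw [e]; ring]
            exact dvd_neg.2 (hcon _)
        refine (hpr.dvd_or_dvd hd).resolve_left fun hcd => ?_
        exact hpr.not_isUnit (isUnit_of_dvd_unit hcd ((isUnit_iff_ne_zero.2 hj).map C))
      have hall : ∀ i, l ∣ cf p i ∧ l ∣ C (p j) * X i - C (p i) * X j := fun i =>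
        ⟨hcon i, hfill _ ((isHomogeneous_C_mul_X _ _).sub (isHomogeneous_C_mul_X _ _))
          (by simp; ring)⟩
      -- the forms through `p` would all be proportional to `l`
      obtain ⟨q, hq0, hql, hqp⟩ : ∃ q : Fin 3 → K, q ≠ 0 ∧ eval q l = 0 ∧
          ∃ i, p j * q i ≠ p i * q j := by
        by_cases hc : eval (Pi.single (j + 1) 1) l = 0
        · refine ⟨Pi.single (j + 1) 1, by simp, hc, j + 1, ?_⟩
          have : j ≠ j + 1 := by fin_cases j <;> decide
          simp [this, hj]
        · refine ⟨Pi.single (j + 2) 1 + (-(eval (Pi.single (j + 2) 1) l) /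
            eval (Pi.single (j + 1) 1) l) • Pi.single (j + 1) 1, ?_, ?_, j + 2, ?_⟩
          · intro h0
            have := congrFun h0 (j + 2)
            have hne : j + 2 ≠ j + 1 := by fin_cases j <;> decide
            simp [hne] at this
          · rw [eval_add_smul hl]
            field_simp
            ring
          · have h1 : j ≠ j + 1 := by fin_cases j <;> decide
            have h2 : j ≠ j + 2 := by fin_cases j <;> decide
            have h3 : j + 2 ≠ j + 1 := by fin_cases j <;> decide
            simp [h1, h2, h3, hj]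
      obtain ⟨i, hi⟩ := hqp
      obtain ⟨r, hr⟩ := (hall i).2
      have := congrArg (eval q) hr
      simp [hql] at this
      exact hi (sub_eq_zero.1 this)
    obtain ⟨i0, hi0⟩ := hex
    refine ⟨cf p i0, cf_homogeneous p i0, cf_eval p i0, hi0, fun i => ?_⟩
    -- `cf p i` is in the span of the two forms `l` and `cf p i0`
    have hV : ∀ i', cf p i' ∈ Submodule.span K ({cf p i0, l} : Set (Poly3 K)) := by
      let V : Submodule K (Poly3 K) := homS K 1 ⊓ LinearMap.ker (aeval p).toLinearMap
      have hXj : (X j : Poly3 K) ∉ V := fun h => hj (by simpa using h.2)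
      have : FiniteDimensional K V := Submodule.finiteDimensional_of_le inf_le_left
      have hfr : finrank K V ≤ 2 := by
        have hlt : V < homS K 1 := lt_of_le_of_ne inf_le_left
          fun h => hXj (h.symm ▸ isHomogeneous_X K j)
        have h3 := finrank_homS (K := K) 1
        have h4 : triNum (((1 : ℕ) : ℤ) + 1) = 3 := by
          rw [triNum_succ (by simp)]; simp [triNum]
        rw [h4] at h3
        have := Submodule.finrank_lt_finrank_of_lt hlt
        change finrank K V < finrank K (homS K 1) at this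
        omega
      have hmem : ∀ g : Poly3 K, g.IsHomogeneous 1 → eval p g = 0 → g ∈ V :=
        fun g hg h0 => ⟨hg, by rw [SetLike.mem_coe, LinearMap.mem_ker]; simpa [aeval_def] using h0⟩
      have hle : Submodule.span K ({cf p i0, l} : Set (Poly3 K)) ≤ V := by
        rw [Submodule.span_le]
        intro g hg
        rcases hg with rfl | rfl
        · exact hmem _ (cf_homogeneous p i0) (cf_eval p i0)
        · exact hmem _ hl hpl
      have hli : LinearIndependent K ![cf p i0, l] := by
        rw [LinearIndependent.pair_iff]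
        intro s t hst
        have hs : s = 0 := by
          by_contra hs
          refine hi0 ⟨C (-t / s), ?_⟩
          have : C s * cf p i0 = -(C t * l) := by
            rw [← smul_eq_C_mul, ← smul_eq_C_mul]; exact eq_neg_of_add_eq_zero_left hst
          calc cf p i0 = C s⁻¹ * (C s * cf p i0) := by
                rw [← mul_assoc, ← C_mul, inv_mul_cancel₀ hs, C_1, one_mul]
            _ = l * C (-t / s) := by
                rw [this, div_eq_mul_inv, C_mul, C_neg]; ring
        subst hs
        simp [hl0] at hst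
        exact ⟨rfl, hst⟩
      have h2' : finrank K ↥(Submodule.span K ({cf p i0, l} : Set (Poly3 K))) = 2 := by
        have := finrank_span_eq_card hli
        rw [show Set.range ![cf p i0, l] = ({cf p i0, l} : Set (Poly3 K)) by
          ext; simp [eq_comm]; tauto] at this
        simpa using this
      have heq := Submodule.eq_of_le_of_finrank_le hle (by omega)
      intro i'
      rw [heq]
      exact hmem _ (cf_homogeneous p i') (cf_eval p i')
    have := hV i
    have hsub : Submodule.span K ({cf p i0, l} : Set (Poly3 K)) ≤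
        (Ideal.span {cf p i0} ⊔ Ideal.span {l}).restrictScalars K := by
      rw [Submodule.span_le]
      intro g hg
      rcases hg with rfl | rfl
      · exact Ideal.mem_sup_left (Ideal.mem_span_singleton_self _)
      · exact Ideal.mem_sup_right (Ideal.mem_span_singleton_self _)
    exact hsub this
  have hpoint : ∀ t (g : Poly3 K), g.IsHomogeneous t → eval p g = 0 →
      g ∈ Ideal.span {m} ⊔ Ideal.span {l} := by
    intro t g hg h0
    cases t with
    | zero =>
      have hc := totalDegree_eq_zero_iff_eq_C.1 ((totalDegree_zero_iff_isHomogeneous _).2 hg)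
      rw [hc, eval_C] at h0
      rw [hc, h0, C_0]
      exact zero_mem _
    | succ t =>
      obtain ⟨v, -, hv1, hv2⟩ := exists_dotX_eq hp hg h0
      refine (Ideal.unit_mul_mem_iff_mem _ ((isUnit_iff_ne_zero.2 hj).map C)).1 ?_
      have key : C (p j) * g = ∑ i, v i * (C (p j) * X i - C (p i) * X j) := by
        rw [show C (p j) * g = C (p j) * dotX v - X j * dotP p v by rw [hv1, hv2]; ring]
        simp only [dotX, dotP, Finset.mul_sum, ← Finset.sum_sub_distrib]
        exact Finset.sum_congr rfl fun i _ => by ring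
      rw [key]
      refine sum_mem fun i _ => Ideal.mul_mem_left _ _ ?_
      have hz : i = j ∨ i = j + 1 ∨ i = j + 2 := by fin_cases j <;> fin_cases i <;> decide
      rcases hz with h | h | h
      · subst h; simp
      · subst h
        have e : cf p (j + 2) = C (p j) * X (j + 1) - C (p (j + 1)) * X j := by
          fin_cases j <;> rfl
        rw [← e]; exact hgen _
      · subst h
        have e : cf p (j + 1) = C (p (j + 2)) * X j - C (p j) * X (j + 2) := by
          fin_cases j <;> rfl
        rw [show C (p j) * X (j + 2) - C (p (j + 2)) * X j = -cf p (j + 1) by rw [e]; ring]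
        exact neg_mem (hgen _)
  have hJl : HomogI (Ideal.span {l}) := by simpa using homogI_sup_span homogI_bot hl
  set J0 := Ideal.span {l} ⊔ Ideal.span {C3.fa} with hJ0
  have hJ0h : HomogI J0 := homogI_sup_span C3.homogI_fa hl
  have hnm : Nzd J0 m := by
    refine nzd_of_homogeneous hJ0h hm fun t v hv hmv => ?_
    rw [hJ0, sup_comm] at hmv ⊢
    rcases exists_homog_of_mem_sup hJl C3.homA (hm.mul hv) hmv with ⟨-, h⟩ | ⟨-, s, hs, hsmem⟩
    · refine Ideal.mem_sup_right (Ideal.mem_span_singleton.2 ?_)
      exact (hpr.dvd_or_dvd (Ideal.mem_span_singleton.1 h)).resolve_left hml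
    · obtain ⟨r, hr⟩ := Ideal.mem_span_singleton.1 hsmem
      have hs0 : eval p s = 0 := by
        have := congrArg (eval p) hr
        simp [hmp, hpl] at this
        exact this.resolve_left hpa
      obtain ⟨s2, u, hu, hs2⟩ := Ideal.mem_span_singleton_sup.1 (hpoint _ s hs hs0)
      obtain ⟨s1, rfl⟩ := Ideal.mem_span_singleton.1 hu
      have hd : l ∣ m * (v - C3.fa * s2) := ⟨r + C3.fa * s1, by linear_combination hr - C3.fa * hs2⟩
      refine Ideal.mem_span_singleton_sup.2 ⟨s2, v - C3.fa * s2,
        Ideal.mem_span_singleton.2 ((hpr.dvd_or_dvd hd).resolve_left hml), by ring⟩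
  have hbase : SocIn (Ideal.span {m} ⊔ J0) (C3.a - 1) := by
    intro γ hγ u hu hX
    have hpt : Ideal.span {m} ⊔ Ideal.span {l} ≤ Ideal.span {m} ⊔ J0 :=
      sup_le_sup_left le_sup_left _
    rcases lt_or_ge γ C3.a with hlt | hge
    · refine hpt (hpoint _ u hu ?_)
      have hh : X j * u ∈ degPart (γ + 1) (Ideal.span {C3.fa} ⊔ (Ideal.span {m} ⊔ Ideal.span {l})) :=
        mem_degPart.2 ⟨by rw [add_comm]; exact (isHomogeneous_X K j).mul hu, by
          rw [sup_left_comm, sup_comm (Ideal.span {C3.fa})]; exact hX j⟩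
      have hhom : HomogI (Ideal.span {m} ⊔ Ideal.span {l}) := homogI_sup_span hJl hm
      rw [degPart_sup_of_lt hhom C3.homA (by omega)] at hh
      obtain ⟨r, z, hz, hr⟩ := Ideal.mem_span_singleton_sup.1 (mem_degPart.1 hh).2
      obtain ⟨z', rfl⟩ := Ideal.mem_span_singleton.1 hz
      have := congrArg (eval p) hr
      simp [hmp, hpl] at this
      exact this.resolve_left hj
    · set r : Poly3 K := C (eval p u / (eval p C3.fa * p j ^ (γ - C3.a))) * X j ^ (γ - C3.a)
      have hmem : u - r * C3.fa ∈ Ideal.span {m} ⊔ Ideal.span {l} := by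
        refine hpoint γ _ (hu.sub ?_) ?_
        · have := ((isHomogeneous_X_pow (R := K) j (γ - C3.a)).C_mul
            (eval p u / (eval p C3.fa * p j ^ (γ - C3.a)))).mul C3.homA
          rwa [show γ - C3.a + C3.a = γ by omega] at this
        · have hp' : p j ^ (γ - C3.a) ≠ 0 := pow_ne_zero _ hj
          simp only [r, map_sub, map_mul, map_pow, eval_C, eval_X]
          field_simp
          ring
      have h2 : r * C3.fa ∈ Ideal.span {m} ⊔ J0 :=
        Ideal.mem_sup_right (Ideal.mem_sup_right
          (Ideal.mul_mem_left _ _ (Ideal.mem_span_singleton_self _)))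
      have := add_mem (hpt hmem) h2
      rwa [sub_add_cancel] at this
  have step2 : SocIn (Ideal.span {C3.fb} ⊔ J0) (C3.a + C3.b - 2) :=
    socIn_transfer hJ0h C3.homB hm one_pos hnb hnm (by omega) hbase
  rw [hJ0, sup_left_comm] at step2
  exact socIn_transfer C3.homogI_idB C3.homC hl one_pos C3.nzdC hln
    (by unfold socDeg; omega) step2

/-- Multiplication into the socle degree is nondegenerate. -/
lemma pairing [Infinite K] : ∀ (k γ : ℕ), γ + k = C3.socDeg → ∀ u : Poly3 K, u.IsHomogeneous γ →
    (∀ v : Poly3 K, v.IsHomogeneous k → v * u ∈ C3.idJ) → u ∈ C3.idJ := by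
  intro k
  induction k with
  | zero => intro γ _ u _ h; simpa using h 1 (isHomogeneous_one _ _)
  | succ k ih =>
    intro γ hγ u hu h
    refine C3.socIn_idJ γ (by omega) u hu fun i => ?_
    refine ih (γ + 1) (by omega) _ (by rw [add_comm]; exact (isHomogeneous_X K i).mul hu) fun v hv => ?_
    rw [← mul_assoc]
    exact h _ (hv.mul (isHomogeneous_X K i))

end CI3

end Vale.Agent.P200
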