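import Vale.Agent.P200.Setup

/-!
Spaces whose Koszul homology vanishes: the generated ideal dies quickly.
-/

namespace Vale.Agent.P200

open MvPolynomial Module

variable {K : Type*} [Field K]

/-- The linear form `X i - (p i / p j) X j`. -/
noncomputable def ptForm (p : Fin 3 → K) (j i : Fin 3) : Poly3 K := X i - C (p i / p j) * X j

/-- Multiplication by two forms through a point. -/
noncomputable def pairMap (p : Fin 3 → K) (j : Fin 3) : Poly3 K × Poly3 K →ₗ[K] Poly3 K :=
  (LinearMap.mulLeft K (ptForm p j (j + 1))).coprod (LinearMap.mulLeft K (ptForm p j (j + 2)))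

/-- The Koszul map into pairs. -/
noncomputable def koszulMap (p : Fin 3 → K) (j : Fin 3) : Poly3 K →ₗ[K] Poly3 K × Poly3 K :=
  (LinearMap.mulLeft K (cf p (j + 1))).prod (LinearMap.mulLeft K (cf p (j + 2)))

/-- The triple orthogonal to `p` attached to a pair. -/
noncomputable def pairTriple (p : Fin 3 → K) (j : Fin 3) (u : Poly3 K × Poly3 K) :
    Fin 3 → Poly3 K :=
  fun i => if i = j + 1 then u.1 else if i = j + 2 then u.2
    else -(C (p (j + 1) / p j) * u.1 + C (p (j + 2) / p j) * u.2)

lemma fin_three_cases (j i : Fin 3) : i = j ∨ i = j + 1 ∨ i = j + 2 := by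
  fin_cases j <;> fin_cases i <;> decide

lemma sum_fin_three_rot {M : Type*} [AddCommMonoid M] (j : Fin 3) (f : Fin 3 → M) :
    ∑ i, f i = f j + f (j + 1) + f (j + 2) := by
  rw [Fin.sum_univ_three]
  fin_cases j <;> simp <;> abel

lemma pairTriple_one (p : Fin 3 → K) (j : Fin 3) (u : Poly3 K × Poly3 K) :
    pairTriple p j u (j + 1) = u.1 := by simp [pairTriple]

lemma pairTriple_two (p : Fin 3 → K) (j : Fin 3) (u : Poly3 K × Poly3 K) :
    pairTriple p j u (j + 2) = u.2 := by simp [pairTriple]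

lemma pairTriple_zero (p : Fin 3 → K) (j : Fin 3) (u : Poly3 K × Poly3 K) :
    pairTriple p j u j = -(C (p (j + 1) / p j) * u.1 + C (p (j + 2) / p j) * u.2) := by
  have h1 : j ≠ j + 1 := by fin_cases j <;> decide
  have h2 : j ≠ j + 2 := by fin_cases j <;> decide
  simp [pairTriple, h1, h2]

lemma dotP_pairTriple {p : Fin 3 → K} {j : Fin 3} (hj : p j ≠ 0) (u : Poly3 K × Poly3 K) :
    dotP p (pairTriple p j u) = 0 := by
  have h : ∀ q : K, (C (p j) : Poly3 K) * C (q / p j) = C q := fun q => by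
    rw [← C_mul, mul_div_cancel₀ _ hj]
  rw [dotP, sum_fin_three_rot j, pairTriple_one, pairTriple_two, pairTriple_zero]
  linear_combination (-u.1) * h (p (j + 1)) + (-u.2) * h (p (j + 2))

lemma dotX_pairTriple (p : Fin 3 → K) (j : Fin 3) (u : Poly3 K × Poly3 K) :
    dotX (pairTriple p j u) = pairMap p j u := by
  rw [dotX, sum_fin_three_rot j, pairTriple_one, pairTriple_two, pairTriple_zero]
  simp only [pairMap, ptForm, LinearMap.coprod_apply, LinearMap.mulLeft_apply]
  ring

lemma pairTriple_mem {p : Fin 3 → K} {j : Fin 3} {Z : Submodule K (Poly3 K)}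
    {u : Poly3 K × Poly3 K} (h1 : u.1 ∈ Z) (h2 : u.2 ∈ Z) (i : Fin 3) :
    pairTriple p j u i ∈ Z := by
  rcases fin_three_cases j i with h | h | h <;> subst h
  · rw [pairTriple_zero, ← smul_eq_C_mul, ← smul_eq_C_mul]
    exact Z.neg_mem (Z.add_mem (Z.smul_mem _ h1) (Z.smul_mem _ h2))
  · rwa [pairTriple_one]
  · rwa [pairTriple_two]

lemma cf_mul_eq_pairMap {p : Fin 3 → K} {j : Fin 3} (hj : p j ≠ 0) (i : Fin 3) (z : Poly3 K) :
    ∃ a b : K, cf p i * z = pairMap p j (a • z, b • z) := by
  have h1 : cf p (j + 1) = -(C (p j) * X (j + 2) - C (p (j + 2)) * X j) := by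
    fin_cases j <;> simp [cf]
  have h2 : cf p (j + 2) = C (p j) * X (j + 1) - C (p (j + 1)) * X j := by
    fin_cases j <;> simp [cf]
  have h : ∀ q : K, (C (p j) : Poly3 K) * C (q / p j) = C q := fun q => by
    rw [← C_mul, mul_div_cancel₀ _ hj]
  rcases fin_three_cases j i with hi | hi | hi <;> subst hi
  · refine ⟨-p (i + 2), p (i + 1), ?_⟩
    simp only [pairMap, ptForm, LinearMap.coprod_apply, LinearMap.mulLeft_apply, smul_eq_C_mul,
      cf, map_neg]
    have e1 : (C (p (i + 2)) : Poly3 K) * C (p (i + 1) / p i) =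
        C (p (i + 1)) * C (p (i + 2) / p i) := by
      rw [← C_mul, ← C_mul]; congr 1; ring
    linear_combination (-(X i * z)) * e1
  · refine ⟨0, -p j, ?_⟩
    rw [h1]
    simp only [pairMap, ptForm, LinearMap.coprod_apply, LinearMap.mulLeft_apply, smul_eq_C_mul,
      map_neg, map_zero]
    linear_combination (-(X j * z)) * h (p (j + 2))
  · refine ⟨p j, 0, ?_⟩
    rw [h2]
    simp only [pairMap, ptForm, LinearMap.coprod_apply, LinearMap.mulLeft_apply, smul_eq_C_mul,
      map_zero]
    linear_combination (X j * z) * h (p (j + 1))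

lemma koszulMap_injective {p : Fin 3 → K} {j : Fin 3} (hj : p j ≠ 0) :
    Function.Injective (koszulMap p j) := by
  intro a b hab
  have h2 : cf p (j + 2) = C (p j) * X (j + 1) - C (p (j + 1)) * X j := by
    fin_cases j <;> simp [cf]
  have hne : cf p (j + 2) ≠ 0 := fun h0 => by
    have := congrArg (eval (Pi.single (j + 1) (1 : K))) h0
    have h' : j ≠ j + 1 := by fin_cases j <;> decide
    simp [h2, h'] at this
    exact hj this
  exact mul_left_cancel₀ hne (congrArg Prod.snd hab)

lemma finrank_prod_pair (Z : Submodule K (Poly3 K)) [FiniteDimensional K Z] :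
    finrank K ↥(Z.prod Z) = finrank K Z + finrank K Z := by
  rw [← Module.finrank_prod (R := K) (M := Z) (M' := Z)]
  exact LinearEquiv.finrank_eq
    { toFun := fun u => (⟨u.1.1, u.2.1⟩, ⟨u.1.2, u.2.2⟩)
      invFun := fun u => ⟨(u.1.1, u.2.1), u.1.2, u.2.2⟩
      map_add' := fun _ _ => rfl
      map_smul' := fun _ _ => rfl
      left_inv := fun _ => rfl
      right_inv := fun _ => rfl }

lemma finite_prod_pair (Z : Submodule K (Poly3 K)) [FiniteDimensional K Z] :
    FiniteDimensional K ↥(Z.prod Z) :=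
  Module.Finite.of_surjective
    (({ toFun := fun u => ⟨(u.1.1, u.2.1), u.1.2, u.2.2⟩
        map_add' := fun _ _ => rfl
        map_smul' := fun _ _ => rfl } : Z × Z →ₗ[K] ↥(Z.prod Z)))
    (fun u => ⟨(⟨u.1.1, u.2.1⟩, ⟨u.1.2, u.2.2⟩), rfl⟩)

namespace CI3

variable {C3 : CI3 K} {d : ℕ} {W : Submodule K (Poly3 K)}

/-- The successive spaces generated by `W`. -/
noncomputable def iter (C3 : CI3 K) (d : ℕ) (W : Submodule K (Poly3 K)) :
    ℕ → Submodule K (Poly3 K)
  | 0 => W
  | k + 1 => C3.up (d + k) (iter C3 d W k)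

lemma iter_sub (h : C3.Sub d W) : ∀ k, C3.Sub (d + k) (iter C3 d W k)
  | 0 => h
  | k + 1 => sub_up (iter_sub h k)

lemma iter_sGood {p : Fin 3 → K} (h : C3.Sub d W) (hs : C3.SGood p d W) :
    ∀ k, C3.SGood p (d + k) (iter C3 d W k) := by
  intro k
  induction k with
  | zero => exact hs
  | succ k ih =>
    refine sup_le (iSup_le fun i => ?_) le_sup_right
    rintro _ ⟨u, hu, rfl⟩
    obtain ⟨ws, hws, hJ⟩ := mem_sup_iSup_map (ih hu)
    rw [LinearMap.mulLeft_apply, show X i * u = X i * (u - ∑ l, cf p l * ws l) +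
      ∑ l, cf p l * (X i * ws l) by
        rw [mul_sub, Finset.mul_sum]; simp only [mul_left_comm (X i)]; ring]
    refine add_mem (Submodule.mem_sup_right (mem_degPart.2
      ⟨mul_homS (isHomogeneous_X K i) hJ.1, Ideal.mul_mem_left _ _ hJ.2⟩))
      (sum_mem fun l _ => cf_mul_mem_pUp p (X_mul_mem_up (hws l) i) l)

lemma iter_pow_mul {u : Poly3 K} (hu : u ∈ W) (j : Fin 3) :
    ∀ k, X j ^ k * u ∈ iter C3 d W k := by
  intro k
  induction k with
  | zero => simpa [iter] using hu
  | succ k ih =>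
    rw [pow_succ', mul_assoc]
    exact X_mul_mem_up ih j

/-- The Koszul homology at the pencil through `p` vanishes. -/
def ExactAt (C3 : CI3 K) (p : Fin 3 → K) (d : ℕ) (W : Submodule K (Poly3 K)) : Prop :=
  ∀ w : Fin 3 → Poly3 K, (∀ i, (w i).IsHomogeneous d) → dotP p w ∈ W →
    dotX w ∈ C3.up d W →
    ∃ γ : Poly3 K, γ.IsHomogeneous (d - 1) ∧ ∀ i, w i - cf p i * γ ∈ W

/-- Relations in higher degrees come from relations in degree `d`. -/
lemma cycle_reduce {p : Fin 3 → K} (hp : p ≠ 0) (h : C3.Sub d W) (hd : C3.c ≤ d + 1)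
    (hex : C3.ExactAt p d W) (k : ℕ) {w : Fin 3 → Poly3 K}
    (hw : ∀ i, (w i).IsHomogeneous (d + k)) (h1 : dotP p w = 0) (h2 : dotX w ∈ C3.idJ) :
    ∃ γ : Poly3 K, γ.IsHomogeneous (d + k - 1) ∧ ∀ i, w i - cf p i * γ ∈ iter C3 d W k := by
  have htwo := C3.two_le; have hab := C3.hab; have hbc := C3.hbc
  obtain ⟨j, hj⟩ := Function.ne_iff.1 hp
  replace hj : p j ≠ 0 := hj
  obtain ⟨u, hua, hub, huc, hsum⟩ :=
    exists_repr (C3 := C3) (show C3.c ≤ d + k + 1 by omega) (dotX_homogeneous hw) h2
  let n : Poly3 K := C (p j)⁻¹ * X j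
  have hn : n.IsHomogeneous 1 := isHomogeneous_C_mul_X _ _
  have hnp : eval p n = 1 := by simp [n, hj]
  have hpw : ∀ t, (n ^ t).IsHomogeneous t := fun t => by simpa using hn.pow t
  let f : Fin 3 → Poly3 K := ![C3.fa, C3.fb, C3.fc]
  let dg : Fin 3 → ℕ := ![C3.a, C3.b, C3.c]
  have hf : ∀ l, (f l).IsHomogeneous (dg l) := by
    intro l; fin_cases l <;> simp [f, dg, C3.homA, C3.homB, C3.homC]
  have hdg : ∀ l, dg l ≤ d + 1 := by
    intro l; fin_cases l <;> simp [dg] <;> omega
  have hu : ∀ l, (u l).IsHomogeneous (d + k + 1 - dg l) := by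
    intro l; fin_cases l <;> simp [dg, hua, hub, huc]
  have hsum' : dotX w = ∑ l, u l * f l := by
    rw [hsum, Fin.sum_univ_three]; simp [f]
  let g0 : Poly3 K := ∑ l, C (eval p (u l)) * n ^ (d + 1 - dg l) * f l
  have hg0 : g0.IsHomogeneous (d + 1) := IsHomogeneous.sum _ _ _ fun l _ => by
    have := ((hpw (d + 1 - dg l)).C_mul (eval p (u l))).mul (hf l)
    rwa [Nat.sub_add_cancel (hdg l)] at this
  have hg0p : eval p g0 = 0 := by
    have he := congrArg (eval p) hsum'
    rw [eval_dotX, h1, map_zero] at he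
    rw [he]
    simp [g0, hnp]
  obtain ⟨w0, hw0, hw0P, hw0X⟩ := exists_dotX_eq hp hg0 hg0p
  have hfJ : ∀ l, f l ∈ C3.idJ := by
    intro l; fin_cases l <;> simp [f, C3.fa_mem, C3.fb_mem, C3.fc_mem]
  obtain ⟨γ0, hγ0, hγ0'⟩ := hex w0 hw0 (by rw [hw0P]; exact zero_mem _)
    (Submodule.mem_sup_right (mem_degPart.2 ⟨dotX_homogeneous hw0, by
      rw [hw0X]; exact sum_mem fun l _ => Ideal.mul_mem_left _ _ (hfJ l)⟩))
  let w' : Fin 3 → Poly3 K := fun i => w i - n ^ k * w0 i
  have hw' : ∀ i, (w' i).IsHomogeneous (d + k) := fun i => by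
    refine (hw i).sub ?_
    rw [add_comm d k]
    exact (hpw k).mul (hw0 i)
  have hP' : dotP p w' = 0 := by
    simp only [dotP, Fin.sum_univ_three] at h1 hw0P
    simp only [w', dotP, Fin.sum_univ_three]
    linear_combination h1 - n ^ k * hw0P
  let u' : Fin 3 → Poly3 K := fun l => u l - C (eval p (u l)) * n ^ (d + k + 1 - dg l)
  have hX' : dotX w' = ∑ l, u' l * f l := by
    have hlin : dotX w' = dotX w - n ^ k * dotX w0 := by
      simp only [dotX, w', Fin.sum_univ_three]; ring
    rw [hlin, hsum', hw0X, Finset.mul_sum, ← Finset.sum_sub_distrib]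
    refine Finset.sum_congr rfl fun l _ => ?_
    simp only [u', show d + k + 1 - dg l = k + (d + 1 - dg l) by have := hdg l; omega, pow_add]
    ring
  obtain ⟨γ1, hγ1, -, hγ1'⟩ := cycle_koszul hp f dg hf (fun l => by have := hdg l; omega) hw' hP'
    u' (fun l => (hu l).sub ((hpw _).C_mul _)) (fun l => by simp [u', hnp]) hX'
  have hrange : Ideal.span (Set.range f) ≤ C3.idJ :=
    Ideal.span_le.2 (by rintro _ ⟨l, rfl⟩; exact hfJ l)
  refine ⟨γ1 + n ^ k * γ0, hγ1.add ?_, fun i => ?_⟩
  · have := (hpw k).mul hγ0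
    rwa [show k + (d - 1) = d + k - 1 by omega] at this
  rw [show w i - cf p i * (γ1 + n ^ k * γ0) =
    (w' i - cf p i * γ1) + n ^ k * (w0 i - cf p i * γ0) by simp only [w']; ring]
  refine add_mem ((iter_sub h k).1 (mem_degPart.2 ⟨(hw' i).sub ?_, hrange (hγ1' i)⟩)) ?_
  · have := (cf_homogeneous p i).mul hγ1
    rwa [show 1 + (d + k - 1) = d + k by omega] at this
  · rw [show n ^ k = C ((p j)⁻¹ ^ k) * X j ^ k by simp only [n, mul_pow, map_pow], mul_assoc, ← smul_eq_C_mul]
    exact Submodule.smul_mem _ _ (iter_pow_mul (hγ0' i) j k)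

/-- The codimension drops are nonincreasing. -/
lemma iter_concave {p : Fin 3 → K} (hp : p ≠ 0) (_hfa : eval p C3.fa ≠ 0) (h : C3.Sub d W)
    (hd : C3.c ≤ d + 1) (hs : C3.SGood p d W) (hex : C3.ExactAt p d W) (k : ℕ) :
    cod (d + k + 1) (iter C3 d W (k + 1)) - cod (d + k + 2) (iter C3 d W (k + 2)) ≤
      cod (d + k) (iter C3 d W k) - cod (d + k + 1) (iter C3 d W (k + 1)) := by
  obtain ⟨j, hj⟩ := Function.ne_iff.1 hp
  replace hj : p j ≠ 0 := hj
  set Z' := iter C3 d W k with hZ'
  set Z := iter C3 d W (k + 1) with hZ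
  have hsZ' : C3.Sub (d + k) Z' := iter_sub h k
  have hsZ : C3.Sub (d + k + 1) Z := iter_sub h (k + 1)
  have := hsZ'.finite
  have := hsZ.finite
  set S1 := homS K (d + k + 1)
  have := finite_prod_pair Z
  have := finite_prod_pair S1
  set J' := degPart (d + k + 2) C3.idJ with hJ'
  set Φ := pairMap p j
  have e1 := finrank_inf_comap Φ (Z.prod Z) J'
  have e1' := Submodule.finrank_sup_add_finrank_inf_eq ((Z.prod Z).map Φ) J'
  have hgenZ : iter C3 d W (k + 2) ≤ (Z.prod Z).map Φ ⊔ J' := by
    refine le_trans (iter_sGood h hs (k + 1)) (sup_le (iSup_le fun i => ?_) le_sup_right)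
    rintro _ ⟨z, hz, rfl⟩
    obtain ⟨a, b, hab⟩ := cf_mul_eq_pairMap hj i z
    rw [LinearMap.mulLeft_apply, hab]
    exact Submodule.mem_sup_left ⟨_, ⟨Z.smul_mem _ hz, Z.smul_mem _ hz⟩, rfl⟩
  have : FiniteDimensional K ↥((Z.prod Z).map Φ ⊔ J') := inferInstance
  have e2 := Submodule.finrank_mono hgenZ
  have e3 := finrank_inf_comap Φ (S1.prod S1) J'
  have e3' := Submodule.finrank_sup_add_finrank_inf_eq ((S1.prod S1).map Φ) J'
  have hle : (S1.prod S1).map Φ ⊔ J' ≤ homS K (d + k + 2) := by
    refine sup_le ?_ inf_le_left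
    rintro _ ⟨⟨u, v⟩, ⟨hu, hv⟩, rfl⟩
    refine Submodule.add_mem _ (mul_homS ?_ hu) (mul_homS ?_ hv) <;>
      exact (isHomogeneous_X K _).sub (isHomogeneous_C_mul_X _ _)
  have e4 := Submodule.finrank_mono hle
  set Kz := Z.prod Z ⊓ J'.comap Φ
  set Kf := S1.prod S1 ⊓ J'.comap Φ
  set I1 := (homS K (d + k)).map (koszulMap p j)
  have hKf : Kf ≤ Kz ⊔ I1 := by
    rintro ⟨u, v⟩ ⟨⟨hu, hv⟩, huv⟩
    obtain ⟨γ, hγ, hγ'⟩ := cycle_reduce hp h hd hex (k + 1)
      (w := pairTriple p j (u, v)) (fun i => pairTriple_mem (Z := S1) hu hv i)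
      (dotP_pairTriple hj _) (by rw [dotX_pairTriple]; exact huv.2)
    have h1 := hγ' (j + 1)
    have h2 := hγ' (j + 2)
    rw [pairTriple_one] at h1
    rw [pairTriple_two] at h2
    have hΦ : ∀ x, Φ (koszulMap p j x) = 0 := by
      intro x
      have e := dotX_pairTriple p j (koszulMap p j x)
      have e' : pairTriple p j (koszulMap p j x) = fun i => cf p i * x := by
        funext i
        rcases fin_three_cases j i with hi | hi | hi <;> subst hi
        · rw [pairTriple_zero]
          have hd0 := dotP_cf p x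
          rw [dotP, sum_fin_three_rot i] at hd0
          refine mul_left_cancel₀ (show (C (p i) : Poly3 K) ≠ 0 by simpa using hj) ?_
          have h' : ∀ q : K, (C (p i) : Poly3 K) * C (q / p i) = C q := fun q => by
            rw [← C_mul, mul_div_cancel₀ _ hj]
          simp only [koszulMap, LinearMap.prod_apply, Function.prod, LinearMap.mulLeft_apply]
          linear_combination (-(cf p (i + 1) * x)) * h' (p (i + 1)) +
            (-(cf p (i + 2) * x)) * h' (p (i + 2)) - hd0
        · rw [pairTriple_one]; rfl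
        · rw [pairTriple_two]; rfl
      rw [e', dotX_cf] at e
      exact e.symm
    rw [← sub_add_cancel (u, v) (koszulMap p j γ)]
    refine Submodule.add_mem_sup ⟨⟨h1, h2⟩, ?_⟩ ⟨γ, by simpa using hγ, rfl⟩
    simp only [SetLike.mem_coe, Submodule.mem_comap, map_sub, hΦ, sub_zero]
    exact huv
  have hI : Z'.map (koszulMap p j) ≤ Kz ⊓ I1 := by
    refine le_inf (le_inf ?_ ?_) (Submodule.map_mono hsZ'.2)
    · rintro _ ⟨x, hx, rfl⟩
      exact ⟨linear_mul_mem_up (cf_homogeneous p _) hx, linear_mul_mem_up (cf_homogeneous p _) hx⟩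
    · rintro _ ⟨x, -, rfl⟩
      have hz : Φ (koszulMap p j x) = 0 := by
        simp only [Φ, pairMap, koszulMap, ptForm, cf, LinearMap.coprod_apply, LinearMap.prod_apply,
          Function.prod, LinearMap.mulLeft_apply]
        have h' : ∀ q : K, (C (p j) : Poly3 K) * C (q / p j) = C q := fun q => by
          rw [← C_mul, mul_div_cancel₀ _ hj]
        have a1 : (j + 1 + 1 : Fin 3) = j + 2 := by fin_cases j <;> rfl
        have a2 : (j + 1 + 2 : Fin 3) = j := by fin_cases j <;> rfl
        have a3 : (j + 2 + 1 : Fin 3) = j := by fin_cases j <;> rfl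
        have a4 : (j + 2 + 2 : Fin 3) = j + 1 := by fin_cases j <;> rfl
        rw [a1, a2, a3, a4]
        refine mul_left_cancel₀ (show (C (p j) : Poly3 K) ≠ 0 by simpa using hj) ?_
        rw [mul_zero]
        linear_combination (-(X j * x * (C (p (j + 2)) * X j - C (p j) * X (j + 2)))) * h' (p (j + 1))
          + (-(X j * x * (C (p j) * X (j + 1) - C (p (j + 1)) * X j))) * h' (p (j + 2))
      rw [Submodule.mem_comap, hz]
      exact zero_mem _
  have : FiniteDimensional K Kz := Submodule.finiteDimensional_of_le inf_le_left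
  have : FiniteDimensional K I1 := Module.Finite.map _ _
  have : FiniteDimensional K ↥(Kz ⊔ I1) := inferInstance
  have : FiniteDimensional K ↥(Kz ⊓ I1) := Submodule.finiteDimensional_of_le inf_le_left
  have e5 := Submodule.finrank_mono hKf
  have e5' := Submodule.finrank_sup_add_finrank_inf_eq Kz I1
  have e6 := Submodule.finrank_mono hI
  have e7 : finrank K I1 = finrank K (homS K (d + k)) :=
    ((Submodule.equivMapOfInjective _ (koszulMap_injective hj) _).finrank_eq).symm
  have e8 : finrank K (Z'.map (koszulMap p j)) = finrank K Z' :=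
    ((Submodule.equivMapOfInjective _ (koszulMap_injective hj) _).finrank_eq).symm
  have e9 := finrank_prod_pair Z
  have e10 := finrank_prod_pair S1
  unfold cod
  zify at e1 e1' e2 e3 e3' e4 e5 e5' e6 e7 e8 e9 e10
  linarith

/-- The part of `S` in degree `γ` pairing to zero with `Y`. -/
noncomputable def orth (C3 : CI3 K) (γ : ℕ) (Y : Submodule K (Poly3 K)) :
    Submodule K (Poly3 K) :=
  homS K γ ⊓ ⨅ v : Y, (C3.idJ.restrictScalars K).comap (LinearMap.mulLeft K (v : Poly3 K))

lemma mem_orth {γ : ℕ} {Y : Submodule K (Poly3 K)} {u : Poly3 K} :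
    u ∈ C3.orth γ Y ↔ u.IsHomogeneous γ ∧ ∀ v ∈ Y, v * u ∈ C3.idJ := by
  simp [orth, Submodule.mem_iInf]

lemma finrank_orth [Infinite K] {γ t : ℕ} (hγ : γ < C3.a) (ht : γ + t = C3.socDeg)
    {Y : Submodule K (Poly3 K)} (hY : C3.Sub t Y) :
    (finrank K (C3.orth γ Y) : ℤ) = cod t Y := by
  classical
  have := hY.finite
  set Je := degPart C3.socDeg C3.idJ
  obtain ⟨cJ⟩ := exists_coords (homS K C3.socDeg) Je inf_le_left
  have hone : finrank K (homS K C3.socDeg) - finrank K Je = 1 := by
    have h1 := C3.dimA_eq C3.socDeg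
    have h2 : C3.dimA C3.socDeg = 1 := by
      have := C3.two_le; have := C3.hab; have := C3.hbc
      unfold dimA boxCount
      rw [Finset.sum_eq_single (C3.a - 1)]
      · unfold socDeg sz; omega
      · intro i hi hne
        rw [Finset.mem_range] at hi
        unfold socDeg sz; omega
      · intro hni; rw [Finset.mem_range] at hni; omega
    have h3 : finrank K Je ≤ finrank K (homS K C3.socDeg) := Submodule.finrank_mono inf_le_left
    zify [h3]
    linarith
  let lam : Poly3 K →ₗ[K] K := (LinearMap.proj ⟨0, hone.ge⟩) ∘ₗ cJ.proj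
  have hlam : ∀ u : Poly3 K, u.IsHomogeneous C3.socDeg → (lam u = 0 ↔ u ∈ C3.idJ) := by
    intro u hu
    constructor
    · intro h0
      have : cJ.proj u = 0 := funext fun i => by
        rw [show i = ⟨0, hone.ge⟩ from Fin.ext (Nat.lt_one_iff.1 (i.isLt.trans_le hone.le))]; exact h0
      exact (mem_degPart.1 ((cJ.proj_eq_zero_iff hu).1 this)).2
    · intro hJ
      have := cJ.proj_zero u (mem_degPart.2 ⟨hu, hJ⟩)
      simp [lam, this]
  let Φ : Poly3 K →ₗ[K] Module.Dual K (homS K γ) :=
    ((LinearMap.mul K (Poly3 K)).compl₂ (homS K γ).subtype).compr₂ lam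
  have hΦ : ∀ v (u : homS K γ), Φ v u = lam (v * u) := fun v u => rfl
  have hker : ∀ v, v.IsHomogeneous t → (Φ v = 0 ↔ v ∈ C3.idJ) := by
    intro v hv
    constructor
    · intro h0
      refine C3.pairing γ t (by omega) v hv fun u hu => ?_
      rw [mul_comm]
      refine (hlam _ ?_).1 ((hΦ v ⟨u, hu⟩).symm.trans (LinearMap.congr_fun h0 _))
      have := hv.mul hu
      rwa [show t + γ = C3.socDeg by omega] at this
    · intro hJ
      refine LinearMap.ext fun u => ?_
      rw [hΦ, LinearMap.zero_apply]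
      refine (hlam _ ?_).2 (Ideal.mul_mem_right _ _ hJ)
      have := hv.mul u.2
      rwa [show t + γ = C3.socDeg by omega] at this
  -- both sides have the same dimension
  have himg : ∀ V : Submodule K (Poly3 K), degPart t C3.idJ ≤ V → V ≤ homS K t →
      (finrank K (V.map Φ) : ℤ) = finrank K V - finrank K (degPart t C3.idJ) := by
    intro V hV1 hV2
    have : FiniteDimensional K V := Submodule.finiteDimensional_of_le hV2
    have e := finrank_map_add_ker Φ V
    have : V ⊓ LinearMap.ker Φ = degPart t C3.idJ := by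
      ext v
      constructor
      · rintro ⟨hv, h0⟩
        exact mem_degPart.2 ⟨hV2 hv, (hker v (hV2 hv)).1 h0⟩
      · intro hv
        exact ⟨hV1 hv, (hker v hv.1).2 hv.2⟩
    rw [this] at e
    zify at e
    linarith
  have hfull : (homS K t).map Φ = ⊤ := by
    rw [← Submodule.dualAnnihilator_bot]
    have hco : ((homS K t).map Φ).dualCoannihilator = ⊥ := by
      rw [Submodule.eq_bot_iff]
      intro u hu
      rw [Submodule.mem_dualCoannihilator] at hu
      have huJ : (u : Poly3 K) ∈ C3.idJ := by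
        refine C3.pairing t γ ht _ u.2 fun v hv => ?_
        refine (hlam _ ?_).1 ((hΦ v u).symm.trans (hu _ ⟨v, hv, rfl⟩))
        have := hv.mul u.2
        rwa [show t + γ = C3.socDeg by omega] at this
      have : (u : Poly3 K) ∈ degPart γ C3.idJ := mem_degPart.2 ⟨u.2, huJ⟩
      rw [C3.degPart_idJ_of_lt hγ, Submodule.mem_bot] at this
      exact Subtype.ext this
    have e := Subspace.finrank_add_finrank_dualCoannihilator_eq ((homS K t).map Φ)
    rw [hco, finrank_bot, add_zero] at e
    rw [Submodule.dualAnnihilator_bot]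
    exact Submodule.eq_top_of_finrank_eq (by rw [e, Subspace.dual_finrank_eq])
  have horth : C3.orth γ Y = ((Y.map Φ).dualCoannihilator).map (homS K γ).subtype := by
    ext u
    rw [mem_orth]
    constructor
    · rintro ⟨hu, huY⟩
      refine ⟨⟨u, hu⟩, ?_, rfl⟩
      rw [SetLike.mem_coe, Submodule.mem_dualCoannihilator]
      rintro _ ⟨v, hv, rfl⟩
      rw [hΦ]
      refine (hlam _ ?_).2 (huY v hv)
      have := (hY.2 hv).mul hu
      rwa [show t + γ = C3.socDeg by omega] at this
    · rintro ⟨u, hu, rfl⟩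
      rw [SetLike.mem_coe, Submodule.mem_dualCoannihilator] at hu
      refine ⟨u.2, fun v hv => (hlam _ ?_).1 ((hΦ v u).symm.trans (hu _ ⟨v, hv, rfl⟩))⟩
      have := (hY.2 hv).mul u.2
      rwa [show t + γ = C3.socDeg by omega] at this
  have e1 := Subspace.finrank_add_finrank_dualCoannihilator_eq (Y.map Φ)
  have e2 := himg Y hY.1 hY.2
  have e3 := himg (homS K t) inf_le_left le_rfl
  rw [hfull, finrank_top, Subspace.dual_finrank_eq] at e3
  rw [horth, ← (Submodule.equivMapOfInjective _ (homS K γ).subtype_injective _).finrank_eq]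
  unfold cod
  zify at e1
  linarith

/-- In the tail the drops strictly decrease. -/
lemma iter_tail [Infinite K] {p : Fin 3 → K} (hp : p ≠ 0) (h : C3.Sub d W)
    (hs : C3.SGood p d W) (k : ℕ) (hk : C3.b + C3.c ≤ d + k + 2)
    (hne : 0 < cod (d + k + 1) (iter C3 d W (k + 1))) :
    2 * cod (d + k + 1) (iter C3 d W (k + 1)) - cod (d + k + 2) (iter C3 d W (k + 2)) + 1 ≤
      cod (d + k) (iter C3 d W k) := by
  obtain ⟨j, hj⟩ := Function.ne_iff.1 hp
  replace hj : p j ≠ 0 := hj
  have htwo := C3.two_le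
  have hle1 : d + k + 1 ≤ C3.socDeg := by
    by_contra hcon
    push Not at hcon
    have h1 := cod_le (iter_sub h (k + 1))
    rw [C3.dimA_eq_zero (t := d + (k + 1)) (by omega)] at h1
    change cod (d + (k + 1)) (iter C3 d W (k + 1)) ≤ 0 at h1
    simp only [← add_assoc] at h1
    omega
  set γ := C3.socDeg - (d + k + 1) with hγ
  have hγa : γ + 1 < C3.a := by unfold socDeg at hle1 hγ; omega
  set O0 := C3.orth (γ + 1) (iter C3 d W k) with hO0
  set O1 := C3.orth γ (iter C3 d W (k + 1)) with hO1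
  have e0 := finrank_orth (C3 := C3) (γ := γ + 1) hγa (by omega) (iter_sub h k)
  have e1 : (finrank K O1 : ℤ) = cod (d + k + 1) (iter C3 d W (k + 1)) :=
    finrank_orth (by omega) (by omega) (iter_sub h (k + 1))
  have hO1le : O1 ≤ homS K γ := inf_le_left
  have : FiniteDimensional K O1 := Submodule.finiteDimensional_of_le hO1le
  have : FiniteDimensional K O0 := Submodule.finiteDimensional_of_le inf_le_left
  have := finite_prod_pair O1
  set Φ := pairMap p j
  have hlin : ∀ g : Poly3 K, g.IsHomogeneous 1 → ∀ u ∈ O1, g * u ∈ O0 := by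
    intro g hg u hu
    rw [hO1, mem_orth] at hu
    rw [hO0, mem_orth]
    refine ⟨by rw [add_comm]; exact hg.mul hu.1, fun v hv => ?_⟩
    rw [← mul_assoc, mul_comm v g]
    exact hu.2 _ (linear_mul_mem_up hg hv)
  have hmap : (O1.prod O1).map Φ < O0 := by
    refine lt_of_le_of_ne ?_ fun heq => ?_
    · rintro _ ⟨⟨u, v⟩, ⟨hu, hv⟩, rfl⟩
      exact O0.add_mem (hlin _ ((isHomogeneous_X K _).sub (isHomogeneous_C_mul_X _ _)) u hu)
        (hlin _ ((isHomogeneous_X K _).sub (isHomogeneous_C_mul_X _ _)) v hv)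
    refine det_trick (p := p) (Q := (⊥ : Ideal (Poly3 K))) Ideal.isPrime_bot ?_ ?_ (n := X j) (Z := O1)
      (by simpa using hj) ?_
    · intro g hg; simp [Ideal.mem_bot.1 hg]
    · by_contra hcon
      push Not at hcon
      have : O1 = ⊥ := (Submodule.eq_bot_iff _).2 fun z hz => Ideal.mem_bot.1 (hcon z hz)
      rw [this, finrank_bot] at e1
      omega
    · intro z hz
      have hmem : X j * z ∈ (O1.prod O1).map Φ := heq.symm ▸ hlin _ (isHomogeneous_X K j) z hz
      obtain ⟨uv, huv, hΦ⟩ := hmem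
      obtain ⟨ω, hω, hωZ⟩ := exists_cross hp (dotP_pairTriple hj uv)
      refine ⟨ω, hωZ O1 fun i => pairTriple_mem huv.1 huv.2 i, ?_⟩
      rw [Ideal.mem_bot, ← hΦ, show Φ uv = _ from (dotX_pairTriple p j uv).symm, ← hω,
        dotX_cross, sub_self]
  have hker : finrank K ↥(O1.prod O1 ⊓ LinearMap.ker Φ) ≤
      (cod (d + k + 2) (iter C3 d W (k + 2))).toNat := by
    rcases Nat.eq_zero_or_pos γ with h0 | hpos
    · have : O1.prod O1 ⊓ LinearMap.ker Φ = ⊥ := by
        rw [Submodule.eq_bot_iff]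
        rintro ⟨u, v⟩ ⟨⟨hu, hv⟩, hΦ⟩
        have hw := pairTriple_mem (p := p) (j := j) (Z := homS K γ) (hO1le hu) (hO1le hv)
        rcases koszul hp hw (dotP_pairTriple hj (u, v))
          ((dotX_pairTriple p j (u, v)).trans hΦ) with h' | ⟨_, ht, -, -⟩
        · have a1 := congrFun h' (j + 1)
          have a2 := congrFun h' (j + 2)
          rw [pairTriple_one] at a1
          rw [pairTriple_two] at a2
          exact Prod.ext a1 a2
        · omega
      rw [this, finrank_bot]
      exact Nat.zero_le _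
    obtain ⟨γ', hγ'⟩ : ∃ γ', γ = γ' + 1 := ⟨γ - 1, by omega⟩
    have e2 := finrank_orth (C3 := C3) (γ := γ') (t := d + (k + 2)) (by omega) (by omega)
      (iter_sub h (k + 2))
    set O2 := C3.orth γ' (iter C3 d W (k + 2)) with hO2
    have hle : O1.prod O1 ⊓ LinearMap.ker Φ ≤ O2.map (koszulMap p j) := by
      rintro ⟨u, v⟩ ⟨⟨hu, hv⟩, hΦ⟩
      have hwO := pairTriple_mem (p := p) (j := j) (Z := O1) hu hv
      rcases koszul hp (fun i => hO1le (hwO i)) (dotP_pairTriple hj (u, v))
        ((dotX_pairTriple p j (u, v)).trans hΦ) with h' | ⟨x, -, hx, hx'⟩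
      · refine ⟨0, zero_mem _, ?_⟩
        have a1 := congrFun h' (j + 1)
        have a2 := congrFun h' (j + 2)
        rw [pairTriple_one] at a1
        rw [pairTriple_two] at a2
        rw [map_zero]
        exact (Prod.ext a1 a2).symm
      · refine ⟨x, ?_, ?_⟩
        · rw [SetLike.mem_coe, hO2, mem_orth]
          refine ⟨by rwa [show γ - 1 = γ' by omega] at hx, fun y hy => ?_⟩
          obtain ⟨ws, hws, hJ⟩ := mem_sup_iSup_map (iter_sGood h hs (k + 1) hy)
          rw [show y * x = (y - ∑ i, cf p i * ws i) * x + ∑ i, ws i * (cf p i * x) by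
            rw [sub_mul, Finset.sum_mul,
              Finset.sum_congr rfl fun i _ => (show ws i * (cf p i * x) = cf p i * ws i * x by ring)]
            ring]
          refine add_mem (Ideal.mul_mem_right _ _ hJ.2) (sum_mem fun i _ => ?_)
          have := hwO i
          rw [hx', hO1, mem_orth] at this
          exact this.2 _ (hws i)
        · have a1 := congrFun hx' (j + 1)
          have a2 := congrFun hx' (j + 2)
          rw [pairTriple_one] at a1
          rw [pairTriple_two] at a2
          exact (Prod.ext a1 a2).symm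
    have : FiniteDimensional K O2 := Submodule.finiteDimensional_of_le inf_le_left
    have e3 := Submodule.finrank_mono hle
    rw [← (Submodule.equivMapOfInjective _ (koszulMap_injective hj) O2).finrank_eq] at e3
    simp only [← add_assoc] at e2
    omega
  have e3 := finrank_map_add_ker Φ (O1.prod O1)
  have e4 := Submodule.finrank_lt_finrank_of_lt hmap
  change finrank K ↥((O1.prod O1).map Φ) < finrank K O0 at e4
  have e5 := finrank_prod_pair O1
  have e6 : 0 ≤ cod (d + k + 2) (iter C3 d W (k + 2)) := cod_nonneg (iter_sub h (k + 2)).2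
  have e7 : (finrank K ↥(O1.prod O1 ⊓ LinearMap.ker Φ) : ℤ) ≤
      cod (d + k + 2) (iter C3 d W (k + 2)) := by
    have := Int.ofNat_le.2 hker
    rwa [Int.toNat_of_nonneg e6] at this
  have e4' : (finrank K ↥((O1.prod O1).map Φ) : ℤ) + 1 ≤ finrank K O0 := by exact_mod_cast e4
  zify at e3 e5
  rw [hO0] at e4'
  linarith

/-- Vanishing Koszul homology forces small codimension. -/
lemma closure [Infinite K] {p : Fin 3 → K} (hp : p ≠ 0) (hfa : eval p C3.fa ≠ 0)
    (h : C3.Sub d W) (hd : C3.c ≤ d + 1) (hs : C3.SGood p d W) (hex : C3.ExactAt p d W) :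
    cod d W ≤ tBound C3.b C3.c d (cod d W - cod (d + 1) (C3.up d W)) := by
  set R : ℕ → ℤ := fun k => cod (d + k) (iter C3 d W k) with hR
  set δ : ℕ → ℤ := fun k => R k - R (k + 1) with hδ
  have hconc : ∀ k, δ (k + 1) ≤ δ k := fun k => iter_concave hp hfa h hd hs hex k
  have hmono : ∀ k l, k ≤ l → δ l ≤ δ k := fun k l hkl =>
    antitone_nat_of_succ_le hconc hkl
  have hzero : ∀ k, C3.socDeg < d + k → R k = 0 := by
    intro k hk
    have h1 := cod_le (iter_sub h k)
    rw [C3.dimA_eq_zero hk] at h1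
    exact le_antisymm h1 (cod_nonneg (iter_sub h k).2)
  have hδnn : ∀ k, 0 ≤ δ k := by
    intro k
    have hz := hmono k (max k (C3.socDeg + 1)) (le_max_left _ _)
    have : δ (max k (C3.socDeg + 1)) = 0 := by
      simp only [hδ]
      rw [hzero _ (by omega), hzero _ (by omega)]
      simp
    omega
  set k0 := C3.b + C3.c - 2 - d with hk0
  have htail : ∀ m k, k0 ≤ k → C3.socDeg + 1 ≤ m + k → R k ≤ triNum (δ k) := by
    intro m
    induction m with
    | zero =>
      intro k _ hk
      rw [hzero k (by omega)]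
      exact triNum_nonneg _
    | succ m ih =>
      intro k hk hmk
      have hR1 : 0 ≤ R (k + 1) := cod_nonneg (iter_sub h (k + 1)).2
      rcases hR1.lt_or_eq with hpos | h0
      · have hb : 2 * R (k + 1) - R (k + 1 + 1) + 1 ≤ R k := iter_tail hp h hs k (by omega) hpos
        have hi := ih (k + 1) (by omega) (by omega)
        have h1 := triNum_mono (show δ (k + 1) ≤ δ k - 1 by simp only [hδ]; omega)
        have h2 := hδnn (k + 1)
        have h3 := triNum_succ (show 0 ≤ δ k - 1 by simp only [hδ] at h2 ⊢; omega)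
        rw [sub_add_cancel] at h3
        simp only [hδ] at hi h1 h3 ⊢
        omega
      · have h1 := le_triNum (D := δ k)
        simp only [hδ] at h1 ⊢
        omega
  have hfirst : ∀ k : ℕ, R 0 ≤ (k : ℤ) * δ 0 + R k := by
    intro k
    induction k with
    | zero => simp
    | succ k ih =>
      have := hmono 0 k (Nat.zero_le k)
      simp only [hδ] at this ih ⊢
      push_cast
      linarith
  have h1 := hfirst k0
  have h2 := htail (C3.socDeg + 1) k0 le_rfl (by omega)
  have h3 := triNum_mono (hmono 0 k0 (Nat.zero_le _))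
  have hD : δ 0 = cod d W - cod (d + 1) (C3.up d W) := rfl
  rw [hD] at h1 h3
  rw [tBound_eq (hD ▸ hδnn 0)]
  have h4 : ((k0 : ℕ) : ℤ) = max ((C3.b : ℤ) + C3.c - 2 - d) 0 := by
    have := C3.two_le; have := C3.hab; omega
  rw [h4, mul_comm] at h1
  change cod d W ≤ _ at h1
  linarith

end CI3

end Vale.Agent.P200
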