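import Mathlib

/-!
Arithmetic of monomials in a box `a × b × c` of degree `d`, ordered lexicographically.
-/

namespace Vale.Agent.P200

/-- Number of monomials of degree `j` in a box `b × c` (for `b ≤ c`). -/
def sz (b c j : ℤ) : ℤ := max 0 (min (j + 1) (min b (b + c - 1 - j)))

/-- Number of monomials of degree `d` in a box `i × b × c`. -/
def boxCount (b c d : ℤ) (i : ℕ) : ℤ := ∑ l ∈ Finset.range i, sz b c (d - l)

/-- `T(D)`, the number of monomials in the `D` falling slices. -/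
def tBound (b c d D : ℤ) : ℤ := ∑ k ∈ Finset.range D.toNat, (max (b + c - 1 - d) 1 + k)

/-- Triangular numbers `1 + ... + D`. -/
def triNum (D : ℤ) : ℤ := ∑ k ∈ Finset.range D.toNat, (1 + (k : ℤ))

lemma boxCount_zero (b c d : ℤ) : boxCount b c d 0 = 0 := by simp [boxCount]

lemma boxCount_succ (b c d : ℤ) (i : ℕ) :
    boxCount b c d (i + 1) = boxCount b c d i + sz b c (d - i) := by
  simp [boxCount, Finset.sum_range_succ]

lemma sz_nonneg (b c j : ℤ) : 0 ≤ sz b c j := le_max_left _ _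

lemma boxCount_mono (b c d : ℤ) : Monotone (boxCount b c d) := by
  refine monotone_nat_of_le_succ fun i => ?_
  rw [boxCount_succ]
  have := sz_nonneg b c (d - i)
  omega

lemma boxCount_nonneg (b c d : ℤ) (i : ℕ) : 0 ≤ boxCount b c d i := by
  simpa [boxCount_zero] using boxCount_mono b c d (Nat.zero_le i)

lemma slope_eq {b c : ℤ} (hb : 1 ≤ b) (hbc : b ≤ c) (j : ℤ) :
    sz b c (j + 1) - sz b c j =
      if -1 ≤ j ∧ j ≤ b - 2 then 1 else if c - 1 ≤ j ∧ j ≤ b + c - 2 then -1 else 0 := by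
  unfold sz
  split_ifs <;> omega

lemma boxCount_diff {b c : ℤ} (hb : 1 ≤ b) (hbc : b ≤ c) (d : ℤ) (i : ℕ) :
    boxCount b c (d + 1) i - boxCount b c d i =
      max 0 (min (i : ℤ) (d + 2) - max 0 (d - b + 2))
        - max 0 (min (i : ℤ) (d - c + 2) - max 0 (d - (b + c - 2))) := by
  induction i with
  | zero => simp [boxCount_zero]
  | succ i ih =>
    have := slope_eq hb hbc (d - i)
    rw [boxCount_succ, boxCount_succ, show d + 1 - (i : ℤ) = d - i + 1 by ring]
    split_ifs at this <;> push_cast <;> omega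

/-- `d - b + 2` clamped to `[0, a]`. -/
def mPos (a : ℕ) (b d : ℤ) : ℕ := min a (d - b + 2).toNat

/-- Number of slices `i < a` along which the slice size falls. -/
def nNeg (a : ℕ) (b c d : ℤ) : ℤ :=
  max 0 (min (a : ℤ) (d - c + 2)) - max 0 (d - (b + c - 2))

/-- Position of the monomial `(i, v, d - i - v)`. -/
def boxPos (b c d : ℤ) (i : ℕ) (v : ℤ) : ℤ := boxCount b c d i + (v - max 0 (d - i - c + 1))

/-- `(i, v, d - i - v)` lies in the box `a × b × c`. -/
def InBox (a : ℕ) (b c d : ℤ) (i : ℕ) (v : ℤ) : Prop :=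
  i < a ∧ 0 ≤ v ∧ v < b ∧ 0 ≤ d - i - v ∧ d - i - v < c

/-- Every child of a monomial at position at least `h` is at position at least `x`. -/
def Good (a : ℕ) (b c d h x : ℤ) : Prop :=
  ∀ (i i' : ℕ) (v v' : ℤ), InBox a b c d i v → InBox a b c (d + 1) i' v' →
    ((i' = i + 1 ∧ v' = v) ∨ (i' = i ∧ (v' = v + 1 ∨ v' = v))) →
    h ≤ boxPos b c d i v → x ≤ boxPos b c (d + 1) i' v'

lemma boxPos_nonneg {a : ℕ} {b c d : ℤ} {i : ℕ} {v : ℤ} (hbox : InBox a b c d i v) :
    boxCount b c d i ≤ boxPos b c d i v := by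
  obtain ⟨h1, h2, h3, h4, h5⟩ := hbox
  unfold boxPos
  omega

lemma boxPos_lt {a : ℕ} {b c d : ℤ} (hbc : b ≤ c) {i : ℕ} {v : ℤ} (hbox : InBox a b c d i v) :
    boxPos b c d i v < boxCount b c d (i + 1) := by
  obtain ⟨h1, h2, h3, h4, h5⟩ := hbox
  rw [boxCount_succ]
  unfold boxPos sz
  omega

lemma boxPos_lt_total {a : ℕ} {b c d : ℤ} (hbc : b ≤ c) {i : ℕ} {v : ℤ}
    (hbox : InBox a b c d i v) : boxPos b c d i v < boxCount b c d a :=
  lt_of_lt_of_le (boxPos_lt hbc hbox) (boxCount_mono b c d (by obtain ⟨h1, -⟩ := hbox; omega))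

lemma child_pos_ge {a : ℕ} {b c d : ℤ} (hb : 1 ≤ b) (hbc : b ≤ c) {i i' : ℕ} {v v' : ℤ}
    (hp : InBox a b c d i v) (hc : InBox a b c (d + 1) i' v')
    (hrel : (i' = i + 1 ∧ v' = v) ∨ (i' = i ∧ (v' = v + 1 ∨ v' = v))) :
    boxPos b c d i v + (boxCount b c (d + 1) i - boxCount b c d i)
      + min 0 (sz b c (d - i + 1) - sz b c (d - i)) ≤ boxPos b c (d + 1) i' v' := by
  obtain ⟨h1, h2, h3, h4, h5⟩ := hp
  obtain ⟨g1, g2, g3, g4, g5⟩ := hc
  have hs := slope_eq hb hbc (d - i)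
  rcases hrel with ⟨rfl, rfl⟩ | ⟨rfl, rfl | rfl⟩
  · have hsz := sz_nonneg b c (d - i + 1)
    unfold boxPos
    rw [boxCount_succ, show d + 1 - (i : ℤ) = d - i + 1 by ring]
    push_cast
    omega
  · unfold boxPos
    omega
  · unfold boxPos
    split_ifs at hs <;> omega

lemma good_of_h_eq_zero (a : ℕ) (b c d x : ℤ) (hx : x ≤ 0) : Good a b c d 0 x := by
  intro i i' v v' _ hc _ _
  exact le_trans hx ((boxCount_nonneg _ _ _ _).trans (boxPos_nonneg hc))

/-- Goodness when `x ≤ h - nNeg + k`. -/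
lemma good_of_le {a : ℕ} {b c d h x : ℤ} (hab : (a : ℤ) ≤ b) (hb : 1 ≤ b) (hbc : b ≤ c)
    (k : ℕ) (hk : k = 0 ∨ (mPos a b d + k ≤ a ∧ boxCount b c d (mPos a b d + k) ≤ h))
    (hx : x ≤ h - nNeg a b c d + k) : Good a b c d h x := by
  intro i i' v v' hp hc hrel hh
  have h1 := child_pos_ge hb hbc hp hc hrel
  have h2 := boxPos_lt hbc hp
  have hi : i < a := hp.1
  have hd : 0 ≤ d - (i : ℤ) ∧ d - i ≤ b + c - 2 := by
    obtain ⟨-, q2, q3, q4, q5⟩ := hp
    omega
  have hik : k = 0 ∨ mPos a b d + k ≤ i := by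
    rcases hk with rfl | ⟨-, hS⟩
    · exact Or.inl rfl
    · refine Or.inr ?_
      by_contra hcon
      have := boxCount_mono b c d (show i + 1 ≤ mPos a b d + k by omega)
      omega
  have h3 := boxCount_diff hb hbc d i
  have hs := slope_eq hb hbc (d - i)
  unfold nNeg mPos at *
  split_ifs at hs <;> omega

lemma tBound_zero {b c d D : ℤ} (hD : D ≤ 0) : tBound b c d D = 0 := by
  simp [tBound, Int.toNat_eq_zero.2 hD]

lemma tBound_succ {b c d D : ℤ} (hD : 0 ≤ D) :
    tBound b c d (D + 1) = tBound b c d D + (max (b + c - 1 - d) 1 + D) := by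
  have h : (D + 1).toNat = D.toNat + 1 := by omega
  rw [tBound, h, Finset.sum_range_succ, tBound]
  omega

lemma tBound_nonneg (b c d D : ℤ) : 0 ≤ tBound b c d D :=
  Finset.sum_nonneg fun k _ => by omega

lemma tBound_mono {b c d D D' : ℤ} (h : D ≤ D') : tBound b c d D ≤ tBound b c d D' := by
  unfold tBound
  refine Finset.sum_le_sum_of_subset_of_nonneg (Finset.range_mono (by omega)) fun k _ _ => by omega

lemma boxCount_falling {b c : ℤ} (hb : 1 ≤ b) (hbc : b ≤ c) (d : ℤ) (a : ℕ) (D : ℕ)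
    (hD : (D : ℤ) ≤ nNeg a b c d) :
    boxCount b c d ((d - (b + c - 2)).toNat + D) = tBound b c d D := by
  induction D with
  | zero =>
    rw [tBound_zero (by simp)]
    simp only [add_zero]
    refine Finset.sum_eq_zero fun l hl => ?_
    rw [Finset.mem_range] at hl
    unfold sz
    omega
  | succ D ih =>
    push_cast at hD
    rw [← add_assoc, boxCount_succ, ih (by omega)]
    push_cast
    rw [tBound_succ (by omega)]
    unfold sz
    unfold nNeg at hD
    omega

/-- Goodness when `h ≤ T(D)` and `x ≤ h - D`. -/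
lemma good_of_le_tBound {a : ℕ} {b c d h x : ℤ} (hb : 1 ≤ b) (hbc : b ≤ c)
    (D : ℕ) (hD : (D : ℤ) ≤ nNeg a b c d) (hh : h ≤ tBound b c d D) (hx : x ≤ h - D) :
    Good a b c d h x := by
  intro i i' v v' hp hc hrel hhp
  have h1 := child_pos_ge hb hbc hp hc hrel
  set i0 := (d - (b + c - 2)).toNat + D with hi0
  have hi' : i ≤ i' := by omega
  by_cases hlt : i < i0
  · have h3 := boxCount_diff hb hbc d i
    have hs := slope_eq hb hbc (d - i)
    have hi : i < a := hp.1
    have hd : 0 ≤ d - (i : ℤ) ∧ d - i ≤ b + c - 2 := by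
      obtain ⟨-, q2, q3, q4, q5⟩ := hp
      omega
    unfold nNeg at hD
    split_ifs at hs <;> omega
  · have h2 := boxPos_nonneg hc
    have h3 := boxCount_mono b c (d + 1) (show i0 ≤ i' by omega)
    have h4 := boxCount_falling hb hbc d a D hD
    have h5 := boxCount_diff hb hbc d i0
    rw [← hi0] at h4
    unfold nNeg at hD
    omega

lemma triNum_zero {D : ℤ} (hD : D ≤ 0) : triNum D = 0 := by
  simp [triNum, Int.toNat_eq_zero.2 hD]

lemma triNum_succ {D : ℤ} (hD : 0 ≤ D) : triNum (D + 1) = triNum D + (1 + D) := by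
  have h : (D + 1).toNat = D.toNat + 1 := by omega
  rw [triNum, h, Finset.sum_range_succ, triNum]
  omega

lemma triNum_nonneg (D : ℤ) : 0 ≤ triNum D := Finset.sum_nonneg fun k _ => by omega

lemma triNum_mono {D D' : ℤ} (h : D ≤ D') : triNum D ≤ triNum D' := by
  unfold triNum
  refine Finset.sum_le_sum_of_subset_of_nonneg (Finset.range_mono (by omega)) fun k _ _ => by omega

lemma le_triNum {D : ℤ} : D ≤ triNum D := by
  rcases le_or_gt D 0 with h | h
  · exact h.trans (triNum_nonneg D)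
  · obtain ⟨E, rfl⟩ : ∃ E, D = E + 1 := ⟨D - 1, by ring⟩
    have := triNum_succ (show (0 : ℤ) ≤ E by omega)
    have := triNum_nonneg E
    omega

lemma tBound_eq {b c d D : ℤ} (hD : 0 ≤ D) :
    tBound b c d D = D * max (b + c - 2 - d) 0 + triNum D := by
  lift D to ℕ using hD
  induction D with
  | zero => simp [tBound, triNum]
  | succ D ih =>
    push_cast
    rw [tBound_succ (by omega), triNum_succ (by omega), ih,
      show max (b + c - 1 - d) 1 = max (b + c - 2 - d) 0 + 1 by omega]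
    ring

end Vale.Agent.P200
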