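import Vale.Agent.P200.Points

/-!
A determinant measuring a class in the kernel modulo an image, and quotients of polynomials.
-/

namespace Vale.Agent.P200

open MvPolynomial

variable {K : Type*} [Field K] {ι μ τ : Type*} [Fintype ι] [Fintype μ] [Fintype τ]
  [DecidableEq μ] [DecidableEq τ]

/-- Square matrix with columns `M1`, a free column, `C`. -/
def blockMat (e : ι ≃ (μ ⊕ Unit) ⊕ τ) (M1 : μ → ι → K) (v : ι → K) (C : τ → ι → K) :
    Matrix ((μ ⊕ Unit) ⊕ τ) ((μ ⊕ Unit) ⊕ τ) K :=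
  Matrix.of fun r s => Sum.elim (Sum.elim M1 fun _ => v) C s (e.symm r)

lemma updateCol_blockMat (e : ι ≃ (μ ⊕ Unit) ⊕ τ) (M1 : μ → ι → K) (v : ι → K)
    (C : τ → ι → K) :
    (blockMat e M1 0 C).updateCol (Sum.inl (Sum.inr ())) (v ∘ e.symm) = blockMat e M1 v C := by
  ext r s
  rcases s with (k | u) | t
  · simp [blockMat, Matrix.updateCol_apply]
  · simp [blockMat, Matrix.updateCol_apply]
  · simp [blockMat, Matrix.updateCol_apply]

/-- The determinant as a linear function of the free column. -/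
noncomputable def detW (e : ι ≃ (μ ⊕ Unit) ⊕ τ) (M1 : μ → ι → K) (C : τ → ι → K) :
    (ι → K) →ₗ[K] K :=
  LinearMap.proj (Sum.inl (Sum.inr ())) ∘ₗ (blockMat e M1 0 C).cramer ∘ₗ
    LinearMap.funLeft K K e.symm

lemma detW_apply (e : ι ≃ (μ ⊕ Unit) ⊕ τ) (M1 : μ → ι → K) (C : τ → ι → K) (v : ι → K) :
    detW e M1 C v = (blockMat e M1 v C).det := by
  rw [← updateCol_blockMat, ← Matrix.cramer_apply]
  rfl

lemma detW_eq_zero (e : ι ≃ (μ ⊕ Unit) ⊕ τ) (M1 : μ → ι → K) (C : τ → ι → K) {v : ι → K}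
    (hv : v ∈ Submodule.span K (Set.range M1)) : detW e M1 C v = 0 := by
  induction hv using Submodule.span_induction with
  | mem x hx =>
    obtain ⟨k, rfl⟩ := hx
    rw [detW_apply]
    exact Matrix.det_zero_of_column_eq (i := Sum.inl (Sum.inl k)) (j := Sum.inl (Sum.inr ()))
      (by simp) fun r => rfl
  | zero => exact map_zero _
  | add a b _ _ ha hb => rw [map_add, ha, hb, add_zero]
  | smul c a _ ha => rw [map_smul, ha, smul_zero]

/-- The matrix of `Ψ` on the columns `C`. -/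
def compMat (Ψ : (ι → K) →ₗ[K] (τ → K)) (C : τ → ι → K) : Matrix τ τ K :=
  Matrix.of fun r s => Ψ (C s) r

lemma comp_sum (Ψ : (ι → K) →ₗ[K] (τ → K)) (C : τ → ι → K) (z : τ → K) :
    Ψ (∑ t, z t • C t) = (compMat Ψ C).mulVec z := by
  ext r
  simp [compMat, Matrix.mulVec, dotProduct, Finset.sum_apply, mul_comm]

lemma sum_columns_eq (e : ι ≃ (μ ⊕ Unit) ⊕ τ) (M1 : μ → ι → K) (v : ι → K) (C : τ → ι → K)
    (z : (μ ⊕ Unit) ⊕ τ → K) (i : ι) :
    (blockMat e M1 v C).mulVec z (e i) = (∑ k, z (.inl (.inl k)) • M1 k) i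
      + z (.inl (.inr ())) * v i + (∑ t, z (.inr t) • C t) i := by
  simp [blockMat, Matrix.mulVec, dotProduct, Fintype.sum_sum_type, Finset.sum_apply, mul_comm]

lemma detW_ne_zero (e : ι ≃ (μ ⊕ Unit) ⊕ τ) (Ψ : (ι → K) →ₗ[K] (τ → K)) {M1 : μ → ι → K}
    (hΨM : ∀ k, Ψ (M1 k) = 0) (hM : LinearIndependent K M1) {C : τ → ι → K}
    (hC : (compMat Ψ C).det ≠ 0) {v : ι → K} (hv0 : Ψ v = 0)
    (hv : v ∉ Submodule.span K (Set.range M1)) : detW e M1 C v ≠ 0 := by
  rw [detW_apply]
  intro h0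
  obtain ⟨z, hz0, hz⟩ := Matrix.exists_mulVec_eq_zero_iff.2 h0
  have hsum : (∑ k, z (.inl (.inl k)) • M1 k) + z (.inl (.inr ())) • v
      + (∑ t, z (.inr t) • C t) = 0 := funext fun i => by
    have := congrFun hz (e i)
    rw [sum_columns_eq] at this
    simpa using this
  have hC0 : (fun t => z (.inr t)) = 0 := by
    have h := congrArg Ψ hsum
    simp only [map_add, map_sum, map_smul, hΨM, smul_zero, Finset.sum_const_zero, zero_add, hv0,
      map_zero] at h
    by_contra hne
    refine hC (Matrix.exists_mulVec_eq_zero_iff.1 ⟨_, hne, ?_⟩)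
    rw [← comp_sum, map_sum]
    simpa using h
  have hC0' : ∀ t, z (.inr t) = 0 := congrFun hC0
  simp only [hC0', zero_smul, Finset.sum_const_zero, add_zero] at hsum
  have hβ : z (.inl (.inr ())) = 0 := by
    by_contra hne
    refine hv ?_
    have : z (.inl (.inr ())) • v ∈ Submodule.span K (Set.range M1) := by
      rw [eq_neg_of_add_eq_zero_right hsum]
      exact neg_mem (sum_mem fun k _ => Submodule.smul_mem _ _ (Submodule.subset_span ⟨k, rfl⟩))
    exact (Submodule.smul_mem_iff _ hne).1 this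
  rw [hβ, zero_smul, add_zero] at hsum
  have hα := Fintype.linearIndependent_iff.1 hM _ hsum
  refine hz0 (funext fun s => ?_)
  rcases s with (k | u) | t
  · exact hα k
  · exact hβ
  · exact hC0' t

lemma detW_indep (e : ι ≃ (μ ⊕ Unit) ⊕ τ) (Ψ : (ι → K) →ₗ[K] (τ → K)) {M1 : μ → ι → K}
    (hΨM : ∀ k, Ψ (M1 k) = 0) (hM : LinearIndependent K M1) {C C' : τ → ι → K}
    (hC : (compMat Ψ C).det ≠ 0) {v : ι → K} (hv0 : Ψ v = 0) :
    detW e M1 C' v * (compMat Ψ C).det = detW e M1 C v * (compMat Ψ C').det := by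
  by_cases hv : v ∈ Submodule.span K (Set.range M1)
  · rw [detW_eq_zero e M1 C hv, detW_eq_zero e M1 C' hv, zero_mul, zero_mul]
  -- the kernel of `Ψ` is spanned by `M1` and `v`
  set V := Submodule.span K (Set.range (Sum.elim M1 fun _ : Unit => v)) with hV
  have hVker : V = LinearMap.ker Ψ := by
    refine Submodule.eq_of_le_of_finrank_le (Submodule.span_le.2 ?_) ?_
    · rintro _ ⟨k | u, rfl⟩
      · exact hΨM k
      · exact hv0
    · have hli : LinearIndependent K (Sum.elim M1 fun _ : Unit => v) := by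
        refine hM.sum_type (linearIndependent_unique_iff.2 fun h => hv (h ▸ zero_mem _)) ?_
        rw [Set.range_const, Submodule.disjoint_span_singleton]
        exact fun hmem => absurd hmem hv
      have hr := LinearMap.finrank_range_add_finrank_ker Ψ
      have hsurj : LinearMap.range Ψ = ⊤ := by
        refine LinearMap.range_eq_top.2 fun z => ⟨∑ t, ((compMat Ψ C)⁻¹.mulVec z) t • C t, ?_⟩
        rw [comp_sum, Matrix.mulVec_mulVec, Matrix.mul_nonsing_inv _ (isUnit_iff_ne_zero.2 hC),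
          Matrix.one_mulVec]
      rw [hsurj, finrank_top, Module.finrank_fintype_fun_eq_card,
        Module.finrank_fintype_fun_eq_card, Fintype.card_congr e] at hr
      rw [hV, finrank_span_eq_card hli]
      simp only [Fintype.card_sum] at hr ⊢
      omega
  set R := (compMat Ψ C)⁻¹ * compMat Ψ C' with hR
  have hQR : compMat Ψ C * R = compMat Ψ C' := by
    rw [hR, ← Matrix.mul_assoc, Matrix.mul_nonsing_inv _ (isUnit_iff_ne_zero.2 hC), Matrix.one_mul]
  have hdiff : ∀ s, ∃ g : μ ⊕ Unit → K,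
      C' s = (∑ m, g m • Sum.elim M1 (fun _ : Unit => v) m) + ∑ t, R t s • C t := by
    intro s
    have hmem : C' s - ∑ t, R t s • C t ∈ V := by
      rw [hVker, LinearMap.mem_ker, map_sub, comp_sum, sub_eq_zero]
      ext r
      have := congrFun (congrFun hQR r) s
      simpa [compMat, Matrix.mulVec, dotProduct, Matrix.mul_apply] using this.symm
    obtain ⟨g, hg⟩ := (Submodule.mem_span_range_iff_exists_fun K).1 hmem
    exact ⟨g, by rw [hg, sub_add_cancel]⟩
  choose g hg using hdiff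
  let Tm : Matrix ((μ ⊕ Unit) ⊕ τ) ((μ ⊕ Unit) ⊕ τ) K :=
    Matrix.fromBlocks 1 (Matrix.of fun m s => g s m) 0 R
  have hM' : blockMat e M1 v C' = blockMat e M1 v C * Tm := by
    ext r s
    rcases s with m | s
    · simp [Tm, blockMat, Matrix.mul_apply, Fintype.sum_sum_type, Matrix.fromBlocks, Matrix.one_apply]
    · simp only [Tm, blockMat, Matrix.mul_apply, Fintype.sum_sum_type, Matrix.of_apply,
        Sum.elim_inr, Matrix.fromBlocks_apply₁₂, Matrix.fromBlocks_apply₂₂]
      rw [hg s]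
      simp only [Pi.add_apply, Finset.sum_apply, Fintype.sum_sum_type, Pi.smul_apply, smul_eq_mul,
        Sum.elim_inl, Sum.elim_inr, mul_comm]
  have hdet : (compMat Ψ C').det = (compMat Ψ C).det * R.det := by rw [← Matrix.det_mul, hQR]
  rw [detW_apply, detW_apply, hM', Matrix.det_mul, Matrix.det_fromBlocks_zero₂₁, Matrix.det_one,
    one_mul, hdet]
  ring

lemma polyH_det {n : Type*} [Fintype n] [DecidableEq n] (A : (Fin 3 → K) → Matrix n n K)
    (dg : n → ℕ) (h : ∀ i k, PolyH (dg k) fun p => A p i k) :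
    PolyH (∑ k, dg k) fun p => (A p).det := by
  choose P hP hP' using h
  refine ⟨(Matrix.of P).det, ?_, fun p => ?_⟩
  · rw [Matrix.det_apply']
    refine IsHomogeneous.sum _ _ _ fun σ _ => ?_
    rw [← map_intCast (C : K →+* Poly3 K)]
    exact (IsHomogeneous.prod _ _ _ fun k _ => hP (σ k) k).C_mul _
  · rw [RingHom.map_det]
    congr 1
    ext i k
    exact hP' i k p

/-- Polynomial ratios with denominators without common zero are polynomials. -/
lemma exists_quotient [IsAlgClosed K] {I : Type*} (N D : I → Poly3 K)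
    (hzero : ∀ p : Fin 3 → K, p ≠ 0 → ∃ i, eval p (D i) ≠ 0)
    (hcross : ∀ i k, D i ≠ 0 → D k ≠ 0 → N i * D k = N k * D i) :
    ∃ φ : Poly3 K, ∀ i, D i ≠ 0 → N i = φ * D i := by
  obtain ⟨i0, hi0⟩ : ∃ i, D i ≠ 0 := by
    obtain ⟨i, hi⟩ := hzero (Pi.single 0 1) (by simp)
    exact ⟨i, fun h => hi (by rw [h, map_zero])⟩
  obtain ⟨u, v, c, huv, hu, hv⟩ :=
    UniqueFactorizationMonoid.exists_reduced_factors' (N i0) (D i0) hi0
  have hc : c ≠ 0 := fun h => hi0 (by rw [← hv, h, zero_mul])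
  have hv0 : v ≠ 0 := fun h => hi0 (by rw [← hv, h, mul_zero])
  have hdiv : ∀ i, D i ≠ 0 → u * D i = v * N i := by
    intro i hi
    refine mul_left_cancel₀ hc ?_
    rw [← mul_assoc, hu, ← mul_assoc, hv]
    linear_combination hcross i0 i hi0 hi
  have hvD : ∀ i, v ∣ D i := by
    intro i
    rcases eq_or_ne (D i) 0 with h | h
    · rw [h]; exact dvd_zero v
    · exact huv.symm.dvd_of_dvd_mul_left ⟨N i, hdiv i h⟩
  have hunit : IsUnit v := by
    have hzl : ∀ x ∈ MvPolynomial.zeroLocus K (Ideal.span {v} : Ideal (Poly3 K)), x = 0 := by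
      intro x hx
      by_contra hne
      obtain ⟨i, hi⟩ := hzero x hne
      obtain ⟨r, hr⟩ := hvD i
      have hx' : eval x v = 0 := by
        have := hx v (Ideal.mem_span_singleton_self v)
        simpa [aeval_def] using this
      exact hi (by rw [hr, map_mul, hx', zero_mul])
    have hX : ∀ j : Fin 3, ∃ n, v ∣ X j ^ n := by
      intro j
      have hmem : (X j : Poly3 K) ∈ MvPolynomial.vanishingIdeal K
          (MvPolynomial.zeroLocus K (Ideal.span {v} : Ideal (Poly3 K))) := by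
        intro x hx
        rw [hzl x hx]
        simp
      rw [MvPolynomial.vanishingIdeal_zeroLocus_eq_radical] at hmem
      obtain ⟨n, hn⟩ := hmem
      exact ⟨n, Ideal.mem_span_singleton.1 hn⟩
    obtain ⟨n0, h0⟩ := hX 0
    obtain ⟨n1, h1⟩ := hX 1
    have hrel : IsRelPrime (X 0 : Poly3 K) (X 1) := by
      refine (prime_of_linear (isHomogeneous_X K 0) (X_ne_zero 0)).irreducible.isRelPrime_iff_not_dvd.2 ?_
      intro hdvd
      obtain ⟨r, hr⟩ := hdvd
      have := congrArg (eval (Pi.single (1 : Fin 3) (1 : K))) hr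
      simp at this
    exact (IsRelPrime.pow (m := n0) (n := n1) hrel) h0 h1
  obtain ⟨w, hw⟩ := hunit
  refine ⟨↑w⁻¹ * u, fun i hi => ?_⟩
  rw [mul_assoc, hdiv i hi, ← hw, ← mul_assoc, Units.inv_mul, one_mul]

end Vale.Agent.P200
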