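import Vale.Agent.P200.Main

/-!
Lex-plus-powers monomial sets in three variables.
-/

namespace Vale.Agent.P200

open MvPolynomial Module

variable {K : Type*} [Field K]

/-- Exponents in three variables of a given degree. -/
noncomputable def exps3 (d : ℕ) : Finset (Fin 3 →₀ ℕ) := Finset.univ.finsuppAntidiag d

lemma mem_exps3 {d : ℕ} {e : Fin 3 →₀ ℕ} : e ∈ exps3 d ↔ e 0 + e 1 + e 2 = d := by
  simp [exps3, Fin.sum_univ_three]

namespace CI3

variable (C3 : CI3 K)

/-- Exponent below the three powers. -/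
def BoxExp (e : Fin 3 →₀ ℕ) : Prop := e 0 < C3.a ∧ e 1 < C3.b ∧ e 2 < C3.c

instance (e : Fin 3 →₀ ℕ) : Decidable (C3.BoxExp e) := by unfold BoxExp; infer_instance

/-- Lex position of an exponent among those of the same degree below the powers. -/
def expPos (e : Fin 3 →₀ ℕ) : ℤ :=
  boxPos C3.b C3.c ((e 0 + e 1 + e 2 : ℕ) : ℤ) (e 0) (e 1 : ℤ)

/-- The lex-plus-powers exponents having the Hilbert function of `L`. -/
noncomputable def lppSet (L : Ideal (Poly3 K)) (d : ℕ) : Finset (Fin 3 →₀ ℕ) :=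
  (exps3 d).filter fun e => C3.BoxExp e → cod d (degPart d L) ≤ C3.expPos e

variable {C3}

lemma inBox_of {e : Fin 3 →₀ ℕ} (h : C3.BoxExp e) :
    InBox C3.a C3.b C3.c ((e 0 + e 1 + e 2 : ℕ) : ℤ) (e 0) (e 1 : ℤ) := by
  obtain ⟨h1, h2, h3⟩ := h
  unfold InBox
  push_cast
  omega

lemma expPos_lt (e : Fin 3 →₀ ℕ) (h : C3.BoxExp e) :
    0 ≤ C3.expPos e ∧ C3.expPos e < C3.dimA ((e 0 + e 1 + e 2 : ℕ) : ℤ) := by
  have := C3.hbc
  exact ⟨(boxCount_nonneg _ _ _ _).trans (boxPos_nonneg (inBox_of h)),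
    boxPos_lt_total (by omega) (inBox_of h)⟩

lemma expPos_inj {e e' : Fin 3 →₀ ℕ} (h : C3.BoxExp e) (h' : C3.BoxExp e')
    (hd : e 0 + e 1 + e 2 = e' 0 + e' 1 + e' 2) (hp : C3.expPos e = C3.expPos e') : e = e' := by
  have hbc : (C3.b : ℤ) ≤ C3.c := by have := C3.hbc; omega
  have b1 := inBox_of h
  have b2 := inBox_of h'
  rw [← hd] at b2
  unfold expPos at hp
  rw [← hd] at hp
  have h0 : e 0 = e' 0 := by
    by_contra hne
    rcases Nat.lt_or_gt_of_ne hne with hl | hl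
    · have := boxCount_mono (C3.b : ℤ) C3.c ((e 0 + e 1 + e 2 : ℕ) : ℤ) (show e 0 + 1 ≤ e' 0 by omega)
      have := boxPos_lt hbc b1
      have := boxPos_nonneg b2
      omega
    · have := boxCount_mono (C3.b : ℤ) C3.c ((e 0 + e 1 + e 2 : ℕ) : ℤ) (show e' 0 + 1 ≤ e 0 by omega)
      have := boxPos_lt hbc b2
      have := boxPos_nonneg b1
      omega
  have h1 : e 1 = e' 1 := by
    unfold boxPos at hp
    rw [← h0] at hp
    omega
  ext i
  fin_cases i <;> simp <;> omega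

lemma expPos_surj (d i : ℕ) (hi : i ≤ C3.a) (q : ℤ) (h0 : 0 ≤ q)
    (hq : q < boxCount C3.b C3.c d i) :
    ∃ e : Fin 3 →₀ ℕ, e 0 + e 1 + e 2 = d ∧ C3.BoxExp e ∧ C3.expPos e = q := by
  induction i with
  | zero => rw [boxCount_zero] at hq; omega
  | succ i ih =>
    rw [boxCount_succ] at hq
    by_cases hlt : q < boxCount C3.b C3.c d i
    · exact ih (by omega) hlt
    set v : ℤ := q - boxCount C3.b C3.c d i + max 0 ((d : ℤ) - i - C3.c + 1) with hv
    have hbc := C3.hbc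
    have hsz : 0 ≤ v ∧ v < C3.b ∧ 0 ≤ (d : ℤ) - i - v ∧ (d : ℤ) - i - v < C3.c := by
      unfold sz at hq
      omega
    refine ⟨Finsupp.equivFunOnFinite.symm ![i, v.toNat, ((d : ℤ) - i - v).toNat], ?_, ?_, ?_⟩
    · simp; omega
    · unfold BoxExp; simp; omega
    · unfold expPos boxPos
      simp
      rw [max_eq_left hsz.1, max_eq_left hsz.2.2.1]
      ring_nf
      omega

lemma card_filter_pos (d : ℕ) (h : ℤ) (h0 : 0 ≤ h) (hh : h ≤ C3.dimA d) :
    ((((exps3 d).filter fun e => C3.BoxExp e ∧ h ≤ C3.expPos e).card : ℕ) : ℤ)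
      = C3.dimA d - h := by
  have hcard : ((exps3 d).filter fun e => C3.BoxExp e ∧ h ≤ C3.expPos e).card =
      (Finset.Ico h (C3.dimA d)).card := by
    refine Finset.card_bij (fun e _ => C3.expPos e) (fun e he => ?_) (fun e he e' he' heq => ?_)
      (fun q hq => ?_)
    · rw [Finset.mem_filter, mem_exps3] at he
      have := expPos_lt e he.2.1
      rw [he.1] at this
      exact Finset.mem_Ico.2 ⟨he.2.2, this.2⟩
    · rw [Finset.mem_filter, mem_exps3] at he he'
      exact expPos_inj he.2.1 he'.2.1 (he.1.trans he'.1.symm) heq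
    · rw [Finset.mem_Ico] at hq
      obtain ⟨e, he1, he2, he3⟩ := expPos_surj (C3 := C3) d C3.a le_rfl q (by omega) hq.2
      exact ⟨e, by rw [Finset.mem_filter, mem_exps3]; exact ⟨he1, he2, by omega⟩, he3⟩
  rw [hcard, Int.card_Ico]
  omega

lemma card_exps3 (d : ℕ) : ((exps3 d).card : ℤ) = finrank K (homS K d) := by
  have hs : ({e : Fin 3 →₀ ℕ | e.degree = d} : Set (Fin 3 →₀ ℕ)) = ↑(exps3 d) := by
    ext e
    simp [Finsupp.degree_eq_sum, exps3]
  have he : homS K d = restrictSupport K (↑(exps3 d) : Set (Fin 3 →₀ ℕ)) := by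
    rw [homS, homogeneousSubmodule_eq_finsupp_supported, hs]
    rfl
  rw [he, finrank_eq_card_basis (basisRestrictSupport K _)]
  simp

lemma sub_degPart {L : Ideal (Poly3 K)} (hL : C3.idJ ≤ L) (d : ℕ) : C3.Sub d (degPart d L) :=
  ⟨fun _ hu => ⟨hu.1, hL hu.2⟩, inf_le_left⟩

lemma card_lppSet {L : Ideal (Poly3 K)} (hL : C3.idJ ≤ L) (d : ℕ) :
    (C3.lppSet L d).card = finrank K (degPart d L) := by
  have hW := sub_degPart hL d
  have h0 := cod_nonneg hW.2
  have h1 := cod_le hW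
  have e1 := card_filter_pos (C3 := C3) d (cod d (degPart d L)) h0 h1
  have e2 := card_filter_pos (C3 := C3) d 0 le_rfl (boxCount_nonneg _ _ _ _)
  have hall : ((exps3 d).filter fun e => C3.BoxExp e ∧ 0 ≤ C3.expPos e) =
      (exps3 d).filter C3.BoxExp := Finset.filter_congr fun e _ =>
    ⟨fun h => h.1, fun h => ⟨h, (expPos_lt e h).1⟩⟩
  rw [hall] at e2
  have hsplit : (C3.lppSet L d).card = ((exps3 d).filter fun e => ¬ C3.BoxExp e).card +
      ((exps3 d).filter fun e => C3.BoxExp e ∧ cod d (degPart d L) ≤ C3.expPos e).card := by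
    rw [← Finset.card_union_of_disjoint]
    · congr 1
      ext e
      simp only [lppSet, Finset.mem_filter, Finset.mem_union]
      tauto
    · rw [Finset.disjoint_filter]
      exact fun e _ h1 h2 => h1 h2.1
  have e3 := Finset.card_filter_add_card_filter_not (s := exps3 d) C3.BoxExp
  have e4 := card_exps3 (K := K) d
  have e5 : (cod d (degPart d L)) = (finrank K (homS K d) : ℤ) - finrank K (degPart d L) := rfl
  zify at hsplit e3 ⊢
  linarith

/-- The lex-plus-powers set is closed under multiplication by variables. -/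
lemma lppSet_succ [IsAlgClosed K] {L : Ideal (Poly3 K)} (hL : C3.idJ ≤ L) {d : ℕ}
    {e : Fin 3 →₀ ℕ} (he : e ∈ C3.lppSet L d) (i : Fin 3) :
    e + Finsupp.single i 1 ∈ C3.lppSet L (d + 1) := by
  rw [lppSet, Finset.mem_filter, mem_exps3] at he ⊢
  obtain ⟨hd, hpos⟩ := he
  refine ⟨by fin_cases i <;> simp <;> omega, fun hbox => ?_⟩
  have hbe : C3.BoxExp e := by
    obtain ⟨h1, h2, h3⟩ := hbox
    simp only [Finsupp.add_apply] at h1 h2 h3
    exact ⟨by omega, by omega, by omega⟩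
  have hg := good_step (sub_degPart hL d)
  have hx : cod (d + 1) (degPart (d + 1) L) ≤ cod (d + 1) (C3.up d (degPart d L)) := by
    refine cod_anti (sup_le (iSup_le fun k => ?_) (sub_degPart hL (d + 1)).1) inf_le_left
    rintro _ ⟨u, hu, rfl⟩
    exact mem_degPart.2 ⟨mul_homS (isHomogeneous_X K k) hu.1, Ideal.mul_mem_left _ _ hu.2⟩
  refine hx.trans ?_
  have b1 := inBox_of hbe
  have b2 := inBox_of hbox
  have hsum : ((e + Finsupp.single i 1 : Fin 3 →₀ ℕ) 0 + (e + Finsupp.single i 1 : Fin 3 →₀ ℕ) 1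
      + (e + Finsupp.single i 1 : Fin 3 →₀ ℕ) 2) = d + 1 := by
    fin_cases i <;> simp <;> omega
  unfold expPos at hpos ⊢
  rw [hsum] at b2 ⊢
  rw [hd] at b1 hpos
  push_cast at b2 ⊢
  refine hg _ _ _ _ b1 b2 ?_ (hpos hbe)
  fin_cases i <;> simp

/-- Monotonicity in the ideal. -/
lemma lppSet_mono {L L' : Ideal (Poly3 K)} (h : L ≤ L') (d : ℕ) :
    C3.lppSet L d ⊆ C3.lppSet L' d := by
  intro e he
  rw [lppSet, Finset.mem_filter] at he ⊢
  exact ⟨he.1, fun hb => (cod_anti (W := degPart d L) (W' := degPart d L') (fun u hu => mem_degPart.2 ⟨hu.1, h hu.2⟩)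
    inf_le_left).trans (he.2 hb)⟩

/-- Lex-greatest: a larger exponent below the powers is again chosen. -/
lemma lppSet_lex {L : Ideal (Poly3 K)} {d : ℕ} {e e' : Fin 3 →₀ ℕ} (he : e ∈ C3.lppSet L d)
    (hb : C3.BoxExp e) (hb' : C3.BoxExp e') (hd : e' 0 + e' 1 + e' 2 = d)
    (hlt : e 0 < e' 0 ∨ e 0 = e' 0 ∧ e 1 < e' 1) : e' ∈ C3.lppSet L d := by
  rw [lppSet, Finset.mem_filter, mem_exps3] at he ⊢
  refine ⟨hd, fun _ => (he.2 hb).trans ?_⟩
  have hbc : (C3.b : ℤ) ≤ C3.c := by have := C3.hbc; omega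
  have b1 := inBox_of hb
  have b2 := inBox_of hb'
  unfold expPos
  rw [he.1] at b1 ⊢
  rw [hd] at b2 ⊢
  rcases hlt with h | ⟨h, h'⟩
  · have := boxCount_mono (C3.b : ℤ) C3.c (d : ℤ) (show e 0 + 1 ≤ e' 0 by omega)
    have := boxPos_lt hbc b1
    have := boxPos_nonneg b2
    omega
  · unfold boxPos
    rw [← h]
    omega

end CI3

end Vale.Agent.P200
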