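import Vale.Agent.P200.Setup

/-!
Growth in degrees below the largest degree of the complete intersection.
-/

namespace Vale.Agent.P200

open MvPolynomial Module

variable {K : Type*} [Field K]

namespace CI3

variable {C3 : CI3 K} {d : ℕ} {W : Submodule K (Poly3 K)}

lemma dimA_nonneg (t : ℤ) : 0 ≤ C3.dimA t := boxCount_nonneg _ _ _ _

lemma dimA_diff (t : ℤ) : C3.dimA (t + 1) - C3.dimA t =
    max 0 (min (C3.a : ℤ) (t + 2) - max 0 (t - C3.b + 2))
      - max 0 (min (C3.a : ℤ) (t - C3.c + 2) - max 0 (t - (C3.b + C3.c - 2))) := by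
  have := C3.two_le; have := C3.hab; have := C3.hbc
  exact boxCount_diff (by omega) (by omega) t C3.a

/-- Below degree `c` a linear nonzerodivisor maps the classes injectively. -/
lemma cod_up_le_dimA (h : C3.Sub d W) {l : Poly3 K} (hl : l.IsHomogeneous 1) (hl0 : l ≠ 0)
    (hln : Nzd C3.idB l) (hd : d + 1 < C3.c) :
    cod (d + 1) (C3.up d W) ≤ cod d W + (C3.dimA (d + 1) - C3.dimA d) := by
  have := h.finite
  have : FiniteDimensional K (C3.up d W) := Submodule.finiteDimensional_of_le (up_le h)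
  set φ := LinearMap.mulLeft K l
  have hinj : Function.Injective φ := fun a b hab => mul_left_cancel₀ hl0 hab
  have hle : W.map φ ⊔ degPart (d + 1) C3.idJ ≤ C3.up d W :=
    sup_le (by rintro _ ⟨u, hu, rfl⟩; exact linear_mul_mem_up hl hu) le_sup_right
  have hinf : W.map φ ⊓ degPart (d + 1) C3.idJ ≤ (degPart d C3.idJ).map φ := by
    rintro _ ⟨⟨u, hu, rfl⟩, hJ⟩
    rw [SetLike.mem_coe, C3.degPart_idJ_of_lt_c hd] at hJ
    exact ⟨u, mem_degPart.2 ⟨h.2 hu, C3.idB_le (hln u (mem_degPart.1 hJ).2)⟩, rfl⟩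
  have e1 := Submodule.finrank_mono hle
  have e2 := Submodule.finrank_mono hinf
  have e3 := Submodule.finrank_sup_add_finrank_inf_eq (W.map φ) (degPart (d + 1) C3.idJ)
  have e4 : finrank K (W.map φ) = finrank K W :=
    ((Submodule.equivMapOfInjective φ hinj W).finrank_eq).symm
  have e5 : finrank K ((degPart d C3.idJ).map φ) = finrank K (degPart d C3.idJ) :=
    ((Submodule.equivMapOfInjective φ hinj _).finrank_eq).symm
  have h1 := C3.dimA_eq (d + 1)
  have h2 := C3.dimA_eq d
  unfold cod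
  zify at e1 e2 e3 e4 e5
  push_cast at h1
  linarith

/-- On a line missing a form of small degree, two spaces fill the next degree. -/
lemma fill_mem {q : Fin 3 → K} (hq : q ≠ 0) {l m : Poly3 K}
    (hgen : ∀ g : Poly3 K, g.IsHomogeneous 1 → eval q g = 0 → ∃ α β : K, g = α • l + β • m)
    {f : Poly3 K} {e : ℕ} (hfJ : f ∈ C3.idJ) (hf : f.IsHomogeneous e) (he : e ≤ d + 1)
    (hfq : eval q f ≠ 0) {Z : Submodule K (Poly3 K)}
    (hZl : (homS K d).map (LinearMap.mulLeft K l) ≤ Z)
    (hZm : (homS K d).map (LinearMap.mulLeft K m) ≤ Z)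
    (hZJ : degPart (d + 1) C3.idJ ≤ Z) : homS K (d + 1) ≤ Z := by
  intro g hg
  obtain ⟨w, hw, hw0, hgw⟩ := C3.pencil_fills hq hfJ hf he hfq hg
  obtain ⟨ω, hω, hω'⟩ := exists_cross hq hw0
  rw [← sub_add_cancel g (dotX w)]
  refine add_mem (hZJ (mem_degPart.2 ⟨IsHomogeneous.sub hg (dotX_homogeneous hw), hgw⟩)) ?_
  rw [← hω, dotX_cross]
  refine sum_mem fun i _ => ?_
  obtain ⟨α, β, hc⟩ := hgen _ (cf_homogeneous q i) (cf_eval q i)
  rw [hc, add_mul, smul_mul_assoc, smul_mul_assoc]
  exact add_mem (Z.smul_mem _ (hZl ⟨ω i, hω' (homS K d) hw i, rfl⟩))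
    (Z.smul_mem _ (hZm ⟨ω i, hω' (homS K d) hw i, rfl⟩))

/-- The bound on growth in low degrees. -/
def LowBound (C3 : CI3 K) (d : ℕ) : Prop :=
  ∀ W, C3.Sub d W → ∀ k : ℕ,
    (cod d W < boxCount C3.b C3.c d (min C3.a (mPos C3.a C3.b d + k + 1)) ∨
      (min (C3.a : ℤ) (d + 2) ≤ mPos C3.a C3.b d + k)) →
    cod (d + 1) (C3.up d W) ≤ cod d W + k

lemma lowBound_zero (hc : 1 < C3.c) [Infinite K] : LowBound C3 0 := by
  intro W h k hk
  obtain ⟨l, hl, hl0, hln, -⟩ := C3.exists_good_line
  rcases hk with hk | hk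
  · have h1 := boxCount_mono (C3.b : ℤ) C3.c ((0 : ℕ) : ℤ)
      (min_le_left C3.a (mPos C3.a C3.b ((0 : ℕ) : ℤ) + k + 1))
    have h2 : boxCount (C3.b : ℤ) C3.c ((0 : ℕ) : ℤ) C3.a ≤ 1 := by
      have hb : ∀ i : ℕ, boxCount (C3.b : ℤ) C3.c ((0 : ℕ) : ℤ) i ≤ 1 := by
        intro i
        induction i with
        | zero => simp [boxCount_zero]
        | succ i ih =>
          rw [boxCount_succ]
          cases i with
          | zero => rw [boxCount_zero]; unfold sz; omega
          | succ i => unfold sz at *; omega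
      exact hb _
    have h3 := cod_nonneg h.2
    have h0 : cod 0 W = 0 := by omega
    rw [cod_up_eq_zero h h0]
    omega
  · have h1 := cod_up_le_dimA h hl hl0 hln hc
    have h2 := C3.dimA_diff ((0 : ℕ) : ℤ)
    unfold mPos at hk
    push_cast at h1 h2 hk ⊢
    omega

lemma mul_surjective {e : ℕ} {l m f : Poly3 K} {q : Fin 3 → K} {n : ℕ}
    {Z Xl : Submodule K (Poly3 K)} (cZ : Coords (homS K (e + 1)) Z)
    (cX : Coords (homS K (e + 1 + 1)) Xl)
    (hmul : ∀ g u : Poly3 K, g.IsHomogeneous 1 → u ∈ Z → g * u ∈ Xl)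
    (hline' : (homS K (e + 1)).map (LinearMap.mulLeft K l) ≤ Xl)
    (hJ : degPart (e + 1 + 1) C3.idJ ≤ Xl) (hq : q ≠ 0) (hm : m.IsHomogeneous 1)
    (hgen : ∀ g : Poly3 K, g.IsHomogeneous 1 → eval q g = 0 → ∃ α β : K, g = α • l + β • m)
    (hfJ : f ∈ C3.idJ) (hf : f.IsHomogeneous n) (hn : n ≤ e + 1 + 1) (hfq : eval q f ≠ 0) :
    Function.Surjective (cX.proj ∘ₗ LinearMap.mulLeft K m ∘ₗ cZ.sec) := by
  intro v
  let M := Xl ⊔ LinearMap.range (LinearMap.mulLeft K m ∘ₗ cZ.sec)
  have hfill : homS K (e + 1 + 1) ≤ M := by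
    refine fill_mem hq hgen hfJ hf hn hfq (hline'.trans le_sup_left) ?_
      (hJ.trans le_sup_left)
    rintro _ ⟨u, hu, rfl⟩
    rw [LinearMap.mulLeft_apply,
      show m * u = m * (u - cZ.sec (cZ.proj u)) + m * cZ.sec (cZ.proj u) by ring]
    exact Submodule.add_mem_sup (hmul m _ hm (cZ.sub_mem hu)) ⟨cZ.proj u, rfl⟩
  obtain ⟨x, hx, _, ⟨s, rfl⟩, hxs⟩ := Submodule.mem_sup.1 (hfill (cX.sec_mem v))
  refine ⟨s, ?_⟩
  rw [← cX.proj_sec v, ← hxs, map_add, cX.proj_zero x hx, zero_add]
  rfl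

lemma quot_le {e : ℕ} {l : Poly3 K} (hl : l.IsHomogeneous 1) (hl0 : l ≠ 0) {p : Fin 3 → K}
    (hp : p ≠ 0) (hpl : eval p l = 0) (hpa : eval p C3.fa ≠ 0)
    {Z Xl : Submodule K (Poly3 K)} (hZ : Z ≤ homS K (e + 1)) (hXl : Xl ≤ homS K (e + 1 + 1))
    (hmul : ∀ g u : Poly3 K, g.IsHomogeneous 1 → u ∈ Z → g * u ∈ Xl)
    (hline' : (homS K (e + 1)).map (LinearMap.mulLeft K l) ≤ Xl)
    (hJ : degPart (e + 1 + 1) C3.idJ ≤ Xl) (hae : C3.a ≤ e + 2) :
    cod (e + 1 + 1) Xl ≤ cod (e + 1) Z := by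
  obtain ⟨cZ⟩ := exists_coords (homS K (e + 1)) Z hZ
  obtain ⟨cX⟩ := exists_coords (homS K (e + 1 + 1)) Xl hXl
  obtain ⟨m, hm, -, hgen, -⟩ := exists_second hl hl0 hp hpl
  have := LinearMap.finrank_le_finrank_of_surjective
    (f := _) (mul_surjective cZ cX hmul hline' hJ hp hm hgen C3.fa_mem C3.homA hae hpa)
  rw [finrank_fin_fun, finrank_fin_fun] at this
  have e4 : finrank K Z ≤ finrank K (homS K (e + 1)) := Submodule.finrank_mono hZ
  have e5 : finrank K Xl ≤ finrank K (homS K (e + 1 + 1)) := Submodule.finrank_mono hXl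
  unfold cod
  omega

lemma quot_lt [IsAlgClosed K] {e : ℕ} {l : Poly3 K} (hl : l.IsHomogeneous 1) (hl0 : l ≠ 0)
    (hline : ∀ q : Fin 3 → K, q ≠ 0 → eval q l = 0 → eval q C3.fa ≠ 0 ∨ eval q C3.fb ≠ 0)
    {p : Fin 3 → K} (hp : p ≠ 0) (hpl : eval p l = 0) (hpa : eval p C3.fa ≠ 0)
    {Z Xl : Submodule K (Poly3 K)} (hZ : Z ≤ homS K (e + 1)) (hXl : Xl ≤ homS K (e + 1 + 1))
    (hmul : ∀ g u : Poly3 K, g.IsHomogeneous 1 → u ∈ Z → g * u ∈ Xl)
    (hline' : (homS K (e + 1)).map (LinearMap.mulLeft K l) ≤ Xl)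
    (hJ : degPart (e + 1 + 1) C3.idJ ≤ Xl) (hbe : C3.b ≤ e + 2) (hpos : 0 < cod (e + 1) Z) :
    cod (e + 1 + 1) Xl < cod (e + 1) Z := by
  obtain ⟨cZ⟩ := exists_coords (homS K (e + 1)) Z hZ
  obtain ⟨cX⟩ := exists_coords (homS K (e + 1 + 1)) Xl hXl
  let μ : Poly3 K → _ →ₗ[K] _ := fun g => cX.proj ∘ₗ LinearMap.mulLeft K g ∘ₗ cZ.sec
  have := C3.hab
  by_contra hcon
  have hieq := quot_le (C3 := C3) hl hl0 hp hpl hpa hZ hXl hmul hline' hJ (by omega)
  obtain ⟨m, hm, -, hgen, -⟩ := exists_second hl hl0 hp hpl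
  have hsm := mul_surjective cZ cX hmul hline' hJ hp hm hgen C3.fa_mem C3.homA (by omega) hpa
  have e4 : finrank K Z ≤ finrank K (homS K (e + 1)) := Submodule.finrank_mono hZ
  have e5 : finrank K Xl ≤ finrank K (homS K (e + 1 + 1)) := Submodule.finrank_mono hXl
  have hdim : finrank K (homS K (e + 1)) - finrank K Z =
      finrank K (homS K (e + 1 + 1)) - finrank K Xl := by
    unfold cod at hcon hieq hpos
    omega
  have hbij : ∀ g, Function.Surjective (μ g) → Function.Injective (μ g) := fun g hg =>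
    (LinearMap.injective_iff_surjective_of_finrank_eq_finrank
      (by rw [finrank_fin_fun, finrank_fin_fun, hdim])).2 hg
  obtain ⟨m0, m1, hm0, hm1, hframe, -⟩ := exists_frame hl hl0
  -- a singular form that is not a multiple of `l`
  obtain ⟨L, hL, hLl, hLsing⟩ : ∃ L : Poly3 K, L.IsHomogeneous 1 ∧
      (∀ α : K, L ≠ α • l) ∧ ¬ Function.Injective (μ L) := by
    have hnl : ∀ β γ α : K, (β ≠ 0 ∨ γ ≠ 0) → β • m0 + γ • m1 ≠ α • l := by
      intro β γ α hne heq'
      classical
      obtain ⟨w, hw⟩ : ∃ w : Poly3 K, ∀ i, X i ∈ Submodule.span K ({l, w} : Set (Poly3 K)) := by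
        rcases hne with h0 | h0
        · refine ⟨m1, fun i => ?_⟩
          have hh := hframe (Submodule.span K ({l, m1} : Set (Poly3 K))) 1
            (by simpa using Submodule.subset_span (by simp)) ?_
            (by simpa using Submodule.subset_span (by simp)) i
          · simpa using hh
          · rw [mul_one, Submodule.mem_span_pair]
            refine ⟨α / β, -γ / β, ?_⟩
            have : m0 = β⁻¹ • (α • l - γ • m1) := by
              rw [← heq', add_sub_cancel_right, inv_smul_smul₀ h0]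
            rw [this, smul_sub, smul_smul, smul_smul, sub_eq_add_neg, ← neg_smul]
            congr 2 <;> ring
        · refine ⟨m0, fun i => ?_⟩
          have hh := hframe (Submodule.span K ({l, m0} : Set (Poly3 K))) 1
            (by simpa using Submodule.subset_span (by simp))
            (by simpa using Submodule.subset_span (by simp)) ?_ i
          · simpa using hh
          · rw [mul_one, Submodule.mem_span_pair]
            refine ⟨α / γ, -β / γ, ?_⟩
            have : m1 = γ⁻¹ • (α • l - β • m0) := by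
              rw [← heq', add_sub_cancel_left, inv_smul_smul₀ h0]
            rw [this, smul_sub, smul_smul, smul_smul, sub_eq_add_neg, ← neg_smul]
            congr 2 <;> ring
      have hS1 : homS K 1 ≤ Submodule.span K ({l, w} : Set (Poly3 K)) := fun g hg => by
        rw [linear_eq_sum hg]
        refine sum_mem fun i _ => ?_
        rw [← smul_eq_C_mul]
        exact Submodule.smul_mem _ _ (hw i)
      have : FiniteDimensional K ↥(Submodule.span K ({l, w} : Set (Poly3 K))) :=
        FiniteDimensional.span_of_finite K (Set.toFinite _)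
      have h2 := Submodule.finrank_mono hS1
      have h3 : finrank K ↥(Submodule.span K ({l, w} : Set (Poly3 K))) ≤ 2 := by
        have := finrank_span_finset_le_card (R := K) ({l, w} : Finset (Poly3 K))
        simp only [Finset.coe_insert, Finset.coe_singleton] at this
        exact this.trans Finset.card_le_two
      have h4 := finrank_homS_succ (K := K) 0
      have h5 := finrank_homS (K := K) 0
      rw [show ((0 : ℕ) : ℤ) + 1 = 1 from rfl, show triNum 1 = 1 from rfl] at h5
      simp only [Nat.cast_zero] at h4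
      zify at h2 h3
      linarith
    by_cases hA : Function.Injective (μ m0)
    swap
    · exact ⟨m0, hm0, fun α => by simpa using hnl 1 0 α (Or.inl one_ne_zero), hA⟩
    have hA' : Function.Surjective (μ m0) :=
      (LinearMap.injective_iff_surjective_of_finrank_eq_finrank
        (by rw [finrank_fin_fun, finrank_fin_fun, hdim])).1 hA
    let E := LinearEquiv.ofBijective (μ m0) ⟨hA, hA'⟩
    have : Nonempty (Fin (finrank K (homS K (e + 1)) - finrank K Z)) :=
      Fin.pos_iff_nonempty.1 (by unfold cod at hpos; omega)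
    obtain ⟨τ, hτ⟩ := Module.End.exists_eigenvalue (E.symm.toLinearMap ∘ₗ μ m1)
    obtain ⟨v, hv⟩ := hτ.exists_hasEigenvector
    refine ⟨(-τ) • m0 + (1 : K) • m1, ?_, fun α => hnl _ _ α (Or.inr one_ne_zero), fun hinj' => ?_⟩
    · rw [smul_eq_C_mul, smul_eq_C_mul]; exact (hm0.C_mul _).add (hm1.C_mul _)
    have h1 : μ m1 v = τ • μ m0 v := by
      have := congrArg E (Module.End.mem_eigenspace_iff.1 hv.1)
      rw [LinearMap.comp_apply, map_smul] at this
      rw [LinearEquiv.coe_coe, E.apply_symm_apply] at this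
      exact this
    refine hv.2 (hinj' ?_)
    rw [map_zero]
    simp only [μ, LinearMap.comp_apply, LinearMap.mulLeft_apply, add_mul, smul_mul_assoc,
      map_add, map_smul] at h1 ⊢
    rw [h1, one_smul, neg_smul, neg_add_cancel]
  obtain ⟨q, hq, hql, hqL⟩ := exists_common_zero hl hL
  obtain ⟨m', hm', hm'q, hgen', -⟩ := exists_second hl hl0 hq hql
  have hsur : Function.Surjective (μ m') := by
    rcases hline q hq hql with hf | hf
    · exact mul_surjective cZ cX hmul hline' hJ hq hm' hgen' C3.fa_mem C3.homA (by omega) hf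
    · exact mul_surjective cZ cX hmul hline' hJ hq hm' hgen' C3.fb_mem C3.homB (by omega) hf
  obtain ⟨α, β, hLeq⟩ := hgen' L hL hqL
  have hμl : μ l = 0 := by
    refine LinearMap.ext fun v => cX.proj_zero _ (hline' ⟨cZ.sec v, cZ.sec_mem v, rfl⟩)
  have hμ : μ L = β • μ m' := by
    refine LinearMap.ext fun v => ?_
    have := LinearMap.congr_fun hμl v
    simp only [μ, LinearMap.comp_apply, LinearMap.mulLeft_apply, LinearMap.zero_apply] at this
    simp only [μ, hLeq, LinearMap.smul_apply, LinearMap.comp_apply, LinearMap.mulLeft_apply,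
      add_mul, smul_mul_assoc, map_add, map_smul, this, smul_zero, zero_add]
  rcases eq_or_ne β 0 with rfl | hβ
  · exact hLl α (by simpa using hLeq)
  · exact hLsing (by rw [hμ]; exact (smul_right_injective _ hβ).comp (hbij m' hsur))

lemma quot_le_small {e : ℕ} {l : Poly3 K} (hl : l.IsHomogeneous 1) (hl0 : l ≠ 0)
    {p : Fin 3 → K} (hp : p ≠ 0) (hpl : eval p l = 0)
    {Z Xl : Submodule K (Poly3 K)} (hZ : Z ≤ homS K (e + 1)) (hXl : Xl ≤ homS K (e + 1 + 1))
    (hmul : ∀ g u : Poly3 K, g.IsHomogeneous 1 → u ∈ Z → g * u ∈ Xl)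
    (hline' : (homS K (e + 1)).map (LinearMap.mulLeft K l) ≤ Xl)
    (hrle : cod (e + 1) Z ≤ (e : ℤ) + 1) :
    cod (e + 1 + 1) Xl ≤ cod (e + 1) Z := by
  have : FiniteDimensional K Z := Submodule.finiteDimensional_of_le hZ
  have : FiniteDimensional K Xl := Submodule.finiteDimensional_of_le hXl
  set φ := LinearMap.mulLeft K l with hφ
  have hinj : Function.Injective φ := fun a b hab => mul_left_cancel₀ hl0 hab
  have heq : ∀ N : Submodule K (Poly3 K), finrank K (N.map φ) = finrank K N := fun N =>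
    ((Submodule.equivMapOfInjective φ hinj N).finrank_eq).symm
  obtain ⟨m, hm, hmp, hgen, hml⟩ := exists_second hl hl0 hp hpl
  have hpr := prime_of_linear hl hl0
  set ψ := LinearMap.mulLeft K m with hψ
  have hm0' : m ≠ 0 := fun h0 => hml (by rw [h0]; exact dvd_zero l)
  have hinjm : Function.Injective ψ := fun a b hab => mul_left_cancel₀ hm0' hab
  set N := Z.map ψ ⊔ (homS K (e + 1)).map φ with hNdef
  have hN : N ≤ Xl := sup_le (by rintro _ ⟨u, hu, rfl⟩; exact hmul m u hm hu) hline'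
  have hinf : Z.map ψ ⊓ (homS K (e + 1)).map φ ≤ ((homS K e).map φ).map ψ := by
    rintro _ ⟨⟨z, hz, rfl⟩, v, hv, hvz⟩
    simp only [hφ, hψ, LinearMap.mulLeft_apply] at hvz
    have hd : l ∣ z := (hpr.dvd_or_dvd ⟨v, hvz.symm⟩).resolve_left hml
    obtain ⟨r, rfl⟩ := hd
    refine ⟨l * r, ⟨homogeneousComponent e r, homogeneousComponent_mem _ _, ?_⟩, rfl⟩
    have := congrArg (homogeneousComponent (e + 1)) (rfl : l * r = l * r)
    rw [homogeneousComponent_mul_left hl, if_pos (by omega), Nat.add_sub_cancel] at this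
    rw [← homogeneousComponent_eq_self (hZ hz), homogeneousComponent_mul_left hl,
      if_pos (by omega), Nat.add_sub_cancel]
    rfl
  have hlt : N < Xl := by
    refine lt_of_le_of_ne hN fun heqN => ?_
    have hprime : (Ideal.span {l}).IsPrime := (Ideal.span_singleton_prime hl0).2 hpr
    obtain ⟨j, hj⟩ := Function.ne_iff.1 hp
    refine det_trick (p := p) hprime (fun g hg => ?_) ?_ (n := X j) (by simpa using hj) (Z := Z) ?_
    · obtain ⟨r, rfl⟩ := Ideal.mem_span_singleton.1 hg
      simp [hpl]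
    · by_contra hcon
      push Not at hcon
      have hZl : Z ≤ (homS K e).map φ := by
        intro z hz
        obtain ⟨r, hrz⟩ := Ideal.mem_span_singleton.1 (hcon z hz)
        refine ⟨homogeneousComponent e r, homogeneousComponent_mem _ _, ?_⟩
        have := congrArg (homogeneousComponent (e + 1)) hrz
        rw [homogeneousComponent_eq_self (hZ hz), homogeneousComponent_mul_left hl,
          if_pos (by omega), Nat.add_sub_cancel] at this
        exact this.symm
      have e1 := Submodule.finrank_mono hZl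
      rw [heq] at e1
      have e2 := finrank_homS_succ (K := K) e
      unfold cod at hrle
      zify at e1
      linarith
    · intro z hz
      have hmem : X j * z ∈ N := heqN ▸ hmul _ z (isHomogeneous_X K j) hz
      obtain ⟨_, ⟨z', hz', rfl⟩, _, ⟨v, -, rfl⟩, hsum⟩ := Submodule.mem_sup.1 hmem
      obtain ⟨w, hw, hw0, hwm⟩ := exists_dotX_eq hp (T := 0) hm hmp
      obtain ⟨ω, hω, hω'⟩ := exists_cross hp hw0
      have hc : ∀ i, ∃ c : K, ω i = C c := fun i => by
        have := hω' (homS K 0) hw i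
        exact ⟨_, totalDegree_eq_zero_iff_eq_C.1 ((totalDegree_zero_iff_isHomogeneous _).2 this)⟩
      choose c hc using hc
      refine ⟨fun i => c i • z', fun i => Z.smul_mem _ hz', ?_⟩
      rw [Ideal.mem_span_singleton]
      refine ⟨v, ?_⟩
      have hmsum : m = ∑ i, cf p i * C (c i) := by
        rw [← hwm, ← hω, dotX_cross]
        exact Finset.sum_congr rfl fun i _ => by rw [hc]
      simp only [hφ, hψ, LinearMap.mulLeft_apply] at hsum
      rw [← hsum, hmsum, Finset.sum_mul]
      simp only [smul_eq_C_mul, mul_assoc]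
      ring
  have e1 := Submodule.finrank_sup_add_finrank_inf_eq (Z.map ψ) ((homS K (e + 1)).map φ)
  have e2 := Submodule.finrank_mono hinf
  have e3 := Submodule.finrank_lt_finrank_of_lt hlt
  have e4 : finrank K (Z.map ψ) = finrank K Z :=
    ((Submodule.equivMapOfInjective ψ hinjm _).finrank_eq).symm
  have e5 : finrank K (((homS K e).map φ).map ψ) = finrank K (homS K e) :=
    (((Submodule.equivMapOfInjective ψ hinjm _).finrank_eq).symm).trans (heq _)
  rw [heq] at e1
  rw [← hNdef] at e1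
  have e6 := finrank_homS_succ (K := K) e
  have e7 := finrank_homS_succ (K := K) (e + 1)
  change finrank K N < finrank K Xl at e3
  unfold cod
  push_cast at e7
  zify at e1 e2 e3 e4 e5
  linarith

lemma line_dims {e : ℕ} {W U Xc X1 Z Xl : Submodule K (Poly3 K)} {l : Poly3 K}
    (h : C3.Sub (e + 1) W) (hl : l.IsHomogeneous 1) (hl0 : l ≠ 0)
    (hU : U = homS K e ⊓ W.comap (LinearMap.mulLeft K l))
    (hX : Xc = C3.up (e + 1) W)
    (hZdef : Z = W ⊔ (homS K e).map (LinearMap.mulLeft K l))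
    (hXldef : Xl = Xc ⊔ (homS K (e + 1)).map (LinearMap.mulLeft K l))
    (hX1 : X1 = C3.up e U) :
    (cod e U = cod (e + 1) W - cod (e + 1) Z) ∧
    (cod (e + 1 + 1) Xc ≤ cod (e + 1 + 1) Xl + cod (e + 1) X1) ∧
    (cod (e + 1 + 1) Xc ≤ cod (e + 1 + 1) Xl + cod (e + 1) W) ∧
    (cod (e + 1) Z ≤ (e : ℤ) + 2) ∧
    (cod (e + 1 + 1) Xl ≤ (e : ℤ) + 3) := by
  have := h.finite
  have hUs : C3.Sub e U := by
    rw [hU]
    exact ⟨fun u hu => ⟨hu.1, h.1 (mem_degPart.2
      ⟨mul_homS hl hu.1, Ideal.mul_mem_left _ _ hu.2⟩)⟩, inf_le_left⟩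
  have : FiniteDimensional K Xc := hX ▸ Submodule.finiteDimensional_of_le (up_le h)
  set φ := LinearMap.mulLeft K l with hφ
  have hinj : Function.Injective φ := fun a b hab => mul_left_cancel₀ hl0 hab
  have heq : ∀ N : Submodule K (Poly3 K), finrank K (N.map φ) = finrank K N := fun N =>
    ((Submodule.equivMapOfInjective φ hinj N).finrank_eq).symm
  have : FiniteDimensional K Z := hZdef ▸ Submodule.finiteDimensional_of_le
    (sup_le h.2 (by rintro _ ⟨u, hu, rfl⟩; exact mul_homS hl hu) : _ ≤ homS K (e + 1))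
  have : FiniteDimensional K Xl := hXldef ▸ hX ▸ Submodule.finiteDimensional_of_le
    (sup_le (up_le h) (by rintro _ ⟨u, hu, rfl⟩; exact mul_homS hl hu) : _ ≤ homS K (e + 1 + 1))
  have eU : cod e U = cod (e + 1) W - cod (e + 1) Z := by
    have e1 := finrank_inf_comap φ (homS K e) W
    have e2 := Submodule.finrank_sup_add_finrank_inf_eq W ((homS K e).map φ)
    rw [inf_comm] at e2
    rw [heq] at e1 e2
    unfold cod
    rw [hU, hZdef]
    zify at e1 e2
    linarith
  have ex1 : cod (e + 1 + 1) Xc ≤ cod (e + 1 + 1) Xl + cod (e + 1) X1 := by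
    have hsub : X1.map φ ≤ Xc ⊓ (homS K (e + 1)).map φ := by
      refine le_inf ?_ (Submodule.map_mono (hX1 ▸ up_le hUs))
      rintro _ ⟨u, hu, rfl⟩
      rw [SetLike.mem_coe, hX1] at hu
      obtain ⟨ws, hws, hJ⟩ := mem_sup_iSup_map hu
      rw [hX]
      rw [hφ, LinearMap.mulLeft_apply, show l * u = l * (u - ∑ i, X i * ws i) +
        ∑ i, X i * (l * ws i) by rw [mul_sub, Finset.mul_sum]; simp only [mul_left_comm l]; ring]
      refine add_mem (Submodule.mem_sup_right (mem_degPart.2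
        ⟨mul_homS hl hJ.1, Ideal.mul_mem_left _ _ hJ.2⟩)) (sum_mem fun i _ => ?_)
      exact X_mul_mem_up (show l * ws i ∈ W by have := hws i; rw [hU] at this; exact this.2) i
    have e1 := Submodule.finrank_sup_add_finrank_inf_eq Xc ((homS K (e + 1)).map φ)
    have : FiniteDimensional K ↥(Xc ⊓ (homS K (e + 1)).map φ) :=
      Submodule.finiteDimensional_of_le inf_le_left
    have e2 := Submodule.finrank_mono hsub
    rw [heq] at e1 e2
    unfold cod
    rw [hXldef]
    zify at e1 e2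
    linarith
  obtain ⟨cW⟩ := exists_coords (homS K (e + 1)) W h.2
  have ex2 : cod (e + 1 + 1) Xc ≤ cod (e + 1 + 1) Xl + cod (e + 1) W := by
    have hsub : Xl ≤ Xc ⊔ LinearMap.range (φ ∘ₗ cW.sec) := by
      rw [hXldef]
      refine sup_le le_sup_left ?_
      rintro _ ⟨u, hu, rfl⟩
      rw [hφ, LinearMap.mulLeft_apply,
        show l * u = l * (u - cW.sec (cW.proj u)) + l * cW.sec (cW.proj u) by ring]
      exact Submodule.add_mem_sup (hX ▸ linear_mul_mem_up hl (cW.sub_mem hu)) ⟨cW.proj u, rfl⟩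
    have e1 := Submodule.finrank_mono hsub
    have e2 := Submodule.finrank_add_le_finrank_add_finrank Xc (LinearMap.range (φ ∘ₗ cW.sec))
    have e3 := LinearMap.finrank_range_le (φ ∘ₗ cW.sec)
    rw [finrank_fin_fun] at e3
    have e4 : finrank K W ≤ finrank K (homS K (e + 1)) := Submodule.finrank_mono h.2
    unfold cod
    zify [e4] at e1 e2 e3
    linarith
  have hr : cod (e + 1) Z ≤ (e : ℤ) + 2 := by
    have e1 : finrank K ((homS K e).map φ) ≤ finrank K Z :=
      Submodule.finrank_mono (by rw [hZdef]; exact le_sup_right)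
    rw [heq] at e1
    have e2 := finrank_homS_succ (K := K) e
    unfold cod
    zify at e1
    linarith
  have hr' : cod (e + 1 + 1) Xl ≤ (e : ℤ) + 3 := by
    have e1 : finrank K ((homS K (e + 1)).map φ) ≤ finrank K Xl :=
      Submodule.finrank_mono (by rw [hXldef]; exact le_sup_right)
    rw [heq] at e1
    have e2 := finrank_homS_succ (K := K) (e + 1)
    unfold cod
    push_cast at e2
    zify at e1
    linarith
  exact ⟨eU, ex1, ex2, hr, hr'⟩

lemma lowBound_succ [IsAlgClosed K] {e : ℕ} (hc : e + 2 < C3.c) (ih : LowBound C3 e) :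
    LowBound C3 (e + 1) := by
  intro W h k hk
  obtain ⟨l, hl, hl0, hln, hline, p, hp, hpl, hpa⟩ := C3.exists_good_line
  have htwo := C3.two_le; have hab := C3.hab; have hbc := C3.hbc
  rcases hk with hk | hk
  swap
  · have h1 := cod_up_le_dimA h hl hl0 hln hc
    have h2 := C3.dimA_diff ((e + 1 : ℕ) : ℤ)
    unfold mPos at hk
    push_cast at h1 h2 hk ⊢
    omega
  have := h.finite
  set Xc := C3.up (e + 1) W with hX
  have : FiniteDimensional K Xc := Submodule.finiteDimensional_of_le (up_le h)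
  set φ := LinearMap.mulLeft K l with hφ
  have hinj : Function.Injective φ := fun a b hab => mul_left_cancel₀ hl0 hab
  have heq : ∀ N : Submodule K (Poly3 K), finrank K (N.map φ) = finrank K N := fun N =>
    ((Submodule.equivMapOfInjective φ hinj N).finrank_eq).symm
  -- the colon space
  set U := homS K e ⊓ W.comap φ with hU
  have hUs : C3.Sub e U := ⟨fun u hu => ⟨hu.1, h.1 (mem_degPart.2
    ⟨mul_homS hl hu.1, Ideal.mul_mem_left _ _ hu.2⟩)⟩, inf_le_left⟩
  set X1 := C3.up e U with hX1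
  set Z := W ⊔ (homS K e).map φ with hZdef
  set Xl := Xc ⊔ (homS K (e + 1)).map φ with hXldef
  have hZle : Z ≤ homS K (e + 1) :=
    sup_le h.2 (by rintro _ ⟨u, hu, rfl⟩; exact mul_homS hl hu)
  have hXlle : Xl ≤ homS K (e + 1 + 1) :=
    sup_le (up_le h) (by rintro _ ⟨u, hu, rfl⟩; exact mul_homS hl hu)
  have : FiniteDimensional K Z := Submodule.finiteDimensional_of_le hZle
  have : FiniteDimensional K Xl := Submodule.finiteDimensional_of_le hXlle
  have hmulXl : ∀ g u : Poly3 K, g.IsHomogeneous 1 → u ∈ Z → g * u ∈ Xl := by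
    intro g u hg hu
    obtain ⟨w, hw, z, ⟨v, hv, rfl⟩, rfl⟩ := Submodule.mem_sup.1 hu
    rw [mul_add]
    refine Submodule.add_mem_sup (linear_mul_mem_up hg hw) ⟨g * v, mul_homS hg hv, ?_⟩
    simp only [hφ, LinearMap.mulLeft_apply]
    ring
  obtain ⟨eU, ex1, ex2, hr, hr'⟩ := line_dims (C3 := C3) h hl hl0 hU hX hZdef hXldef hX1
  have hline' : (homS K (e + 1)).map φ ≤ Xl := le_sup_right
  have hJX : degPart (e + 1 + 1) C3.idJ ≤ Xl := le_sup_right.trans le_sup_left
  have hi := quot_le (C3 := C3) hl hl0 hp hpl hpa hZle hXlle hmulXl hline' hJX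
  have hii := quot_lt (C3 := C3) hl hl0 hline hp hpl hpa hZle hXlle hmulXl hline' hJX
  have hiii := quot_le_small hl hl0 hp hpl hZle hXlle hmulXl hline'
  -- induction
  have hUn := cod_nonneg (hUs.2)
  have hn2 := cod_nonneg hZle
  have ihU : ∀ k' : ℕ,
      (cod e U < boxCount C3.b C3.c e (min C3.a (mPos C3.a C3.b e + k' + 1)) ∨
        min (C3.a : ℤ) (e + 2) ≤ mPos C3.a C3.b e + k') →
      cod (e + 1) X1 ≤ cod e U + k' := fun k' => ih U hUs k'
  set h0 := cod (e + 1) W with hh0
  set r := cod (e + 1) Z with hrdef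
  set r' := cod (e + 1 + 1) Xl with hr'def
  have cast_e : ((e + 1 : ℕ) : ℤ) = (e : ℤ) + 1 := by push_cast; ring
  rw [cast_e] at hk
  have hb1 : (1 : ℤ) ≤ C3.b := by omega
  have hbc' : (C3.b : ℤ) ≤ C3.c := by omega
  set i0 := min C3.a (mPos C3.a C3.b ((e : ℤ) + 1) + k + 1) with hi0
  have hdiff := boxCount_diff hb1 hbc' (e : ℤ) i0
  by_contra hgoal
  by_cases hB : C3.b ≤ e + 2
  · have hR : k + 1 ≤ r' := by omega
    have hr1 : 0 < r := by have := hi (by omega); omega
    have hlt := hii hB hr1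
    have hcond : cod e U < boxCount C3.b C3.c e (min C3.a (mPos C3.a C3.b e + (k + 1) + 1)) ∨
        min (C3.a : ℤ) (e + 2) ≤ (mPos C3.a C3.b e : ℕ) + ((k + 1 : ℕ) : ℤ) := by
      by_cases hbig : (C3.a : ℤ) ≤ (mPos C3.a C3.b (e : ℤ) : ℕ) + ((k + 1 : ℕ) : ℤ)
      · exact Or.inr (le_trans (min_le_left _ _) hbig)
      refine Or.inl ?_
      have hi' : min C3.a (mPos C3.a C3.b e + (k + 1) + 1) = i0 := by
        rw [hi0]; unfold mPos at hbig ⊢; push_cast at hbig; omega
      rw [hi']
      unfold mPos at hi0 hbig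
      push_cast at hbig
      omega
    have := ihU (k + 1) hcond
    push_cast at this
    omega
  by_cases hA : C3.a ≤ e + 2
  · have hlt := hi hA
    have := ihU k (Or.inl (by
      have hi' : min C3.a (mPos C3.a C3.b e + k + 1) = i0 := by
        rw [hi0]; unfold mPos; omega
      rw [hi']
      unfold mPos at hi0
      omega))
    omega
  by_cases hr1 : r ≤ (e : ℤ) + 1
  · have hlt := hiii hr1
    have := ihU k (Or.inl (by
      have hi' : min C3.a (mPos C3.a C3.b e + k + 1) = i0 := by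
        rw [hi0]; unfold mPos; omega
      rw [hi']
      unfold mPos at hi0
      omega))
    omega
  · have hmp : mPos C3.a C3.b ((e : ℤ) + 1) = 0 ∧ mPos C3.a C3.b (e : ℤ) = 0 := by
      unfold mPos; omega
    by_cases hk0 : k = 0
    · subst hk0
      rw [hi0, hmp.1] at hk
      have h1 : min C3.a (0 + 0 + 1) = 1 := by omega
      rw [h1, boxCount_succ, boxCount_zero] at hk
      unfold sz at hk
      push_cast at hk
      omega
    obtain ⟨k, rfl⟩ := Nat.exists_eq_succ_of_ne_zero hk0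
    have := ihU k ?_
    · push_cast at hgoal
      omega
    by_cases hka : (C3.a : ℤ) ≤ k ∨ (e : ℤ) + 2 ≤ k
    · refine Or.inr ?_
      rw [hmp.2]
      omega
    refine Or.inl ?_
    rw [hi0, hmp.1] at hk
    rw [hmp.2, show min C3.a (0 + k + 1) = k + 1 by omega]
    rw [show min C3.a (0 + (k + 1) + 1) = k + 1 + 1 by omega, boxCount_succ] at hk
    have hd := boxCount_diff hb1 hbc' (e : ℤ) (k + 1)
    unfold sz at hk
    push_cast at hk hd
    omega

lemma lowBound [IsAlgClosed K] : ∀ d : ℕ, d + 1 < C3.c → LowBound C3 d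
  | 0, h => lowBound_zero h
  | e + 1, h => lowBound_succ h (lowBound e (by omega))

end CI3

end Vale.Agent.P200
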