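import Vale.Agent.P200.Setup
import Vale.Agent.P200.DetQuot

/-!
One-dimensional Koszul homology along all pencils yields a syzygy of too small degree.
-/

namespace Vale.Agent.P200

open MvPolynomial Module

variable {K : Type*} [Field K]

namespace CI3

/-- Forms in an array. -/
noncomputable def form (C3 : CI3 K) : Fin 3 → Poly3 K := ![C3.fa, C3.fb, C3.fc]

/-- Degrees in an array. -/
def deg3 (C3 : CI3 K) : Fin 3 → ℕ := ![C3.a, C3.b, C3.c]

variable {C3 : CI3 K} {d : ℕ} {W : Submodule K (Poly3 K)}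

lemma form_homogeneous (l : Fin 3) : (C3.form l).IsHomogeneous (C3.deg3 l) := by
  fin_cases l <;> simp [form, deg3, C3.homA, C3.homB, C3.homC]

lemma deg3_le (l : Fin 3) : C3.deg3 l ≤ C3.c := by
  have := C3.hab; have := C3.hbc
  fin_cases l <;> simp [deg3] <;> omega

lemma form_mem (l : Fin 3) : C3.form l ∈ C3.idJ := by
  fin_cases l <;> simp [form, C3.fa_mem, C3.fb_mem, C3.fc_mem]

lemma eq_zero_of_mem_idB {u : Poly3 K} (hu : u ∈ C3.idB) (hdeg : u.totalDegree < C3.a) :
    u = 0 := by
  rw [← sum_homogeneousComponent u]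
  refine Finset.sum_eq_zero fun i hi => ?_
  rw [Finset.mem_range] at hi
  have : homogeneousComponent i u ∈ degPart i C3.idJ :=
    mem_degPart.2 ⟨homogeneousComponent_isHomogeneous i u, C3.homogI_idJ u (C3.idB_le hu) i⟩
  rwa [C3.degPart_idJ_of_lt (by omega), Submodule.mem_bot] at this

/-- A pair of degree-bounded forms completing a relation must vanish. -/
lemma no_small_syzygy {x y z : Poly3 K} (h : C3.fc * x - C3.fb * y + C3.fa * z = 0)
    (hx : x.totalDegree < C3.a) (hy : y.totalDegree < C3.a) : x = 0 ∧ y = 0 := by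
  have hfa : C3.fa ∈ Ideal.span {C3.fa} := Ideal.mem_span_singleton_self _
  have h1 : C3.fc * x ∈ C3.idB := by
    rw [show C3.fc * x = C3.fb * y - C3.fa * z by linear_combination h]
    exact sub_mem (Ideal.mem_sup_left (Ideal.mul_mem_right _ _ (Ideal.mem_span_singleton_self _)))
      (Ideal.mem_sup_right (Ideal.mul_mem_right _ _ hfa))
  have hx0 := eq_zero_of_mem_idB (C3.nzdC x h1) hx
  refine ⟨hx0, eq_zero_of_mem_idB (Ideal.mem_sup_right (C3.nzdB y ?_)) hy⟩
  rw [show C3.fb * y = C3.fa * z by rw [hx0] at h; linear_combination -h]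
  exact Ideal.mul_mem_right _ _ hfa

/-- Forms of degree `d` whose multiples by all variables lie in `W`. -/
noncomputable def colon (d : ℕ) (W : Submodule K (Poly3 K)) : Submodule K (Poly3 K) :=
  homS K d ⊓ ⨅ i : Fin 3, W.comap (LinearMap.mulLeft K (X i))

lemma mem_colon {u : Poly3 K} :
    u ∈ colon d W ↔ u.IsHomogeneous d ∧ ∀ i, X i * u ∈ W := by
  simp [colon, Submodule.mem_iInf]

lemma colon_sub (h : C3.Sub (d + 1) W) : C3.Sub d (colon d W) :=
  ⟨fun u hu => mem_colon.2 ⟨hu.1, fun i => h.1 (mem_degPart.2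
    ⟨mul_homS (isHomogeneous_X K i) hu.1, Ideal.mul_mem_left _ _ hu.2⟩)⟩, inf_le_left⟩

lemma up_colon_le (h : C3.Sub (d + 1) W) : C3.up d (colon d W) ≤ W := by
  refine sup_le (iSup_le fun i => ?_) h.1
  rintro _ ⟨u, hu, rfl⟩
  exact (mem_colon.1 hu).2 i

lemma mem_colon_of_cf {p : Fin 3 → K} (hz : C3.ZGood p (d + 1) W) {u : Poly3 K}
    (hu : u.IsHomogeneous d) (hmem : ∀ i, cf p i * u ∈ W) : u ∈ colon d W :=
  mem_colon.2 ⟨hu, fun i => hz _ (mul_homS (isHomogeneous_X K i) hu) fun l => by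
    rw [mul_left_comm]
    exact linear_mul_mem_up (isHomogeneous_X K i) (hmem l)⟩

section Coordinates

variable (cd : Coords (homS K (d + 1)) W) (cx : Coords (homS K (d + 2)) (C3.up (d + 1) W))
  (cu : Coords (homS K d) (colon d W))

/-- Row index. -/
abbrev RowIx (K : Type*) [Field K] (d : ℕ) (W : Submodule K (Poly3 K)) :=
  Fin 3 × Fin (finrank K (homS K (d + 1)) - finrank K W)

/-- Index of the columns of a complement. -/
abbrev TgtIx (C3 : CI3 K) (d : ℕ) (W : Submodule K (Poly3 K)) :=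
  Fin (finrank K (homS K (d + 1)) - finrank K W) ⊕
    Fin (finrank K (homS K (d + 2)) - finrank K (C3.up (d + 1) W))

/-- Coordinates of a triple. -/
noncomputable def vecOf : (Fin 3 → Poly3 K) →ₗ[K] (RowIx K d W → K) where
  toFun w r := cd.proj (w r.1) r.2
  map_add' v w := by ext r; simp
  map_smul' c w := by ext r; simp

/-- A triple with given coordinates. -/
noncomputable def secOf : (RowIx K d W → K) →ₗ[K] (Fin 3 → Poly3 K) where
  toFun v i := cd.sec fun t => v (i, t)
  map_add' v w := by ext i : 1; exact map_add cd.sec (fun t => v (i, t)) fun t => w (i, t)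
  map_smul' c v := by ext i : 1; exact map_smul cd.sec c fun t => v (i, t)

/-- The map `w ↦ (p · w, x · w)` in coordinates. -/
noncomputable def psiOf (p : Fin 3 → K) : (RowIx K d W → K) →ₗ[K] (TgtIx C3 d W → K) where
  toFun v := Sum.elim (fun t => ∑ i, p i * v (i, t)) (cx.proj (dotX (secOf cd v)))
  map_add' v w := by
    ext (t | t)
    · simp [mul_add, Finset.sum_add_distrib]
    · simp [map_add, dotX_add]
  map_smul' c v := by
    ext (t | t)
    · simp [Finset.mul_sum, mul_left_comm]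
    · simp [map_smul, dotX_smul]

/-- Koszul columns. -/
noncomputable def kosCol (p : Fin 3 → K)
    (k : Fin (finrank K (homS K d) - finrank K (colon d W))) : RowIx K d W → K :=
  vecOf cd fun i => cf p i * cu.sec (Pi.single k 1)

variable {cd cx cu}

lemma vecOf_secOf (v : RowIx K d W → K) : vecOf cd (secOf cd v) = v := by
  ext ⟨i, t⟩
  show cd.proj (cd.sec fun t => v (i, t)) t = v (i, t)
  rw [cd.proj_sec]

lemma secOf_mem (v : RowIx K d W → K) (i : Fin 3) : (secOf cd v i).IsHomogeneous (d + 1) :=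
  cd.sec_mem _

lemma psiOf_vecOf_eq_zero {p : Fin 3 → K} {w : Fin 3 → Poly3 K}
    (hw : ∀ i, (w i).IsHomogeneous (d + 1)) (h1 : dotP p w ∈ W)
    (h2 : dotX w ∈ C3.up (d + 1) W) : psiOf cd cx p (vecOf cd w) = 0 := by
  ext (t | t)
  · show ∑ i, p i * cd.proj (w i) t = 0
    have := congrFun (cd.proj_zero _ h1) t
    simpa [dotP, ← smul_eq_C_mul, map_sum, map_smul, Finset.sum_apply] using this
  · show cx.proj (dotX (secOf cd (vecOf cd w))) t = 0
    have hdiff : dotX w - dotX (secOf cd (vecOf cd w)) ∈ C3.up (d + 1) W := by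
      rw [← dotX_sub]
      exact sum_mem fun i _ => X_mul_mem_up (cd.sub_mem (hw i)) i
    have h3 : dotX (secOf cd (vecOf cd w)) ∈ C3.up (d + 1) W := by
      have := sub_mem h2 hdiff
      rwa [sub_sub_cancel] at this
    exact congrFun (cx.proj_zero _ h3) t

lemma dotP_secOf_mem {p : Fin 3 → K} {v : RowIx K d W → K} (hv : psiOf cd cx p v = 0) :
    dotP p (secOf cd v) ∈ W := by
  refine cd.mem_of_proj _ ?_ (funext fun t => ?_)
  · exact IsHomogeneous.sum _ _ _ fun i _ => (secOf_mem v i).C_mul _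
  · have := congrFun hv (Sum.inl t)
    simpa [psiOf, dotP, ← smul_eq_C_mul, map_sum, map_smul, Finset.sum_apply, secOf,
      cd.proj_sec] using this

lemma dotX_secOf_mem {p : Fin 3 → K} {v : RowIx K d W → K} (hv : psiOf cd cx p v = 0) :
    dotX (secOf cd v) ∈ C3.up (d + 1) W :=
  cx.mem_of_proj _ (dotX_homogeneous (secOf_mem v)) (funext fun t => congrFun hv (Sum.inr t))

lemma psiOf_kosCol (p : Fin 3 → K) (k) : psiOf cd cx p (kosCol cd cu p k) = 0 :=
  psiOf_vecOf_eq_zero (fun i => mul_homS (cf_homogeneous p i) (cu.sec_mem _))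
    (by rw [dotP_cf]; exact zero_mem _) (by rw [dotX_cf]; exact zero_mem _)

lemma vecOf_mem_span (h : C3.Sub (d + 1) W) (p : Fin 3 → K) {γ : Poly3 K}
    (hγ : γ.IsHomogeneous d) :
    vecOf cd (fun i => cf p i * γ) ∈ Submodule.span K (Set.range (kosCol cd cu p)) := by
  have hdec : vecOf cd (fun i => cf p i * γ) = ∑ k, cu.proj γ k • kosCol cd cu p k := by
    simp only [kosCol, ← map_smul, ← map_sum]
    ext ⟨i, t⟩
    show cd.proj (cf p i * γ) t = cd.proj ((∑ k, cu.proj γ k • fun i => cf p i *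
      cu.sec (Pi.single k 1)) i) t
    have hs : (∑ k, cu.proj γ k • fun i => cf p i * cu.sec (Pi.single k 1)) i =
        cf p i * cu.sec (cu.proj γ) := by
      rw [Finset.sum_apply]
      simp only [Pi.smul_apply, ← mul_smul_comm, ← Finset.mul_sum, ← map_smul, ← map_sum]
      congr 1
      congr 1
      ext k
      simp [Finset.sum_apply, Pi.single_apply]
    rw [hs, ← sub_eq_zero, ← Pi.sub_apply, ← map_sub, ← mul_sub]
    refine congrFun (cd.proj_zero _ ?_) t
    have hU := (mem_colon.1 (cu.sub_mem hγ)).2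
    rw [linear_eq_sum (cf_homogeneous p i), Finset.sum_mul]
    refine sum_mem fun l _ => ?_
    rw [mul_assoc, ← smul_eq_C_mul]
    exact W.smul_mem _ (hU l)
  rw [hdec]
  exact sum_mem fun k _ => Submodule.smul_mem _ _ (Submodule.subset_span ⟨k, rfl⟩)

lemma kosCol_independent {p : Fin 3 → K} (hz : C3.ZGood p (d + 1) W) :
    LinearIndependent K (kosCol cd cu p) := by
  rw [Fintype.linearIndependent_iff]
  intro g hg
  have hsum : vecOf cd (fun i => cf p i * cu.sec g) = 0 := by
    rw [← hg]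
    simp only [kosCol, ← map_smul, ← map_sum]
    congr 1
    ext i : 1
    rw [Finset.sum_apply]
    simp only [Pi.smul_apply, ← mul_smul_comm, ← Finset.mul_sum, ← map_smul, ← map_sum]
    congr 2
    ext k
    simp [Finset.sum_apply, Pi.single_apply]
  have hU := mem_colon_of_cf hz (cu.sec_mem g) fun i =>
    cd.mem_of_proj _ (mul_homS (cf_homogeneous p i) (cu.sec_mem g))
      (funext fun t => congrFun hsum (i, t))
  intro k
  have := congrFun (cu.proj_zero _ hU) k
  rwa [cu.proj_sec] at this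

lemma vecOf_cycle_mem_span (h : C3.Sub (d + 1) W) (hd : C3.c ≤ d + 2) {p : Fin 3 → K} (hp : p ≠ 0)
    {w : Fin 3 → Poly3 K} (hw : ∀ i, (w i).IsHomogeneous (d + 1)) (h1 : dotP p w = 0)
    (u : Fin 3 → Poly3 K) (hu : ∀ l, (u l).IsHomogeneous (d + 2 - C3.deg3 l))
    (hu0 : ∀ l, eval p (u l) = 0) (hX : dotX w = ∑ l, u l * C3.form l) :
    vecOf cd w ∈ Submodule.span K (Set.range (kosCol cd cu p)) := by
  obtain ⟨γ, hγ, -, hγ'⟩ := cycle_koszul hp C3.form C3.deg3 form_homogeneous
    (fun l => (deg3_le l).trans hd) hw h1 u hu hu0 hX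
  have hJ : Ideal.span (Set.range C3.form) ≤ C3.idJ :=
    Ideal.span_le.2 (by rintro _ ⟨l, rfl⟩; exact form_mem l)
  have heq : vecOf cd w = vecOf cd (fun i => cf p i * γ) := by
    rw [← sub_eq_zero, ← map_sub]
    ext ⟨i, t⟩
    refine congrFun (cd.proj_zero _ (h.1 (mem_degPart.2 ⟨(hw i).sub ?_, hJ (hγ' i)⟩))) t
    exact mul_homS (cf_homogeneous p i) hγ
  rw [heq]
  exact vecOf_mem_span h p hγ

lemma psiOf_surjective (hd : C3.c ≤ d + 2) {p : Fin 3 → K} (hp : p ≠ 0) :
    Function.Surjective (psiOf cd cx p) := by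
  intro z
  obtain ⟨j, hj⟩ := Function.ne_iff.1 hp
  replace hj : p j ≠ 0 := hj
  let v1 : RowIx K d W → K := fun r => if r.1 = j then (p j)⁻¹ * z (Sum.inl r.2) else 0
  let g := cx.sec (fun t => z (Sum.inr t) - psiOf cd cx p v1 (Sum.inr t))
  obtain ⟨f, m, hfJ, hfh, hm, hfq⟩ : ∃ f m, f ∈ C3.idJ ∧ f.IsHomogeneous m ∧ m ≤ d + 2 ∧
      eval p f ≠ 0 := by
    have := C3.hab; have := C3.hbc
    rcases C3.exists_eval_ne hp with h | h | h
    · exact ⟨_, _, C3.fa_mem, C3.homA, by omega, h⟩
    · exact ⟨_, _, C3.fb_mem, C3.homB, by omega, h⟩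
    · exact ⟨_, _, C3.fc_mem, C3.homC, by omega, h⟩
  obtain ⟨w, hw, hw0, hwg⟩ := C3.pencil_fills hp hfJ hfh hm hfq (g := g) (cx.sec_mem _)
  refine ⟨v1 + vecOf cd w, ?_⟩
  have key : psiOf cd cx p (vecOf cd w) =
      Sum.elim (fun _ => (0 : K)) (fun t => z (Sum.inr t) - psiOf cd cx p v1 (Sum.inr t)) := by
    ext (t | t)
    · show ∑ i, p i * cd.proj (w i) t = 0
      have := congrFun (show cd.proj (dotP p w) = 0 by rw [hw0, map_zero]) t
      simpa [dotP, ← smul_eq_C_mul, map_sum, map_smul, Finset.sum_apply] using this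
    · show cx.proj (dotX (secOf cd (vecOf cd w))) t = _
      have hdiff : g - dotX (secOf cd (vecOf cd w)) ∈ C3.up (d + 1) W := by
        rw [show g - dotX (secOf cd (vecOf cd w)) =
          (g - dotX w) + dotX (w - secOf cd (vecOf cd w)) by rw [dotX_sub]; ring]
        exact add_mem (Submodule.mem_sup_right (mem_degPart.2
          ⟨IsHomogeneous.sub (cx.sec_mem _) (dotX_homogeneous hw), hwg⟩))
          (sum_mem fun i _ => X_mul_mem_up (cd.sub_mem (hw i)) i)
      have := congrFun (cx.proj_zero _ hdiff) t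
      rw [map_sub, Pi.sub_apply, Pi.zero_apply, sub_eq_zero] at this
      rw [← this, cx.proj_sec]
      rfl
  rw [map_add, key]
  ext (t | t)
  · show ∑ i, p i * v1 (i, t) + 0 = z (Sum.inl t)
    simp [v1, hj]
  · show psiOf cd cx p v1 (Sum.inr t) + (z (Sum.inr t) - _) = z (Sum.inr t)
    ring

lemma polyH_vecOf {n : ℕ} {F : (Fin 3 → K) → Fin 3 → Poly3 K} (hF : PolyVec n F)
    (r : RowIx K d W) : PolyH n fun p => vecOf cd (F p) r :=
  hF r.1 (LinearMap.proj r.2 ∘ₗ cd.proj)

lemma polyH_kosCol (k) (r : RowIx K d W) : PolyH 1 fun p => kosCol cd cu p k r := by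
  have : PolyH 1 fun p : Fin 3 → K =>
      ∑ j, vecOf cd (fun i => cf (Pi.single j (1 : K)) i * cu.sec (Pi.single k 1)) r * p j :=
    PolyH.sum _ fun j _ => (polyH_coord j).const_mul _
  refine this.congr fun p => ?_
  have e : (fun i => cf p i * cu.sec (Pi.single k 1)) =
      ∑ j, p j • fun i => cf (Pi.single j (1 : K)) i * cu.sec (Pi.single k 1) := by
    ext i : 1
    rw [Finset.sum_apply, cf_eq_sum p i, Finset.sum_mul]
    exact Finset.sum_congr rfl fun j _ => smul_mul_assoc _ _ _
  rw [kosCol, e, map_sum, Finset.sum_apply]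
  exact Finset.sum_congr rfl fun j _ => by rw [map_smul, Pi.smul_apply, smul_eq_mul, mul_comm]

lemma polyH_compMat (C : TgtIx C3 d W → RowIx K d W → K) :
    PolyH (finrank K (homS K (d + 1)) - finrank K W)
      fun p => (compMat (psiOf cd cx p) C).det := by
  have h := polyH_det (fun p => (compMat (psiOf cd cx p) C).transpose)
    (fun r => Sum.elim (fun _ => 1) (fun _ => 0) r) (fun s r => ?_)
  · simp only [Fintype.sum_sum_type, Sum.elim_inl, Sum.elim_inr, Finset.sum_const, Finset.card_univ,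
      Fintype.card_fin, smul_eq_mul, mul_one, mul_zero, add_zero] at h
    exact h.congr fun p => Matrix.det_transpose _
  rcases r with t | t
  · exact (PolyH.sum Finset.univ fun i _ => (polyH_coord i).const_mul (C s (i, t))).congr
      fun p => by simp [compMat, psiOf, mul_comm]
  · exact ⟨MvPolynomial.C (cx.proj (dotX (secOf cd (C s))) t), isHomogeneous_C _ _,
      fun p => by simp [compMat, psiOf]⟩

end Coordinates

/-- Cycles attached to two of the forms, depending polynomially on the point. -/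
lemma exists_classes (hd : C3.c ≤ d + 2) (j : Fin 3) :
    ∃ F : Fin 3 → (Fin 3 → K) → Fin 3 → Poly3 K,
      (∀ x, PolyVec (d + 2) (F x)) ∧ ∀ x p, (∀ i, (F x p i).IsHomogeneous (d + 1)) ∧
        dotP p (F x p) = 0 ∧ dotX (F x p) =
          C (p j ^ (d + 2)) * (X j ^ (d + 2 - C3.deg3 x) * C3.form x)
            - C (p j ^ (d + 2 - C3.deg3 x) * eval p (C3.form x)) * X j ^ (d + 2) := by
  have h : ∀ x, Decomposable j (d + 1) (X j ^ (d + 2 - C3.deg3 x) * C3.form x) := fun x => by
    refine decomposable j (d + 1) _ ?_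
    have := (isHomogeneous_X_pow (R := K) j (d + 2 - C3.deg3 x)).mul (form_homogeneous (C3 := C3) x)
    rwa [Nat.sub_add_cancel ((deg3_le x).trans hd)] at this
  choose F hF hF' using h
  refine ⟨F, hF, fun x p => ⟨(hF' x p).1, (hF' x p).2.1, ?_⟩⟩
  rw [(hF' x p).2.2]
  simp only [map_mul, map_pow, eval_X]

/-- Weighted cycle of the forms `x` and `y`. -/
noncomputable def classW (C3 : CI3 K) (d : ℕ) (j : Fin 3)
    (F : Fin 3 → (Fin 3 → K) → Fin 3 → Poly3 K) (x y : Fin 3) (p : Fin 3 → K) :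
    Fin 3 → Poly3 K :=
  (p j ^ (d + 2 - C3.deg3 y) * eval p (C3.form y)) • F x p
    - (p j ^ (d + 2 - C3.deg3 x) * eval p (C3.form x)) • F y p

/-- The exponent of `p j` clearing the cycle. -/
def expW (C3 : CI3 K) (d : ℕ) (x y : Fin 3) : ℕ :=
  (d + 2) + (d + 2 - C3.deg3 x) + (d + 2 - C3.deg3 y)

/-- Coefficients of the cycle on the forms. -/
noncomputable def classU (C3 : CI3 K) (d : ℕ) (j : Fin 3) (x y : Fin 3) (p : Fin 3 → K)
    (l : Fin 3) : Poly3 K :=
  C (p j ^ (d + 2)) * ((if l = x then C (p j ^ (d + 2 - C3.deg3 y) * eval p (C3.form y)) else 0)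
    - (if l = y then C (p j ^ (d + 2 - C3.deg3 x) * eval p (C3.form x)) else 0))
      * X j ^ (d + 2 - C3.deg3 l)

lemma classU_spec {j : Fin 3} {F : Fin 3 → (Fin 3 → K) → Fin 3 → Poly3 K}
    (hF : ∀ x p, (∀ i, (F x p i).IsHomogeneous (d + 1)) ∧ dotP p (F x p) = 0 ∧ dotX (F x p) =
      C (p j ^ (d + 2)) * (X j ^ (d + 2 - C3.deg3 x) * C3.form x)
        - C (p j ^ (d + 2 - C3.deg3 x) * eval p (C3.form x)) * X j ^ (d + 2))
    (x y : Fin 3) (p : Fin 3 → K) :
    (∀ i, (classW C3 d j F x y p i).IsHomogeneous (d + 1)) ∧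
    dotP p (classW C3 d j F x y p) = 0 ∧
    dotX (classW C3 d j F x y p) = ∑ l, classU C3 d j x y p l * C3.form l ∧
    (∀ l, (classU C3 d j x y p l).IsHomogeneous (d + 2 - C3.deg3 l)) ∧
    ∀ l, eval p (classU C3 d j x y p l) = p j ^ expW C3 d x y *
      ((if l = x then eval p (C3.form y) else 0) - (if l = y then eval p (C3.form x) else 0)) := by
  refine ⟨fun i => ?_, ?_, ?_, fun l => ?_, fun l => ?_⟩
  · simp only [classW, Pi.sub_apply, Pi.smul_apply, smul_eq_C_mul]
    exact (((hF x p).1 i).C_mul _).sub (((hF y p).1 i).C_mul _)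
  · rw [classW, dotP_sub, dotP_smul, dotP_smul, (hF x p).2.1, (hF y p).2.1, smul_zero, smul_zero,
      sub_zero]
  · rw [classW, dotX_sub, dotX_smul, dotX_smul, (hF x p).2.2, (hF y p).2.2]
    simp only [classU, mul_sub, sub_mul, Finset.sum_sub_distrib, mul_ite, ite_mul, mul_zero,
      zero_mul, Finset.sum_ite_eq', Finset.mem_univ, if_true, smul_eq_C_mul, C_mul]
    ring
  · have hz : ∀ (P : Prop) [Decidable P] (c : K),
        (if P then C c else 0 : Poly3 K).IsHomogeneous 0 := fun P _ c => by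
      split_ifs
      · exact isHomogeneous_C _ _
      · exact isHomogeneous_zero _ _ _
    have h1 := (isHomogeneous_C (Fin 3) (p j ^ (d + 2))).mul
      ((hz (l = x) (p j ^ (d + 2 - C3.deg3 y) * eval p (C3.form y))).sub
        (hz (l = y) (p j ^ (d + 2 - C3.deg3 x) * eval p (C3.form x))))
    have h2 := h1.mul (isHomogeneous_X_pow (R := K) j (d + 2 - C3.deg3 l))
    simp only [zero_add] at h2
    exact h2
  · unfold classU expW
    by_cases h1 : l = x <;> by_cases h2 : l = y
    · rw [if_pos h1, if_pos h2, if_pos h1, if_pos h2]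
      subst h1 h2
      simp
    · rw [if_pos h1, if_neg h2, if_pos h1, if_neg h2]
      subst h1
      simp [pow_add]
      ring
    · rw [if_neg h1, if_pos h2, if_neg h1, if_pos h2]
      subst h2
      simp [pow_add]
      ring
    · rw [if_neg h1, if_neg h2, if_neg h1, if_neg h2]
      simp

variable [IsAlgClosed K]

/-- Degree of the polynomial representing the class. -/
lemma exists_class_poly (h : C3.Sub (d + 1) W) (hd : C3.c ≤ d + 2)
    (cd : Coords (homS K (d + 1)) W) (cx : Coords (homS K (d + 2)) (C3.up (d + 1) W))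
    (cu : Coords (homS K d) (colon d W))
    (e : RowIx K d W ≃ (Fin (finrank K (homS K d) - finrank K (colon d W)) ⊕ Unit) ⊕ TgtIx C3 d W)
    {G : Poly3 K} (hG : G ≠ 0) (hz : ∀ p, eval p G ≠ 0 → C3.ZGood p (d + 1) W)
    (F : ∀ j : Fin 3, Fin 3 → (Fin 3 → K) → Fin 3 → Poly3 K)
    (hF1 : ∀ j x, PolyVec (d + 2) (F j x))
    (hF : ∀ j x p, (∀ i, (F j x p i).IsHomogeneous (d + 1)) ∧ dotP p (F j x p) = 0 ∧
      dotX (F j x p) = C (p j ^ (d + 2)) * (X j ^ (d + 2 - C3.deg3 x) * C3.form x)
        - C (p j ^ (d + 2 - C3.deg3 x) * eval p (C3.form x)) * X j ^ (d + 2))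
    (x y : Fin 3) :
    ∃ φ : Poly3 K,
      (φ = 0 ∨ φ.totalDegree + (finrank K (homS K (d + 1)) - finrank K W) + (d + 2) ≤
        (finrank K (homS K d) - finrank K (colon d W)) + C3.deg3 x + C3.deg3 y) ∧
      ∀ (p : Fin 3 → K) (j : Fin 3) (Cc : TgtIx C3 d W → RowIx K d W → K), eval p G ≠ 0 →
        (compMat (psiOf cd cx p) Cc).det ≠ 0 → p j ≠ 0 →
        detW e (kosCol cd cu p) Cc (vecOf cd (classW C3 d j (F j) x y p)) =
          eval p φ * ((compMat (psiOf cd cx p) Cc).det * p j ^ expW C3 d x y) := by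
  classical
  have hD : ∀ i : Fin 3 × (TgtIx C3 d W → RowIx K d W → K),
      PolyH ((finrank K (homS K (d + 1)) - finrank K W) + expW C3 d x y)
        fun p => (compMat (psiOf cd cx p) i.2).det * p i.1 ^ expW C3 d x y := fun i => by
    have := ((polyH_coord (K := K) i.1).pow (expW C3 d x y))
    rw [one_mul] at this
    exact (polyH_compMat i.2).mul this
  have hN : ∀ i : Fin 3 × (TgtIx C3 d W → RowIx K d W → K),
      PolyH ((finrank K (homS K d) - finrank K (colon d W)) + (2 * d + 4))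
        fun p => detW e (kosCol cd cu p) i.2 (vecOf cd (classW C3 d i.1 (F i.1) x y p)) := by
    intro i
    have hH : ∀ z, PolyH (d + 2) fun p : Fin 3 → K =>
        p i.1 ^ (d + 2 - C3.deg3 z) * eval p (C3.form z) := fun z => by
      have := ((polyH_coord (K := K) i.1).pow (d + 2 - C3.deg3 z)).mul
        (polyH_eval (form_homogeneous (C3 := C3) z))
      rwa [one_mul, Nat.sub_add_cancel ((deg3_le z).trans hd)] at this
    have hW : ∀ r, PolyH (2 * d + 4)
        fun p => vecOf cd (classW C3 d i.1 (F i.1) x y p) r := fun r => by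
      have := ((hH y).mul (polyH_vecOf (cd := cd) (hF1 i.1 x) r)).sub
        ((hH x).mul (polyH_vecOf (cd := cd) (hF1 i.1 y) r))
      rw [show d + 2 + (d + 2) = 2 * d + 4 by omega] at this
      exact this.congr fun p => by simp [classW, map_sub, map_smul]
    have hdet := polyH_det (fun p => blockMat e (kosCol cd cu p)
        (vecOf cd (classW C3 d i.1 (F i.1) x y p)) i.2)
      (Sum.elim (Sum.elim (fun _ => 1) fun _ => 2 * d + 4) fun _ => 0) (fun r s => ?_)
    · simp only [Fintype.sum_sum_type, Sum.elim_inl, Sum.elim_inr, Finset.sum_const,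
        Finset.card_univ, Fintype.card_fin, Fintype.card_unit, smul_eq_mul, mul_one, mul_zero,
        one_mul, add_zero] at hdet
      exact hdet.congr fun p => (detW_apply _ _ _ _).symm
    rcases s with (k | u) | t
    · exact polyH_kosCol k (e.symm r)
    · exact hW (e.symm r)
    · exact ⟨C (i.2 t (e.symm r)), isHomogeneous_C _ _, fun p => eval_C _⟩
  choose Dp hDh hDe using hD
  choose Np hNh hNe using hN
  have hzero : ∀ p : Fin 3 → K, p ≠ 0 → ∃ i, eval p (Dp i) ≠ 0 := by
    intro p hp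
    obtain ⟨j, hj⟩ := Function.ne_iff.1 hp
    choose C0 hC0 using fun s => psiOf_surjective (cd := cd) (cx := cx) hd hp (Pi.single s 1)
    have hone : compMat (psiOf cd cx p) C0 = 1 := by
      ext r s
      simp [compMat, hC0, Matrix.one_apply, Pi.single_apply]
    exact ⟨(j, C0), by simp only [hDe, hone, Matrix.det_one, one_mul]; exact pow_ne_zero _ hj⟩
  have hcross : ∀ i k, Dp i ≠ 0 → Dp k ≠ 0 → Np i * Dp k = Np k * Dp i := by
    intro i k hi hk
    obtain ⟨j, Cc⟩ := i
    obtain ⟨j', Cc'⟩ := k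
    have hne : G * Dp (j, Cc) * Dp (j', Cc') ≠ 0 := mul_ne_zero (mul_ne_zero hG hi) hk
    refine sub_eq_zero.1 ((mul_eq_zero.1 (MvPolynomial.funext (q := 0) fun p => ?_ :
      G * Dp (j, Cc) * Dp (j', Cc') * (Np (j, Cc) * Dp (j', Cc') - Np (j', Cc') * Dp (j, Cc)) = 0)
      ).resolve_left hne)
    rw [map_zero]
    by_cases hgd : eval p (G * Dp (j, Cc) * Dp (j', Cc')) = 0
    · rw [map_mul, hgd, zero_mul]
    simp only [map_mul, mul_eq_zero, not_or, hDe] at hgd
    obtain ⟨⟨hpG, hΔ, hpj⟩, hΔ', hpj'⟩ := hgd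
    have hp : p ≠ 0 := fun h0 => by
      have := hz p hpG
      rcases Nat.eq_zero_or_pos (expW C3 d x y) with h1 | h1
      · unfold expW at h1; omega
      · simp [h0, Nat.pos_iff_ne_zero.1 h1] at hpj
    obtain ⟨a1, a2, a3, a4, a5⟩ := classU_spec (fun z q => hF j z q) x y p
    obtain ⟨b1, b2, b3, b4, b5⟩ := classU_spec (fun z q => hF j' z q) x y p
    set v := vecOf cd (classW C3 d j (F j) x y p)
    set v' := vecOf cd (classW C3 d j' (F j') x y p)
    have hv0 : psiOf cd cx p v' = 0 := by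
      refine psiOf_vecOf_eq_zero b1 (by rw [b2]; exact zero_mem _) (Submodule.mem_sup_right
        (mem_degPart.2 ⟨dotX_homogeneous b1, ?_⟩))
      rw [b3]; exact sum_mem fun l _ => Ideal.mul_mem_left _ _ (form_mem l)
    have hlin : p j' ^ expW C3 d x y * detW e (kosCol cd cu p) Cc v =
        p j ^ expW C3 d x y * detW e (kosCol cd cu p) Cc v' := by
      suffices hmem : vecOf cd (p j' ^ expW C3 d x y • classW C3 d j (F j) x y p -
          p j ^ expW C3 d x y • classW C3 d j' (F j') x y p) ∈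
          Submodule.span K (Set.range (kosCol cd cu p)) by
        have h0 := detW_eq_zero e (kosCol cd cu p) Cc hmem
        simp only [map_sub, map_smul, smul_eq_mul] at h0
        exact sub_eq_zero.1 h0
      refine vecOf_cycle_mem_span h hd hp (fun i => ?_) ?_
        (fun l => p j' ^ expW C3 d x y • classU C3 d j x y p l -
          p j ^ expW C3 d x y • classU C3 d j' x y p l) (fun l => ?_) (fun l => ?_) ?_
      · simp only [Pi.sub_apply, Pi.smul_apply, smul_eq_C_mul]
        exact ((a1 i).C_mul _).sub ((b1 i).C_mul _)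
      · rw [dotP_sub, dotP_smul, dotP_smul, a2, b2, smul_zero, smul_zero, sub_zero]
      · simp only [smul_eq_C_mul]
        exact ((a4 l).C_mul _).sub ((b4 l).C_mul _)
      · simp only [smul_eq_C_mul, map_sub, map_mul, eval_C, a5, b5]
        ring
      · rw [dotX_sub, dotX_smul, dotX_smul, a3, b3, Finset.smul_sum, Finset.smul_sum,
          ← Finset.sum_sub_distrib]
        exact Finset.sum_congr rfl fun l _ => by simp only [smul_eq_C_mul]; ring
    have hind := detW_indep e (psiOf cd cx p) (M1 := kosCol cd cu p) (psiOf_kosCol p)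
      (kosCol_independent (hz p hpG)) (C' := Cc') hΔ hv0
    simp only [map_mul, map_sub, hDe, hNe]
    have hinner : detW e (kosCol cd cu p) Cc v *
        ((compMat (psiOf cd cx p) Cc').det * p j' ^ expW C3 d x y) -
        detW e (kosCol cd cu p) Cc' v' *
          ((compMat (psiOf cd cx p) Cc).det * p j ^ expW C3 d x y) = 0 := by
      linear_combination (compMat (psiOf cd cx p) Cc').det * hlin - p j ^ expW C3 d x y * hind
    rw [hinner, mul_zero]
  obtain ⟨φ, hφ⟩ := exists_quotient Np Dp hzero hcross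
  refine ⟨φ, ?_, fun p j Cc _ hΔ hj => ?_⟩
  · rcases eq_or_ne φ 0 with h0 | h0
    · exact Or.inl h0
    refine Or.inr ?_
    obtain ⟨i, hi⟩ := hzero (Pi.single 0 1) (by simp)
    have hi0 : Dp i ≠ 0 := fun h' => hi (by rw [h', map_zero])
    have h1 := (hNh i).totalDegree_le
    rw [hφ i hi0, totalDegree_mul_of_isDomain h0 hi0, (hDh i).totalDegree hi0] at h1
    have := deg3_le (C3 := C3) x
    have := deg3_le (C3 := C3) y
    unfold expW at h1
    omega
  · have hne : Dp (j, Cc) ≠ 0 := fun h' => by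
      have := hDe (j, Cc) p
      rw [h', map_zero] at this
      exact mul_ne_zero hΔ (pow_ne_zero _ hj) this.symm
    have := congrArg (eval p) (hφ (j, Cc) hne)
    rw [map_mul, hNe, hDe] at this
    exact this

/-- One-dimensional homology of small degree is impossible. -/
lemma syzygy_contra (h : C3.Sub (d + 1) W) (hd : C3.c ≤ d + 2) {G : Poly3 K} (hG : G ≠ 0)
    (hgood : ∀ p, eval p G ≠ 0 →
      C3.ZGood p (d + 1) W ∧ C3.SGood p (d + 1) W ∧ eval p C3.fa ≠ 0)
    (hc : 2 * cod (d + 1) W - cod (d + 2) (C3.up (d + 1) W) - cod d (colon d W) = 1)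
    (hdeg : cod d (colon d W) - cod (d + 1) W + C3.c ≤ (d : ℤ) + 1) : False := by
  classical
  obtain ⟨cd⟩ := exists_coords (homS K (d + 1)) W h.2
  obtain ⟨cx⟩ := exists_coords (homS K (d + 2)) (C3.up (d + 1) W) (up_le h)
  obtain ⟨cu⟩ := exists_coords (homS K d) (colon d W) inf_le_left
  have e1 : finrank K W ≤ finrank K (homS K (d + 1)) := Submodule.finrank_mono h.2
  have e2 : finrank K (C3.up (d + 1) W) ≤ finrank K (homS K (d + 2)) :=
    Submodule.finrank_mono (up_le h)
  have e3 : finrank K (colon d W) ≤ finrank K (homS K d) := Submodule.finrank_mono inf_le_left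
  unfold cod at hc hdeg
  set hh := finrank K (homS K (d + 1)) - finrank K W with hhh
  set xx := finrank K (homS K (d + 2)) - finrank K (C3.up (d + 1) W) with hxx
  set hm := finrank K (homS K d) - finrank K (colon d W) with hhm
  have zh : (hh : ℤ) = (finrank K (homS K (d + 1)) : ℤ) - finrank K W := by
    rw [hhh, Nat.cast_sub e1]
  have zx : (xx : ℤ) = (finrank K (homS K (d + 2)) : ℤ) - finrank K (C3.up (d + 1) W) := by
    rw [hxx, Nat.cast_sub e2]
  have zm : (hm : ℤ) = (finrank K (homS K d) : ℤ) - finrank K (colon d W) := by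
    rw [hhm, Nat.cast_sub e3]
  have hcard : 3 * hh = hm + 1 + (hh + xx) := by omega
  let e : RowIx K d W ≃ (Fin hm ⊕ Unit) ⊕ TgtIx C3 d W :=
    Fintype.equivOfCardEq (by
      simp only [Fintype.card_prod, Fintype.card_sum, Fintype.card_fin, Fintype.card_unit]
      omega)
  choose F hF1 hF using fun j => exists_classes (C3 := C3) hd j
  choose φ hφdeg hφ using exists_class_poly h hd cd cx cu e hG (fun p hp => (hgood p hp).1) F hF1 hF
  -- a base point
  obtain ⟨p, hp0⟩ : ∃ p, eval p (G * X 0) ≠ 0 := by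
    by_contra hcon
    push Not at hcon
    exact mul_ne_zero hG (X_ne_zero 0) (MvPolynomial.funext fun q => by rw [hcon q, map_zero])
  simp only [map_mul, eval_X, ne_eq, mul_eq_zero, not_or] at hp0
  obtain ⟨hpG, hpj⟩ := hp0
  have hp : p ≠ 0 := fun h0 => hpj (by rw [h0]; rfl)
  choose C0 hC0 using fun s => psiOf_surjective (cd := cd) (cx := cx) hd hp (Pi.single s 1)
  have hone : compMat (psiOf cd cx p) C0 = 1 := by
    ext r s
    simp [compMat, hC0, Matrix.one_apply, Pi.single_apply]
  obtain ⟨P, -, hP⟩ := polyH_compMat (cd := cd) (cx := cx) C0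
  replace hP : ∀ q, eval q P = (compMat (psiOf cd cx q) C0).det := hP
  have hP0 : P ≠ 0 := fun h0 => by
    have := hP p
    rw [h0, map_zero, hone, Matrix.det_one] at this
    exact zero_ne_one this
  -- the syzygy
  have hid : C3.fc * φ 0 1 - C3.fb * φ 0 2 + C3.fa * φ 1 2 = 0 := by
    have hne : G * (X 0 * P) ≠ 0 := mul_ne_zero hG (mul_ne_zero (X_ne_zero 0) hP0)
    refine (mul_eq_zero.1 (MvPolynomial.funext (q := 0) fun q => ?_ :
      G * (X 0 * P) * (C3.fc * φ 0 1 - C3.fb * φ 0 2 + C3.fa * φ 1 2) = 0)).resolve_left hne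
    rw [map_zero]
    by_cases hq : eval q (G * (X 0 * P)) = 0
    · rw [map_mul, hq, zero_mul]
    simp only [map_mul, eval_X, mul_eq_zero, not_or, hP] at hq
    obtain ⟨hqG, hqj, hqΔ⟩ := hq
    have k1 := hφ 0 1 q 0 C0 hqG hqΔ hqj
    have k2 := hφ 0 2 q 0 C0 hqG hqΔ hqj
    have k3 := hφ 1 2 q 0 C0 hqG hqΔ hqj
    set L := detW e (kosCol cd cu q) C0
    set H : Fin 3 → K := fun z => q 0 ^ (d + 2 - C3.deg3 z) * eval q (C3.form z) with hH
    have hrel : H 2 • classW C3 d 0 (F 0) 0 1 q - H 1 • classW C3 d 0 (F 0) 0 2 q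
        + H 0 • classW C3 d 0 (F 0) 1 2 q = 0 := by
      ext i : 1
      simp only [classW, hH, Pi.add_apply, Pi.sub_apply, Pi.smul_apply, Pi.zero_apply,
        smul_eq_C_mul, C_mul]
      ring
    have hlin := congrArg (L ∘ₗ vecOf cd) hrel
    simp only [map_add, map_sub, map_smul, LinearMap.comp_apply, map_zero, smul_eq_mul, k1, k2,
      k3] at hlin
    have hexp : ∀ z x y, ({x, y, z} : Finset (Fin 3)) = Finset.univ →
        expW C3 d x y + (d + 2 - C3.deg3 z) =
          (d + 2) + ∑ l, (d + 2 - C3.deg3 l) := by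
      intro z x y hset
      have : ∀ x y z : Fin 3, ({x, y, z} : Finset (Fin 3)) = Finset.univ →
          x ≠ y ∧ x ≠ z ∧ y ≠ z := by decide
      obtain ⟨n1, n2, n3⟩ := this x y z hset
      rw [← hset, Finset.sum_insert (by simp [n1, n2]), Finset.sum_insert (by simp [n3]),
        Finset.sum_singleton]
      unfold expW; omega
    set E := (d + 2) + ∑ l, (d + 2 - C3.deg3 l)
    have q1 : q 0 ^ expW C3 d 0 1 * q 0 ^ (d + 2 - C3.deg3 2) = q 0 ^ E := by
      rw [← pow_add, hexp 2 0 1 (by decide)]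
    have q2 : q 0 ^ expW C3 d 0 2 * q 0 ^ (d + 2 - C3.deg3 1) = q 0 ^ E := by
      rw [← pow_add, hexp 1 0 2 (by decide)]
    have q3 : q 0 ^ expW C3 d 1 2 * q 0 ^ (d + 2 - C3.deg3 0) = q 0 ^ E := by
      rw [← pow_add, hexp 0 1 2 (by decide)]
    have hz : (compMat (psiOf cd cx q) C0).det * q 0 ^ E *
        (eval q C3.fc * eval q (φ 0 1) - eval q C3.fb * eval q (φ 0 2)
          + eval q C3.fa * eval q (φ 1 2)) = 0 := by
      simp only [hH, form, Matrix.cons_val_zero, Matrix.cons_val_one, Matrix.cons_val_two,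
        Matrix.head_cons, Matrix.tail_cons] at hlin
      linear_combination hlin
        - (eval q C3.fc * eval q (φ 0 1) * (compMat (psiOf cd cx q) C0).det) * q1
        + (eval q C3.fb * eval q (φ 0 2) * (compMat (psiOf cd cx q) C0).det) * q2
        - (eval q C3.fa * eval q (φ 1 2) * (compMat (psiOf cd cx q) C0).det) * q3
    have := (mul_eq_zero.1 hz).resolve_left (mul_ne_zero hqΔ (pow_ne_zero _ hqj))
    simp only [map_mul, map_add, map_sub, this, mul_zero]
  have hdlt : ∀ l : Fin 3, l ≠ 0 → (φ 0 l).totalDegree < C3.a := by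
    intro l hl
    rcases hφdeg 0 l with h0 | h0
    · rw [h0, totalDegree_zero]; have := C3.two_le; omega
    · have := deg3_le (C3 := C3) l
      rw [show C3.deg3 0 = C3.a from rfl] at h0
      omega
  obtain ⟨h01, h02⟩ := no_small_syzygy hid (hdlt 1 (by decide)) (hdlt 2 (by decide))
  obtain ⟨hzg, hsg, hfa⟩ := hgood p hpG
  have hM := kosCol_independent (cd := cd) (cu := cu) hzg
  have hspan : ∀ l, φ 0 l = 0 →
      vecOf cd (classW C3 d 0 (F 0) 0 l p) ∈ Submodule.span K (Set.range (kosCol cd cu p)) := by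
    intro l hl
    by_contra hcon
    obtain ⟨a1, a2, a3, -, -⟩ := classU_spec (fun z q => hF 0 z q) 0 l p
    refine detW_ne_zero e (psiOf cd cx p) (psiOf_kosCol p) hM (C := C0)
      (by rw [hone, Matrix.det_one]; exact one_ne_zero)
      (psiOf_vecOf_eq_zero a1 (by rw [a2]; exact zero_mem _) (Submodule.mem_sup_right
        (mem_degPart.2 ⟨dotX_homogeneous a1, by
          rw [a3]; exact sum_mem fun z _ => Ideal.mul_mem_left _ _ (form_mem z)⟩))) hcon ?_
    rw [hφ 0 l p 0 C0 hpG (by rw [hone, Matrix.det_one]; exact one_ne_zero) hpj, hl, map_zero,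
      zero_mul]
  -- all cycles would be Koszul
  have hker : LinearMap.ker (psiOf cd cx p) ≤ Submodule.span K (Set.range (kosCol cd cu p)) := by
    intro v hv
    rw [LinearMap.mem_ker] at hv
    obtain ⟨ω, hωW, hω0, hωX⟩ : ∃ ω : Fin 3 → Poly3 K, (∀ i, ω i ∈ W) ∧
        dotP p (secOf cd v - ω) = 0 ∧ dotX (secOf cd v - ω) ∈ degPart (d + 2) C3.idJ := by
      let τ : Fin 3 → Poly3 K := Pi.single 0 ((p 0)⁻¹ • dotP p (secOf cd v))
      have hτW : ∀ i, τ i ∈ W := fun i => by
        rcases eq_or_ne i 0 with rfl | hi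
        · simpa [τ] using W.smul_mem _ (dotP_secOf_mem hv)
        · simp [τ, hi]
      have hτP : dotP p (secOf cd v - τ) = 0 := by
        rw [dotP_sub, show dotP p τ = dotP p (secOf cd v) by
          rw [dotP, Fin.sum_univ_three]
          simp [τ, smul_eq_C_mul, ← mul_assoc, ← C_mul, mul_inv_cancel₀ hpj], sub_self]
      have hmem : dotX (secOf cd v - τ) ∈ C3.up (d + 1) W := by
        rw [dotX_sub]
        exact sub_mem (dotX_secOf_mem hv) (sum_mem fun i _ => X_mul_mem_up (hτW i) i)
      obtain ⟨ρ, hρ, hρ0, hρX⟩ := hsg.exists_triple hmem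
      refine ⟨τ + ρ, fun i => W.add_mem (hτW i) (hρ i), ?_, ?_⟩
      · rw [← sub_sub, dotP_sub, hτP, hρ0, sub_zero]
      · rw [← sub_sub, dotX_sub]; exact hρX
    set w := secOf cd v - ω with hw
    have hwh : ∀ i, (w i).IsHomogeneous (d + 1) := fun i => (secOf_mem v i).sub (h.2 (hωW i))
    have hvw : v = vecOf cd w := by
      rw [hw, map_sub, vecOf_secOf, show vecOf cd ω = 0 from
        funext fun r => congrFun (cd.proj_zero _ (hωW r.1)) r.2, sub_zero]
    obtain ⟨u, hua, hub, huc, hsum⟩ := exists_repr (C3 := C3) hd hωX.1 hωX.2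
    have hu : ∀ l, (u l).IsHomogeneous (d + 2 - C3.deg3 l) := fun l => by
      fin_cases l <;> assumption
    have hsum' : dotX w = ∑ l, u l * C3.form l := by
      rw [hsum, Fin.sum_univ_three]; rfl
    have hrel0 : ∑ l, eval p (u l) * eval p (C3.form l) = 0 := by
      have := congrArg (eval p) hsum'
      rw [eval_dotX, hω0, map_zero] at this
      simpa [map_sum] using this.symm
    obtain ⟨a1, a2, a3, a4, a5⟩ := classU_spec (fun z q => hF 0 z q) 0 1 p
    obtain ⟨b1, b2, b3, b4, b5⟩ := classU_spec (fun z q => hF 0 z q) 0 2 p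
    set α := -(eval p (u 1)) / (p 0 ^ expW C3 d 0 1 * eval p C3.fa)
    set β := -(eval p (u 2)) / (p 0 ^ expW C3 d 0 2 * eval p C3.fa)
    have hfinal : vecOf cd (w - α • classW C3 d 0 (F 0) 0 1 p - β • classW C3 d 0 (F 0) 0 2 p) ∈
        Submodule.span K (Set.range (kosCol cd cu p)) := by
      refine vecOf_cycle_mem_span h hd hp (fun i => ?_) ?_
        (fun l => u l - α • classU C3 d 0 0 1 p l - β • classU C3 d 0 0 2 p l) (fun l => ?_)
        (fun l => ?_) ?_
      · simp only [Pi.sub_apply, Pi.smul_apply, smul_eq_C_mul]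
        exact ((hwh i).sub ((a1 i).C_mul _)).sub ((b1 i).C_mul _)
      · rw [dotP_sub, dotP_sub, dotP_smul, dotP_smul, a2, b2, hω0, smul_zero, smul_zero, sub_zero,
          sub_zero]
      · simp only [smul_eq_C_mul]
        exact ((hu l).sub ((a4 l).C_mul _)).sub ((b4 l).C_mul _)
      · have hk1 : p 0 ^ expW C3 d 0 1 ≠ 0 := pow_ne_zero _ hpj
        have hk2 : p 0 ^ expW C3 d 0 2 ≠ 0 := pow_ne_zero _ hpj
        have hα : α * (p 0 ^ expW C3 d 0 1 * eval p C3.fa) = -(eval p (u 1)) :=
          div_mul_cancel₀ _ (mul_ne_zero hk1 hfa)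
        have hβ : β * (p 0 ^ expW C3 d 0 2 * eval p C3.fa) = -(eval p (u 2)) :=
          div_mul_cancel₀ _ (mul_ne_zero hk2 hfa)
        simp only [form, Fin.sum_univ_three, Matrix.cons_val_zero, Matrix.cons_val_one,
          Matrix.cons_val_two, Matrix.head_cons, Matrix.tail_cons] at hrel0
        simp only [map_sub, smul_eq_C_mul, map_mul, eval_C, a5, b5, form, Matrix.cons_val_zero,
          Matrix.cons_val_one, Matrix.cons_val_two, Matrix.head_cons, Matrix.tail_cons]
        fin_cases l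
        · simp
          refine (mul_eq_zero.1 (?_ : eval p C3.fa * _ = 0)).resolve_left hfa
          linear_combination hrel0 - eval p C3.fb * hα - eval p C3.fc * hβ
        · simp; linear_combination hα
        · simp; linear_combination hβ
      · rw [dotX_sub, dotX_sub, dotX_smul, dotX_smul, a3, b3, hsum', Finset.smul_sum,
          Finset.smul_sum, ← Finset.sum_sub_distrib, ← Finset.sum_sub_distrib]
        exact Finset.sum_congr rfl fun l _ => by simp only [smul_eq_C_mul]; ring
    rw [map_sub, map_sub, map_smul, map_smul] at hfinal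
    rw [hvw]
    have := add_mem (add_mem hfinal (Submodule.smul_mem _ β (hspan 2 h02)))
      (Submodule.smul_mem _ α (hspan 1 h01))
    rwa [sub_add_cancel, sub_add_cancel] at this
  have r1 := Submodule.finrank_mono hker
  have r2 := LinearMap.finrank_range_add_finrank_ker (psiOf cd cx p)
  have r3 := LinearMap.finrank_range_le (psiOf cd cx p)
  have r4 : finrank K ↥(LinearMap.range (psiOf cd cx p)) ≤ hh + xx := by
    refine (Submodule.finrank_le _).trans_eq ?_
    simp [hhh, hxx]
  have r5 : finrank K ↥(Submodule.span K (Set.range (kosCol cd cu p))) ≤ hm :=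
    (finrank_range_le_card (kosCol cd cu p)).trans_eq (by simp [hhm])
  rw [Module.finrank_fintype_fun_eq_card, Fintype.card_prod, Fintype.card_fin,
    Fintype.card_fin] at r2
  omega

end CI3

end Vale.Agent.P200
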