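import Vale.Agent.P200.LowDeg
import Vale.Agent.P200.Closure
import Vale.Agent.P200.Syzygy

/-!
The growth bound in all degrees, and goodness of every Hilbert function step.
-/

namespace Vale.Agent.P200

open MvPolynomial Module

variable {K : Type*} [Field K]

lemma tBound_shift {b c d D : ℤ} : tBound b c (d - 1) D ≤ tBound b c d D + max D 0 := by
  rcases le_or_gt D 0 with h | h
  · rw [tBound_zero h, tBound_zero h]; omega
  · rw [tBound_eq (le_of_lt h), tBound_eq (le_of_lt h), max_eq_left (le_of_lt h)]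
    have h1 : max (b + c - 2 - (d - 1)) 0 ≤ max (b + c - 2 - d) 0 + 1 := by omega
    nlinarith

namespace CI3

variable {C3 : CI3 K} {d : ℕ} {W : Submodule K (Poly3 K)}

lemma homology_dims {p : Fin 3 → K} (h : C3.Sub (d + 1) W) (hd : C3.c ≤ d + 2) (hp : p ≠ 0)
    (hz : C3.ZGood p (d + 1) W) :
    0 ≤ 2 * cod (d + 1) W - cod (d + 2) (C3.up (d + 1) W) - cod d (colon d W) ∧
      (2 * cod (d + 1) W - cod (d + 2) (C3.up (d + 1) W) - cod d (colon d W) = 0 →
        C3.ExactAt p (d + 1) W) := by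
  obtain ⟨cd⟩ := exists_coords (homS K (d + 1)) W h.2
  obtain ⟨cx⟩ := exists_coords (homS K (d + 2)) (C3.up (d + 1) W) (up_le h)
  obtain ⟨cu⟩ := exists_coords (homS K d) (colon d W) inf_le_left
  have e1 : finrank K W ≤ finrank K (homS K (d + 1)) := Submodule.finrank_mono h.2
  have e2 : finrank K (C3.up (d + 1) W) ≤ finrank K (homS K (d + 2)) :=
    Submodule.finrank_mono (up_le h)
  have e3 : finrank K (colon d W) ≤ finrank K (homS K d) := Submodule.finrank_mono inf_le_left
  have hle : Submodule.span K (Set.range (kosCol cd cu p)) ≤ LinearMap.ker (psiOf cd cx p) :=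
    Submodule.span_le.2 (by rintro _ ⟨k, rfl⟩; exact psiOf_kosCol p k)
  have r1 := Submodule.finrank_mono hle
  rw [finrank_span_eq_card (kosCol_independent hz), Fintype.card_fin] at r1
  have r2 := LinearMap.finrank_range_add_finrank_ker (psiOf cd cx p)
  rw [LinearMap.range_eq_top.2 (psiOf_surjective hd hp), finrank_top,
    Module.finrank_fintype_fun_eq_card, Module.finrank_fintype_fun_eq_card, Fintype.card_prod,
    Fintype.card_sum, Fintype.card_fin, Fintype.card_fin, Fintype.card_fin] at r2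
  refine ⟨?_, fun h0 => ?_⟩
  · unfold cod; omega
  · unfold cod at h0
    have heq : Submodule.span K (Set.range (kosCol cd cu p)) = LinearMap.ker (psiOf cd cx p) := by
      refine Submodule.eq_of_le_of_finrank_le hle ?_
      rw [finrank_span_eq_card (kosCol_independent hz), Fintype.card_fin]
      omega
    intro w hw h1 h2
    have hmem : vecOf cd w ∈ Submodule.span K (Set.range (kosCol cd cu p)) := by
      rw [heq, LinearMap.mem_ker]
      exact psiOf_vecOf_eq_zero hw h1 h2
    obtain ⟨g, hg⟩ := (Submodule.mem_span_range_iff_exists_fun K).1 hmem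
    refine ⟨cu.sec g, cu.sec_mem g, fun i => ?_⟩
    have hγ : vecOf cd (fun l => cf p l * cu.sec g) = ∑ k, g k • kosCol cd cu p k := by
      simp only [kosCol, ← map_smul, ← map_sum]
      congr 1
      ext l : 1
      rw [Finset.sum_apply]
      simp only [Pi.smul_apply, ← mul_smul_comm, ← Finset.mul_sum, ← map_smul, ← map_sum]
      congr 2
      ext k
      simp [Finset.sum_apply, Pi.single_apply]
    refine cd.mem_of_proj _ ((homS K (d + 1)).sub_mem (hw i)
      (mul_homS (cf_homogeneous p i) (cu.sec_mem g))) ?_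
    rw [map_sub, sub_eq_zero]
    funext t
    exact (congrFun (hγ.trans hg) (i, t)).symm

/-- Measure for the inner induction. -/
noncomputable def weight (C3 : CI3 K) (d : ℕ) (W : Submodule K (Poly3 K)) : ℕ :=
  (cod d W + (finrank K (homS K (d + 1)) - cod (d + 1) (C3.up d W))).toNat

/-- The main bound. -/
def MainBound (C3 : CI3 K) (d : ℕ) : Prop :=
  ∀ W, C3.Sub d W → ∀ k : ℕ,
    cod d W - cod (d + 1) (C3.up d W) + k + 1 ≤ nNeg C3.a C3.b C3.c d →
    cod d W < boxCount C3.b C3.c d (min C3.a (mPos C3.a C3.b d + k + 1)) →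
    cod d W ≤ tBound C3.b C3.c d (cod d W - cod (d + 1) (C3.up d W))

lemma up_degPart_le : C3.up d (degPart d C3.idJ) ≤ degPart (d + 1) C3.idJ := by
  refine sup_le (iSup_le fun i => ?_) le_rfl
  rintro _ ⟨u, hu, rfl⟩
  exact mem_degPart.2 ⟨mul_homS (isHomogeneous_X K i) hu.1, Ideal.mul_mem_left _ _ hu.2⟩

lemma cod_up_of_max (h : C3.Sub d W) (h0 : cod d W = C3.dimA d) :
    cod (d + 1) (C3.up d W) = C3.dimA (d + 1) := by
  have := h.finite
  have hW : degPart d C3.idJ = W := by
    refine Submodule.eq_of_le_of_finrank_le h.1 ?_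
    rw [C3.dimA_eq] at h0
    unfold cod at h0
    have hz : (finrank K W : ℤ) ≤ (finrank K (degPart d C3.idJ) : ℤ) := by linarith
    exact_mod_cast hz
  have hu : C3.up d W = degPart (d + 1) C3.idJ := by
    refine le_antisymm ?_ le_sup_right
    rw [← hW]; exact up_degPart_le
  have := C3.dimA_eq (d + 1)
  rw [hu]
  unfold cod
  push_cast at this
  linarith

variable [IsAlgClosed K]

/-- Step through the degree below. -/
lemma main_below {e : ℕ} (hd : C3.c ≤ e + 2) (ihd : C3.c ≤ e + 1 → MainBound C3 e)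
    (h : C3.Sub (e + 1) W) (k' : ℕ)
    (hD : cod e (colon e W) - cod (e + 1) W + k' + 1 ≤ nNeg C3.a C3.b C3.c e)
    (hlo : C3.c = e + 2 → cod e (colon e W) - cod (e + 1) W + k' < 0)
    (hh : cod e (colon e W) < boxCount C3.b C3.c e (min C3.a (mPos C3.a C3.b e + k' + 1)))
    {D : ℤ} (hDD : cod e (colon e W) - cod (e + 1) W ≤ D) :
    cod (e + 1) W ≤ tBound C3.b C3.c ((e + 1 : ℕ) : ℤ) D := by
  have hU := colon_sub h
  have hx : cod (e + 1) W ≤ cod (e + 1) (C3.up e (colon e W)) := cod_anti (up_colon_le h) h.2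
  rcases Nat.lt_or_ge (e + 1) C3.c with hlt | hge
  · have := lowBound e hlt (colon e W) hU k' (Or.inl hh)
    have := hlo (by omega)
    omega
  · have hb := ihd hge (colon e W) hU k' (by omega) hh
    set Dm := cod e (colon e W) - cod (e + 1) (C3.up e (colon e W))
    have h1 : tBound C3.b C3.c (e : ℤ) Dm ≤ tBound C3.b C3.c ((e + 1 : ℕ) : ℤ) Dm + max Dm 0 := by
      have := tBound_shift (b := (C3.b : ℤ)) (c := C3.c) (d := ((e + 1 : ℕ) : ℤ)) (D := Dm)
      rwa [show ((e + 1 : ℕ) : ℤ) - 1 = (e : ℤ) by omega] at this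
    have h2 := tBound_mono (b := (C3.b : ℤ)) (c := C3.c) (d := ((e + 1 : ℕ) : ℤ))
      (show Dm ≤ D by omega)
    have h3 := tBound_nonneg C3.b C3.c ((e + 1 : ℕ) : ℤ) D
    rcases le_or_gt Dm 0 with hneg | hpos
    · rw [tBound_zero hneg] at hb
      have := cod_up_eq_zero hU (le_antisymm hb (cod_nonneg hU.2))
      omega
    · rw [max_eq_left (le_of_lt hpos)] at h1
      omega

/-- The step when some pencil is generic. -/
lemma main_generic {e : ℕ} (hd : C3.c ≤ e + 2) (ihd : C3.c ≤ e + 1 → MainBound C3 e)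
    (h : C3.Sub (e + 1) W) {G : Poly3 K} (hG : G ≠ 0)
    (hgood : ∀ p, eval p G ≠ 0 →
      C3.ZGood p (e + 1) W ∧ C3.SGood p (e + 1) W ∧ eval p C3.fa ≠ 0)
    (k : ℕ)
    (hk : (mPos C3.a C3.b ((e + 1 : ℕ) : ℤ) < C3.a ∧
        mPos C3.a C3.b ((e + 1 : ℕ) : ℤ) + k + 1 ≤ C3.a) ∨
      (mPos C3.a C3.b ((e + 1 : ℕ) : ℤ) = C3.a ∧ k = 0))
    (h1 : cod (e + 1) W - cod (e + 1 + 1) (C3.up (e + 1) W) + k + 1 ≤
      nNeg C3.a C3.b C3.c ((e + 1 : ℕ) : ℤ))
    (h2 : cod (e + 1) W <
      boxCount C3.b C3.c ((e + 1 : ℕ) : ℤ) (min C3.a (mPos C3.a C3.b ((e + 1 : ℕ) : ℤ) + k + 1))) :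
    cod (e + 1) W ≤ tBound C3.b C3.c ((e + 1 : ℕ) : ℤ)
      (cod (e + 1) W - cod (e + 1 + 1) (C3.up (e + 1) W)) := by
  obtain ⟨p, hpG⟩ : ∃ p, eval p G ≠ 0 := by
    by_contra hcon
    push Not at hcon
    exact hG (MvPolynomial.funext fun q => by rw [hcon q, map_zero])
  obtain ⟨hz, hs, hfa⟩ := hgood p hpG
  have htwo := C3.two_le; have hab := C3.hab; have hbc := C3.hbc
  have hp : p ≠ 0 := fun h0 => hfa (by rw [h0]; exact eval_zero_homogeneous C3.homA (by omega))
  obtain ⟨hc0, hex⟩ := homology_dims h hd hp hz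
  set hh0 := cod (e + 1) W with hh0def
  set xx0 := cod (e + 1 + 1) (C3.up (e + 1) W) with hxx0
  set hm0 := cod e (colon e W) with hhm0
  change 0 ≤ 2 * hh0 - xx0 - hm0 at hc0
  change 2 * hh0 - xx0 - hm0 = 0 → _ at hex
  rcases hc0.eq_or_lt with hc | hc
  · exact closure hp hfa h (by omega) hs (hex hc.symm)
  have hb1 : (1 : ℤ) ≤ C3.b := by omega
  have hbc' : (C3.b : ℤ) ≤ C3.c := by omega
  have hhnn := cod_nonneg h.2
  set i0 := min C3.a (mPos C3.a C3.b ((e + 1 : ℕ) : ℤ) + k + 1) with hi0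
  have hdiff := boxCount_diff hb1 hbc' (e : ℤ) i0
  rw [show (e : ℤ) + 1 = ((e + 1 : ℕ) : ℤ) by push_cast; ring] at hdiff
  rcases hk with ⟨hMa, hMk⟩ | ⟨hMa, rfl⟩
  · have fM : (mPos C3.a C3.b ((e + 1 : ℕ) : ℤ) : ℤ) = (e : ℤ) + 3 - C3.b := by
      unfold mPos at hMa ⊢; omega
    have fM' : (mPos C3.a C3.b (e : ℤ) : ℤ) = (e : ℤ) + 2 - C3.b := by
      unfold mPos at hMa ⊢; omega
    have fN : nNeg C3.a C3.b C3.c ((e + 1 : ℕ) : ℤ) = (e : ℤ) + 3 - C3.c := by
      unfold mPos at hMa; unfold nNeg; omega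
    have fN' : nNeg C3.a C3.b C3.c (e : ℤ) = (e : ℤ) + 2 - C3.c := by
      unfold mPos at hMa; unfold nNeg; omega
    have fi : i0 = mPos C3.a C3.b ((e + 1 : ℕ) : ℤ) + k + 1 := min_eq_right hMk
    rw [fN] at h1
    have hc2 : 2 * hh0 - xx0 - hm0 ≠ 1 := fun h1' => by
      refine syzygy_contra h hd hG hgood h1' ?_
      change hm0 - hh0 + C3.c ≤ (e : ℤ) + 1
      omega
    have hi : min C3.a (mPos C3.a C3.b (e : ℤ) + (k + 1) + 1) = i0 := by omega
    refine main_below hd ihd h (k + 1) ?_ (fun hce => ?_) ?_ (by omega)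
    · rw [fN']; push_cast; omega
    · push_cast; omega
    · rw [hi]; omega
  · have hi : min C3.a (mPos C3.a C3.b (e : ℤ) + 0 + 1) = i0 := by
      rw [hi0]; unfold mPos at hMa ⊢; omega
    have fa : i0 = C3.a := by rw [hi0]; omega
    have fN : nNeg C3.a C3.b C3.c ((e + 1 : ℕ) : ℤ) ≤ nNeg C3.a C3.b C3.c (e : ℤ) + 1 := by
      unfold nNeg; omega
    have fb : (C3.a : ℤ) ≤ (e : ℤ) + 3 - C3.b := by unfold mPos at hMa; omega
    have fhi : nNeg C3.a C3.b C3.c ((e + 1 : ℕ) : ℤ) - 2 ≤
        boxCount C3.b C3.c (e : ℤ) i0 - boxCount C3.b C3.c ((e + 1 : ℕ) : ℤ) i0 := by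
      clear h1 h2 hi
      unfold nNeg
      omega
    have fce : C3.c = e + 2 → nNeg C3.a C3.b C3.c ((e + 1 : ℕ) : ℤ) ≤ 1 := by
      unfold nNeg; omega
    refine main_below hd ihd h 0 ?_ (fun hce => ?_) ?_ (by omega)
    · push_cast; omega
    · have := fce hce
      push_cast; omega
    · rw [hi]; omega

lemma main_step {e : ℕ} (hd : C3.c ≤ e + 2) (ihd : C3.c ≤ e + 1 → MainBound C3 e) :
    MainBound C3 (e + 1) := by
  have htwo := C3.two_le; have hab := C3.hab; have hbc := C3.hbc
  have hb1 : (1 : ℤ) ≤ C3.b := by omega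
  have hbc' : (C3.b : ℤ) ≤ C3.c := by omega
  set dd : ℤ := ((e + 1 : ℕ) : ℤ) with hdd
  set M := mPos C3.a C3.b dd with hM
  suffices key : ∀ n W, C3.Sub (e + 1) W → weight C3 (e + 1) W = n → ∀ k : ℕ,
      ((M < C3.a ∧ M + k + 1 ≤ C3.a) ∨ (M = C3.a ∧ k = 0)) →
      cod (e + 1) W - cod (e + 1 + 1) (C3.up (e + 1) W) + k + 1 ≤ nNeg C3.a C3.b C3.c dd →
      cod (e + 1) W < boxCount C3.b C3.c dd (min C3.a (M + k + 1)) →
      cod (e + 1) W ≤ tBound C3.b C3.c dd
        (cod (e + 1) W - cod (e + 1 + 1) (C3.up (e + 1) W)) by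
    intro W h k h1 h2
    rw [← hdd, ← hM] at h2
    rw [← hdd] at h1 ⊢
    by_cases hk : M + k + 1 ≤ C3.a
    · exact key _ W h rfl k (Or.inl ⟨by omega, hk⟩) h1 h2
    by_cases hMa : M < C3.a
    · refine key _ W h rfl (C3.a - M - 1) (Or.inl ⟨hMa, by omega⟩) (by omega) ?_
      rwa [show min C3.a (M + (C3.a - M - 1) + 1) = min C3.a (M + k + 1) by omega]
    · have hMle : M ≤ C3.a := by rw [hM]; exact min_le_left _ _
      refine key _ W h rfl 0 (Or.inr ⟨by omega, rfl⟩) (by omega) ?_
      rwa [show min C3.a (M + 0 + 1) = min C3.a (M + k + 1) by omega]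
  intro n
  induction n using Nat.strong_induction_on with
  | _ n ih =>
    intro W h hn k hk h1 h2
    have hhA := lt_of_lt_of_le h2 (boxCount_mono C3.b C3.c dd (min_le_left C3.a (M + k + 1)))
    by_cases hzex : ∃ p, C3.ZGood p (e + 1) W
    swap
    · obtain ⟨W', kY, hW', hk1, hh', hx', hkle⟩ :=
        z_block h fun p _ => fun hg => hzex ⟨p, hg⟩
      have hle2 := Submodule.finrank_mono (up_le hW')
      have hlt : weight C3 (e + 1) W' < n := by
        rw [← hn]
        have := cod_nonneg hW'.2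
        have := cod_nonneg (d := e + 1 + 1) (up_le hW')
        have := cod_nonneg (d := e + 1 + 1) (up_le h)
        have : cod (e + 1 + 1) (C3.up (e + 1) W) ≤ finrank K (homS K (e + 1 + 1)) := by
          unfold cod; omega
        have : cod (e + 1 + 1) (C3.up (e + 1) W') ≤ finrank K (homS K (e + 1 + 1)) := by
          unfold cod; omega
        unfold weight
        omega
      have hres := ih _ hlt W' hW' rfl k hk (by omega) (by omega)
      set D := cod (e + 1) W - cod (e + 1 + 1) (C3.up (e + 1) W) with hDdef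
      have hkb : kY ≤ max ((C3.b : ℤ) + C3.c - 1 - dd) 1 + D - 1 := by
        unfold sz at hkle
        omega
      have hm := tBound_mono (b := (C3.b : ℤ)) (c := C3.c) (d := dd)
        (show cod (e + 1) W' - cod (e + 1 + 1) (C3.up (e + 1) W') ≤ D - 1 by omega)
      rcases le_or_gt D 0 with hneg | hpos
      · rw [tBound_zero (show D - 1 ≤ 0 by omega)] at hm
        have hn0 := cod_nonneg hW'.2
        have hx0 := cod_up_eq_zero hW' (by omega)
        omega
      · have hs' := tBound_succ (b := (C3.b : ℤ)) (c := C3.c) (d := dd) (show 0 ≤ D - 1 by omega)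
        rw [sub_add_cancel] at hs'
        omega
    by_cases hsex : ∃ p, C3.SGood p (e + 1) W
    swap
    · obtain ⟨W', kY, hW', hWW, hk1, hh', hx', hkle⟩ :=
        s_block h fun p _ => fun hg => hsex ⟨p, hg⟩
      have hanti := cod_anti hWW h.2
      have hne : cod (e + 1) W' < C3.dimA dd ∨ (M < C3.a ∧ M + k + 2 ≤ C3.a) := by
        by_contra hcon
        push Not at hcon
        have heq : cod (e + 1) W' = C3.dimA dd := le_antisymm (cod_le hW') hcon.1
        have hxmax := cod_up_of_max hW' heq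
        have hdA := C3.dimA_diff dd
        rw [show ((e + 1 : ℕ) : ℤ) + 1 = dd + 1 from rfl] at hxmax
        have hk' := hcon.2
        unfold mPos at hM
        unfold nNeg at h1
        omega
      have hlt : weight C3 (e + 1) W' < n := by
        rw [← hn]
        have := cod_nonneg hW'.2
        have := cod_nonneg (d := e + 1 + 1) (up_le hW')
        have := cod_nonneg h.2
        have : cod (e + 1 + 1) (C3.up (e + 1) W) ≤ finrank K (homS K (e + 1 + 1)) := by
          unfold cod; omega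
        have : cod (e + 1 + 1) (C3.up (e + 1) W') ≤ finrank K (homS K (e + 1 + 1)) := by
          unfold cod; omega
        unfold weight
        omega
      set D := cod (e + 1) W - cod (e + 1 + 1) (C3.up (e + 1) W) with hDdef
      have hm := tBound_mono (b := (C3.b : ℤ)) (c := C3.c) (d := dd)
        (show cod (e + 1) W' - cod (e + 1 + 1) (C3.up (e + 1) W') ≤ D by omega)
      rcases hk with ⟨hMa, hMk⟩ | ⟨hMa, rfl⟩
      · rcases Nat.lt_or_ge C3.a (M + k + 2) with hbig | hsmall
        · have hlt' : cod (e + 1) W' < C3.dimA dd := hne.resolve_right fun h => by omega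
          have hres := ih _ hlt W' hW' rfl k (Or.inl ⟨hMa, hMk⟩) (by omega) (by
            rw [show min C3.a (M + k + 1) = C3.a by omega]; exact hlt')
          omega
        · have hs' := boxCount_succ (C3.b : ℤ) C3.c dd (M + k + 1)
          rw [show min C3.a (M + k + 1) = M + k + 1 by omega] at h2
          have hres := ih _ hlt W' hW' rfl (k + 1) (Or.inl ⟨hMa, by omega⟩)
            (by push_cast; omega) (by
              rw [show min C3.a (M + (k + 1) + 1) = M + k + 1 + 1 by omega, hs']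
              unfold sz mPos nNeg at *
              push_cast
              omega)
          omega
      · have hlt' : cod (e + 1) W' < C3.dimA dd := hne.resolve_right fun h => by omega
        have hres := ih _ hlt W' hW' rfl 0 (Or.inr ⟨hMa, rfl⟩) (by omega) (by
          rw [show min C3.a (M + 0 + 1) = C3.a by omega]; exact hlt')
        omega
    obtain ⟨p1, hp1⟩ := hzex
    obtain ⟨p2, hp2⟩ := hsex
    obtain ⟨Δz, hz0, hz⟩ := zGood_generic h hp1
    obtain ⟨Δs, hs0, hs⟩ := sGood_generic h hp2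
    refine main_generic hd ihd h (G := Δz * Δs * C3.fa) ?_ (fun p hp => ?_) k hk h1 h2
    · exact mul_ne_zero (mul_ne_zero hz0 hs0) C3.neA
    · simp only [map_mul, ne_eq, mul_eq_zero, not_or] at hp
      exact ⟨hz p hp.1.1, hs p hp.1.2, hp.2⟩

lemma mainBound : ∀ d : ℕ, C3.c ≤ d + 1 → MainBound C3 d
  | 0, h => by have := C3.two_le; have := C3.hab; have := C3.hbc; omega
  | e + 1, h => main_step (by omega) (mainBound e)

/-- Every step of a Hilbert function is good. -/
lemma good_step (h : C3.Sub d W) :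
    Good C3.a C3.b C3.c d (cod d W) (cod (d + 1) (C3.up d W)) := by
  classical
  have htwo := C3.two_le; have hab := C3.hab; have hbc := C3.hbc
  have hb1 : (1 : ℤ) ≤ C3.b := by omega
  have hbc' : (C3.b : ℤ) ≤ C3.c := by omega
  rcases (cod_nonneg h.2).eq_or_lt with h0 | hpos
  · rw [← h0, cod_up_eq_zero h h0.symm]
    exact good_of_h_eq_zero _ _ _ _ _ le_rfl
  rcases (cod_le h).eq_or_lt with hmax | hlt
  · intro i i' v v' hbox _ _ hge
    have := boxPos_lt_total hbc' hbox
    change cod d W = boxCount _ _ _ _ at hmax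
    omega
  set M := mPos C3.a C3.b (d : ℤ) with hM
  let P : ℕ → Prop := fun k => M + k ≤ C3.a ∧ boxCount C3.b C3.c d (M + k) ≤ cod d W
  set k := Nat.findGreatest P C3.a with hkdef
  have hk : k = 0 ∨ P k := by
    rcases Nat.eq_zero_or_pos k with h0 | h0
    · exact Or.inl h0
    · exact Or.inr (Nat.findGreatest_of_ne_zero hkdef.symm (by omega))
  have hnext : cod d W < boxCount C3.b C3.c d (min C3.a (M + k + 1)) := by
    by_cases hle : M + k + 1 ≤ C3.a
    · rw [min_eq_right hle]
      by_contra hcon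
      have := Nat.le_findGreatest (P := P) (show k + 1 ≤ C3.a by omega)
        ⟨by omega, by rw [← add_assoc]; omega⟩
      omega
    · rw [show min C3.a (M + k + 1) = C3.a by omega]
      exact hlt
  rcases Nat.lt_or_ge (d + 1) C3.c with hlow | hhigh
  · have := lowBound d hlow W h k (Or.inl hnext)
    refine good_of_le (by omega) hb1 hbc' k hk ?_
    unfold nNeg
    omega
  · by_cases hD : cod d W - cod (d + 1) (C3.up d W) + k + 1 ≤ nNeg C3.a C3.b C3.c d
    · have hb := mainBound d hhigh W h k hD hnext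
      set D := cod d W - cod (d + 1) (C3.up d W) with hDdef
      rcases le_or_gt D 0 with hneg | hp
      · rw [tBound_zero hneg] at hb
        omega
      · refine good_of_le_tBound (a := C3.a) hb1 hbc' D.toNat (by omega) ?_ (by omega)
        rw [Int.toNat_of_nonneg (by omega)]
        exact hb
    · exact good_of_le (by omega) hb1 hbc' k hk (by omega)

end CI3

end Vale.Agent.P200
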