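import Vale.Agent.P200.Block

/-!
Shared facts about spaces of forms in one degree.
-/

namespace Vale.Agent.P200

open MvPolynomial Module

variable {K : Type*} [Field K]

/-- Two linear forms have a common zero. -/
lemma exists_common_zero {l g : Poly3 K} (hl : l.IsHomogeneous 1) (hg : g.IsHomogeneous 1) :
    ∃ q : Fin 3 → K, q ≠ 0 ∧ eval q l = 0 ∧ eval q g = 0 := by
  have hlin : ∀ {u : Poly3 K}, u.IsHomogeneous 1 → ∀ y v (s : K),
      eval (y + s • v) u = eval y u + s * eval v u := fun hu => eval_add_smul hu
  let φ : (Fin 3 → K) →ₗ[K] K × K :=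
    { toFun := fun v => (eval v l, eval v g)
      map_add' := fun x y => by
        have h1 := hlin hl x y 1
        have h2 := hlin hg x y 1
        simp only [one_smul, one_mul] at h1 h2
        simp [h1, h2]
      map_smul' := fun s x => by
        have h1 := hlin hl 0 x s
        have h2 := hlin hg 0 x s
        simp only [zero_add, eval_zero_homogeneous hl one_pos,
          eval_zero_homogeneous hg one_pos] at h1 h2
        simp [h1, h2] }
  have hk : LinearMap.ker φ ≠ ⊥ := by
    intro h
    have := LinearMap.finrank_le_finrank_of_injective (LinearMap.ker_eq_bot.1 h)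
    simp at this
  obtain ⟨q, hq, hq0⟩ := Submodule.exists_mem_ne_zero_of_ne_bot hk
  rw [LinearMap.mem_ker] at hq
  exact ⟨q, hq0, congrArg Prod.fst hq, congrArg Prod.snd hq⟩

lemma finrank_homS_succ (t : ℕ) :
    (finrank K (homS K (t + 1)) : ℤ) = finrank K (homS K t) + ((t : ℤ) + 2) := by
  rw [finrank_homS, finrank_homS]
  push_cast
  rw [triNum_succ (by omega)]
  ring

/-- A second linear form through a point of the line `l = 0`. -/
lemma exists_second {l : Poly3 K} (hl : l.IsHomogeneous 1) (hl0 : l ≠ 0) {p : Fin 3 → K}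
    (hp : p ≠ 0) (hpl : eval p l = 0) :
    ∃ m : Poly3 K, m.IsHomogeneous 1 ∧ eval p m = 0 ∧
      (∀ g : Poly3 K, g.IsHomogeneous 1 → eval p g = 0 →
        ∃ α β : K, g = α • l + β • m) ∧ ¬ l ∣ m := by
  obtain ⟨m0, m1, hm0, hm1, hframe, -⟩ := exists_frame hl hl0
  let F := Submodule.span K ({l, m0, m1} : Set (Poly3 K))
  have hX : ∀ i, X i ∈ F := fun i => by
    have := hframe F 1 (by simpa using Submodule.subset_span (by simp))
      (by simpa using Submodule.subset_span (by simp))
      (by simpa using Submodule.subset_span (by simp)) i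
    simpa using this
  have hlinF : ∀ g : Poly3 K, g.IsHomogeneous 1 → ∃ α β γ : K, g = α • l + β • m0 + γ • m1 := by
    intro g hg
    have hgF : g ∈ F := by
      rw [linear_eq_sum hg]
      refine sum_mem fun i _ => ?_
      rw [← smul_eq_C_mul]
      exact F.smul_mem _ (hX i)
    obtain ⟨α, z, hz, rfl⟩ := Submodule.mem_span_insert.1 hgF
    obtain ⟨β, γ, rfl⟩ := Submodule.mem_span_pair.1 hz
    exact ⟨α, β, γ, by abel⟩
  have hne : eval p m0 ≠ 0 ∨ eval p m1 ≠ 0 := by
    by_contra hcon
    push Not at hcon
    refine hp (funext fun i => ?_)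
    obtain ⟨α, β, γ, hXi⟩ := hlinF (X i) (isHomogeneous_X K i)
    have := congrArg (eval p) hXi
    simpa [hpl, hcon.1, hcon.2, smul_eq_C_mul] using this
  refine ⟨eval p m0 • m1 - eval p m1 • m0, ?_, by simp [smul_eq_C_mul]; ring, fun g hg h0 => ?_, ?_⟩
  · rw [smul_eq_C_mul, smul_eq_C_mul]; exact (hm1.C_mul _).sub (hm0.C_mul _)
  · obtain ⟨α, β, γ, rfl⟩ := hlinF g hg
    simp only [map_add, smul_eq_C_mul, map_mul, eval_C, hpl, mul_zero, zero_add] at h0
    rcases hne with h | h
    · refine ⟨α, γ / eval p m0, ?_⟩
      have hβ : β = -(γ * eval p m1) / eval p m0 := by field_simp; linear_combination h0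
      rw [hβ, smul_sub, smul_smul, smul_smul, div_mul_cancel₀ _ h]
      rw [show -(γ * eval p m1) / eval p m0 = -(γ / eval p m0 * eval p m1) by ring, neg_smul]
      abel
    · refine ⟨α, -β / eval p m1, ?_⟩
      have hγ : γ = -β / eval p m1 * eval p m0 := by field_simp; linear_combination h0
      rw [hγ, smul_sub, smul_smul, smul_smul, div_mul_cancel₀ _ h, neg_smul]
      abel
  · intro hdvd
    -- the frame would span at most two dimensions
    set m := eval p m0 • m1 - eval p m1 • m0 with hm
    have hmh : m.IsHomogeneous 1 := by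
      rw [hm, smul_eq_C_mul, smul_eq_C_mul]; exact (hm1.C_mul _).sub (hm0.C_mul _)
    obtain ⟨r, hr⟩ := hdvd
    have hrc : m = (coeff 0 r) • l := by
      have := congrArg (homogeneousComponent 1) hr
      rw [homogeneousComponent_eq_self hmh, homogeneousComponent_mul_left hl, if_pos le_rfl,
        Nat.sub_self, homogeneousComponent_zero] at this
      rw [this, smul_eq_C_mul, mul_comm]
    have hle : ∃ w : Poly3 K, F ≤ Submodule.span K ({l, w} : Set (Poly3 K)) := by
      rcases hne with h | h
      · refine ⟨m0, Submodule.span_le.2 ?_⟩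
        intro x hx
        rcases hx with hx | hx | hx
        · rw [hx]; exact Submodule.subset_span (by simp)
        · rw [hx]; exact Submodule.subset_span (by simp)
        · rw [hx]
          refine Submodule.mem_span_pair.2 ⟨coeff 0 r / eval p m0, eval p m1 / eval p m0, ?_⟩
          rw [hm] at hrc
          have : m1 = (eval p m0)⁻¹ • (coeff 0 r • l + eval p m1 • m0) := by
            rw [← hrc, sub_add_cancel, inv_smul_smul₀ h]
          conv_rhs => rw [this]
          rw [smul_add, smul_smul, smul_smul, div_eq_inv_mul, div_eq_inv_mul]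
      · refine ⟨m1, Submodule.span_le.2 ?_⟩
        intro x hx
        rcases hx with hx | hx | hx
        · rw [hx]; exact Submodule.subset_span (by simp)
        · rw [hx]
          refine Submodule.mem_span_pair.2 ⟨-(coeff 0 r) / eval p m1, eval p m0 / eval p m1, ?_⟩
          rw [hm] at hrc
          have : m0 = (eval p m1)⁻¹ • (-(coeff 0 r) • l + eval p m0 • m1) := by
            rw [neg_smul, ← hrc, neg_sub, sub_add_cancel, inv_smul_smul₀ h]
          conv_rhs => rw [this]
          rw [smul_add, smul_smul, smul_smul, div_eq_inv_mul, div_eq_inv_mul]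
        · rw [hx]; exact Submodule.subset_span (by simp)
    obtain ⟨w, hw⟩ := hle
    classical
    have hS1 : homS K 1 ≤ Submodule.span K ({l, w} : Set (Poly3 K)) := fun g hg => by
      rw [linear_eq_sum hg]
      refine sum_mem fun i _ => ?_
      rw [← smul_eq_C_mul]
      exact Submodule.smul_mem _ _ (hw (hX i))
    have : FiniteDimensional K ↥(Submodule.span K ({l, w} : Set (Poly3 K))) :=
      FiniteDimensional.span_of_finite K (Set.toFinite _)
    have h2 := Submodule.finrank_mono hS1
    have h3 : finrank K ↥(Submodule.span K ({l, w} : Set (Poly3 K))) ≤ 2 := by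
      have := finrank_span_finset_le_card (R := K) ({l, w} : Finset (Poly3 K))
      simp only [Finset.coe_insert, Finset.coe_singleton] at this
      exact this.trans Finset.card_le_two
    have h4 := finrank_homS_succ (K := K) 0
    have h5 := finrank_homS (K := K) 0
    rw [show ((0 : ℕ) : ℤ) + 1 = 1 from rfl, show triNum 1 = 1 from rfl] at h5
    change finrank K (homS K 1) ≤ _ at h2
    simp only [Nat.cast_zero] at h4
    have h6 : (finrank K (homS K 1) : ℤ) = 3 := by linarith
    zify at h2 h3
    linarith

namespace CI3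

variable {C3 : CI3 K} {d : ℕ} {W : Submodule K (Poly3 K)}

lemma cod_nonneg (h : W ≤ homS K d) : 0 ≤ cod d W := by
  have : finrank K W ≤ finrank K (homS K d) := Submodule.finrank_mono h
  unfold cod
  omega

lemma cod_le (h : C3.Sub d W) : cod d W ≤ C3.dimA d := by
  have := h.finite
  have h1 := Submodule.finrank_mono h.1
  rw [C3.dimA_eq]
  unfold cod
  zify at h1
  linarith

lemma cod_anti {W' : Submodule K (Poly3 K)} (h : W ≤ W') (h' : W' ≤ homS K d) :
    cod d W' ≤ cod d W := by
  have : FiniteDimensional K W' := Submodule.finiteDimensional_of_le h'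
  have := Submodule.finrank_mono h
  unfold cod
  omega

lemma eq_homS_of_cod (h : W ≤ homS K d) (h0 : cod d W = 0) : W = homS K d := by
  refine Submodule.eq_of_le_of_finrank_eq h ?_
  unfold cod at h0
  omega

lemma up_homS : C3.up d (homS K d) = homS K (d + 1) := by
  refine le_antisymm (up_le ⟨inf_le_left, le_rfl⟩) fun g hg => ?_
  have hg' : g ∈ homogeneousSubmodule (Fin 3) K d * homogeneousSubmodule (Fin 3) K 1 := by
    have h := (homogeneousSubmodule_one_pow (σ := Fin 3) (R := K))
    rw [← h d, ← pow_succ, h]; exact hg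
  refine Submodule.mul_induction_on hg' (fun u hu l hl => ?_) (fun _ _ ha hb => add_mem ha hb)
  rw [mul_comm]
  exact linear_mul_mem_up hl hu

lemma cod_up_eq_zero (h : C3.Sub d W) (h0 : cod d W = 0) : cod (d + 1) (C3.up d W) = 0 := by
  rw [eq_homS_of_cod h.2 h0, up_homS]
  simp [cod]

lemma up_mono {W' : Submodule K (Poly3 K)} (hle : W ≤ W') : C3.up d W ≤ C3.up d W' :=
  sup_le_sup_right (iSup_mono fun _ => Submodule.map_mono hle) _

/-- Homogeneous coefficients for a member of the complete intersection. -/
lemma exists_repr {t : ℕ} (ht : C3.c ≤ t) {g : Poly3 K} (hg : g.IsHomogeneous t)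
    (hgJ : g ∈ C3.idJ) :
    ∃ u : Fin 3 → Poly3 K, (u 0).IsHomogeneous (t - C3.a) ∧ (u 1).IsHomogeneous (t - C3.b) ∧
      (u 2).IsHomogeneous (t - C3.c) ∧ g = u 0 * C3.fa + u 1 * C3.fb + u 2 * C3.fc := by
  have := C3.hab
  have := C3.hbc
  rcases exists_homog_of_mem_sup C3.homogI_idB C3.homC hg hgJ with ⟨h, -⟩ | ⟨-, uc, huc, h1⟩
  · omega
  have hg1 : (g - C3.fc * uc).IsHomogeneous t := by
    refine hg.sub ?_
    have := C3.homC.mul huc
    rwa [show C3.c + (t - C3.c) = t by omega] at this
  rcases exists_homog_of_mem_sup C3.homogI_fa C3.homB hg1 h1 with ⟨h, -⟩ | ⟨-, ub, hub, h2⟩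
  · omega
  have hg2 : (g - C3.fc * uc - C3.fb * ub).IsHomogeneous t := by
    refine hg1.sub ?_
    have := C3.homB.mul hub
    rwa [show C3.b + (t - C3.b) = t by omega] at this
  obtain ⟨r, hr⟩ := Ideal.mem_span_singleton.1 h2
  refine ⟨![homogeneousComponent (t - C3.a) r, ub, uc], homogeneousComponent_isHomogeneous _ _,
    hub, huc, ?_⟩
  have := congrArg (homogeneousComponent t) hr
  rw [homogeneousComponent_eq_self hg2, homogeneousComponent_mul_left C3.homA,
    if_pos (by omega)] at this
  simp only [Matrix.cons_val_zero, Matrix.cons_val_one, Matrix.cons_val_two, Matrix.head_cons,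
    Matrix.tail_cons]
  linear_combination this

end CI3

end Vale.Agent.P200
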